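import Vale.Agent.P286.Gen.BunLem
import Vale.Agent.P286.St.TD

/-!
# The categories of test objects of `Bun_G(ℙ¹)` and `BG`
-/

namespace Vale.Agent.P286.Gen

open CategoryTheory LaurentPolynomial

noncomputable section

variable {N : ℕ} {A B D : Type} [CommRing A] [Algebra ℂ A] [CommRing B] [Algebra ℂ B]
  [CommRing D] [Algebra ℂ D] {Γ Z : Gps N} {m : ℕ}

/-- The identity. -/
def BunHom.id (X : BunObj Γ Z m) : BunHom X X :=
  ⟨SmAlg.Hm.id X.A, oneP Γ _, oneP Γ _, by exact Glue.id X.g⟩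

/-- The composition. -/
def BunHom.comp {X Y Z' : BunObj Γ Z m} (φ : BunHom X Y) (ψ : BunHom Y Z') : BunHom X Z' :=
  ⟨ψ.f.comp φ.f, cmp ψ.f ψ.a φ.a, cmp ψ.f ψ.b φ.b, by exact Glue.comp φ.glue ψ.glue⟩

instance : Category.{0} (BunObj Γ Z m) where
  Hom X Y := BunHom X Y
  id := BunHom.id
  comp := BunHom.comp
  id_comp φ := by exact BunHom.ext rfl (cmp_one_right φ.f φ.a) (cmp_one_right φ.f φ.b)
  comp_id φ := by exact BunHom.ext rfl (cmp_one_left φ.a) (cmp_one_left φ.b)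
  assoc φ ψ χ := by
    exact BunHom.ext rfl (cmp_assoc ψ.f χ.f χ.a ψ.a φ.a) (cmp_assoc ψ.f χ.f χ.b ψ.b φ.b)

/-- The identity. -/
def BGHom.id (X : BGObj Γ) : BGHom X X := ⟨SmAlg.Hm.id X.A, gone Γ _⟩

/-- The composition. -/
def BGHom.comp {X Y Z' : BGObj Γ} (φ : BGHom X Y) (ψ : BGHom Y Z') : BGHom X Z' :=
  ⟨ψ.f.comp φ.f, gcmp ψ.f ψ.h φ.h⟩

instance : Category.{0} (BGObj Γ) where
  Hom X Y := BGHom X Y
  id := BGHom.id
  comp := BGHom.comp
  id_comp φ := by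
    apply BGHom.ext
    · rfl
    · exact (congrArg (BGHom.h φ * ·) (gm_one _)).trans (mul_one _)
  comp_id φ := by
    apply BGHom.ext
    · rfl
    · exact (one_mul _)
  assoc φ ψ χ := by
    apply BGHom.ext
    · rfl
    · refine (congrArg (BGHom.h χ * ·) (gm_mul _ _ _)).trans ?_
      exact (mul_assoc _ _ _).symm

/-- The stack `Bun_G(ℙ¹)`, `G = Γ'/Z`, with its canonical bundle `ω` and the twist `s`, given by
its test objects. -/
def BunG (Γ Z : Gps N) (m : ℕ) (s : ℂ) : St.TSite where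
  C := BunObj Γ Z m
  A := BunObj.A
  f := BunHom.f
  dl {X Y} φ := delta m (BunHom.f φ) (BunHom.a φ) (BunHom.b φ) X.S Y.S
  cen X := {φ : X ⟶ X | BunHom.f φ = SmAlg.Hm.id X.A ∧
    ∃ ζ ∈ Z, IsCst ζ (BunHom.a φ) ∧ IsCst ζ (BunHom.b φ)}
  s := s

/-- The classifying stack of `Γ'` (without twist), given by its test objects. -/
def BGT (Γ : Gps N) : St.TSite where
  C := BGObj Γ
  A := BGObj.A
  f := BGHom.f
  dl _ := 1
  cen X := {𝟙 X}
  s := 0

end

end Vale.Agent.P286.Gen
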