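import Vale.Agent.P286.Gen.Fr
import Vale.Agent.P286.St.TD

/-!
# Lemmas for the categories of test objects of `Bun_G(ℙ¹)` and `BG`
-/

namespace Vale.Agent.P286.Gen

open CategoryTheory LaurentPolynomial

noncomputable section

variable {N : ℕ} {A B D : Type} [CommRing A] [Algebra ℂ A] [CommRing B] [Algebra ℂ B]
  [CommRing D] [Algebra ℂ D] {Γ Z : Gps N} {m : ℕ}

theorem gm_lmA_id (g : Gr Γ A[T;T⁻¹]) : gm (lmA (AlgHom.id ℂ A)) g = g := by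
  rw [lmA_id, gm_id]

theorem gm_lmA_comp (f : A →ₐ[ℂ] B) (g : B →ₐ[ℂ] D) (x : Gr Γ A[T;T⁻¹]) :
    gm (lmA g) (gm (lmA f) x) = gm (lmA (g.comp f)) x := by
  rw [gm_gm, lmA_comp]

theorem gm_pmA_id (a : Gr Γ (Polynomial A)) : gm (pmA (AlgHom.id ℂ A)) a = a := by
  rw [pmA_id, gm_id]

theorem gm_pmA_comp (f : A →ₐ[ℂ] B) (g : B →ₐ[ℂ] D) (a : Gr Γ (Polynomial A)) :
    gm (pmA g) (gm (pmA f) a) = gm (pmA (g.comp f)) a := by
  rw [gm_gm, pmA_comp]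

theorem Glue.id (g : Gr Γ A[T;T⁻¹]) : Glue m (AlgHom.id ℂ A) g g 1 1 := by
  apply Glue.mk
  rw [map_one, map_one, one_mul, mul_one, gm_lmA_id]

theorem Glue.comp {f : A →ₐ[ℂ] B} {g : B →ₐ[ℂ] D} {x : Gr Γ A[T;T⁻¹]}
    {y : Gr Γ B[T;T⁻¹]} {z : Gr Γ D[T;T⁻¹]} {a b : Gr Γ (Polynomial B)}
    {a' b' : Gr Γ (Polynomial D)}
    (h : Glue m f x y a b) (h' : Glue m g y z a' b') :
    Glue m (g.comp f) x z (cmp g a' a) (cmp g b' b) := by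
  have h3 := congrArg (gm (lmA g)) h.eq
  replace h' := h'.eq
  apply Glue.mk
  rw [cmp_eq, cmp_eq]
  rw [gm_mul, gm_mul, map_neg, map_pos, gm_lmA_comp] at h3
  rw [map_mul, map_mul, ← mul_assoc, h', mul_assoc, h3, mul_assoc]

theorem cmp_one_right (f : A →ₐ[ℂ] B) (x : Gr Γ (Polynomial B)) : cmp f x 1 = x := by
  rw [cmp_eq, gm_one, mul_one]

theorem cmp_one_left (x : Gr Γ (Polynomial A)) : cmp (AlgHom.id ℂ A) 1 x = x := by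
  rw [cmp_eq, one_mul, gm_pmA_id]

theorem cmp_assoc (f : A →ₐ[ℂ] B) (g : B →ₐ[ℂ] D) (x : Gr Γ (Polynomial D))
    (y : Gr Γ (Polynomial B)) (z : Gr Γ (Polynomial A)) :
    cmp g x (cmp f y z) = cmp (g.comp f) (cmp g x y) z := by
  rw [cmp_eq, cmp_eq, cmp_eq, cmp_eq, gm_mul, gm_pmA_comp, mul_assoc]

theorem BunHom.ext {X Y : BunObj Γ Z m} {φ ψ : BunHom X Y} (h1 : φ.f = ψ.f)
    (h2 : φ.a = ψ.a) (h3 : φ.b = ψ.b) : φ = ψ := by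
  cases φ
  cases ψ
  subst h1 h2 h3
  rfl

end

end Vale.Agent.P286.Gen
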