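import Vale.Agent.P286.Gen.Lie

/-!
# The Killing form; derivations are inner
-/

namespace Vale.Agent.P286.Gen

open Matrix

noncomputable section

set_option linter.unusedSectionVars false

attribute [local instance 100] LieRing.ofAssociativeRing LieAlgebra.ofAssociativeAlgebra

variable {N : ℕ} {A B D : Type} [CommRing A] [Algebra ℂ A] [CommRing B] [Algebra ℂ B]
  [CommRing D] [Algebra ℂ D] {Γ : Subgroup (SpecialLinearGroup (Fin N) ℂ)}

/-- The matrix of `ad v` on `𝔤 ⊗ A`. -/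
def adG (Γ : Subgroup (SpecialLinearGroup (Fin N) ℂ)) (v : Fin (dm Γ) → A) :
    Matrix (Fin (dm Γ)) (Fin (dm Γ)) A :=
  Matrix.of fun k j => coG Γ (toG Γ v * cm A (bs Γ j : Matrix (Fin N) (Fin N) ℂ) -
    cm A (bs Γ j : Matrix (Fin N) (Fin N) ℂ) * toG Γ v) k

theorem toG_add (v w : Fin (dm Γ) → A) : toG Γ (v + w) = toG Γ v + toG Γ w := by
  simp only [toG, Pi.add_apply, add_smul, Finset.sum_add_distrib]

theorem toG_smul (a : A) (v : Fin (dm Γ) → A) : toG Γ (a • v) = a • toG Γ v := by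
  simp only [toG, Pi.smul_apply, smul_eq_mul, mul_smul, Finset.smul_sum]

theorem toG_zero : toG Γ (0 : Fin (dm Γ) → A) = 0 := by
  simp [toG]

theorem toG_neg (v : Fin (dm Γ) → A) : toG Γ (-v) = -toG Γ v := by
  simp only [toG, Pi.neg_apply, neg_smul, Finset.sum_neg_distrib]

theorem toG_sub (v w : Fin (dm Γ) → A) : toG Γ (v - w) = toG Γ v - toG Γ w := by
  rw [sub_eq_add_neg, toG_add, toG_neg, ← sub_eq_add_neg]

theorem toG_single (j : Fin (dm Γ)) (a : A) :
    toG Γ (Pi.single j a) = a • cm A (bs Γ j : Matrix (Fin N) (Fin N) ℂ) := by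
  rw [toG, Finset.sum_eq_single j, Pi.single_eq_same]
  · intro i _ hi
    rw [Pi.single_eq_of_ne hi, zero_smul]
  · intro h
    exact absurd (Finset.mem_univ j) h

/-- A matrix acting on coordinates, from its action on the basis. -/
theorem toG_mulVec (M : Matrix (Fin (dm Γ)) (Fin (dm Γ)) A) (v : Fin (dm Γ) → A) :
    toG Γ (M *ᵥ v) = ∑ j, v j • toG Γ (fun i => M i j) := by
  ext a b
  rw [toG_apply, Matrix.sum_apply]
  simp only [Matrix.smul_apply, toG_apply, Matrix.mulVec, dotProduct, Finset.sum_mul,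
    Finset.mul_sum, smul_eq_mul]
  rw [Finset.sum_comm]
  refine Finset.sum_congr rfl fun j _ => Finset.sum_congr rfl fun i _ => by ring

theorem toG_adG (v w : Fin (dm Γ) → A) :
    toG Γ (adG Γ v *ᵥ w) = toG Γ v * toG Γ w - toG Γ w * toG Γ v := by
  have h1 : ∀ j, toG Γ (fun i => adG Γ v i j) =
      toG Γ v * cm A (bs Γ j : Matrix (Fin N) (Fin N) ℂ) -
      cm A (bs Γ j : Matrix (Fin N) (Fin N) ℂ) * toG Γ v := fun j =>
    toG_coG (IsLi.lie (isLi_toG v) (isLi_cm (isLi_bs j)))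
  rw [toG_mulVec]
  simp only [h1]
  conv_rhs => rw [show toG Γ w = ∑ i, w i • cm A (bs Γ i : Matrix (Fin N) (Fin N) ℂ) from rfl]
  rw [Finset.mul_sum, Finset.sum_mul, ← Finset.sum_sub_distrib]
  refine Finset.sum_congr rfl fun j _ => ?_
  rw [Matrix.mul_smul, Matrix.smul_mul, smul_sub]

theorem adG_add (v w : Fin (dm Γ) → A) : adG Γ (v + w) = adG Γ v + adG Γ w := by
  ext k j
  simp only [adG, Matrix.of_apply, Matrix.add_apply, toG_add]
  rw [← Pi.add_apply, ← coG_add]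
  congr 2
  rw [Matrix.add_mul, Matrix.mul_add]
  abel

theorem adG_smul (a : A) (v : Fin (dm Γ) → A) : adG Γ (a • v) = a • adG Γ v := by
  ext k j
  simp only [adG, Matrix.of_apply, Matrix.smul_apply, toG_smul]
  rw [Matrix.smul_mul, Matrix.mul_smul, ← smul_sub, coG_smul]
  rfl

theorem adG_sum {ι : Type*} (s : Finset ι) (v : ι → Fin (dm Γ) → A) :
    adG Γ (∑ i ∈ s, v i) = ∑ i ∈ s, adG Γ (v i) := by
  classical
  induction s using Finset.induction_on with
  | empty =>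
    rw [Finset.sum_empty, Finset.sum_empty]
    have := adG_smul (Γ := Γ) (0 : A) (0 : Fin (dm Γ) → A)
    rwa [zero_smul, zero_smul] at this
  | insert a s ha ih => rw [Finset.sum_insert ha, Finset.sum_insert ha, adG_add, ih]

theorem adG_map (f : A →ₐ[ℂ] B) (v : Fin (dm Γ) → A) :
    adG Γ (fun i => f (v i)) = (adG Γ v).map f := by
  ext i j
  rw [Matrix.map_apply, adG, adG, Matrix.of_apply, Matrix.of_apply, ← coG_map, toG_map]
  congr 1
  rw [Matrix.map_sub f (fun a b => map_sub f a b), Matrix.map_mul, Matrix.map_mul, cm_map]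

/-- Matrices are equal if they act in the same way on the Lie algebra. -/
theorem ext_toG {M M' : Matrix (Fin (dm Γ)) (Fin (dm Γ)) A}
    (h : ∀ v, toG Γ (M *ᵥ v) = toG Γ (M' *ᵥ v)) : M = M' :=
  Matrix.ext_of_mulVec_single fun _ => toG_injective (Γ := Γ) (h _)

theorem adG_lie (v w : Fin (dm Γ) → A) :
    adG Γ (adG Γ v *ᵥ w) = adG Γ v * adG Γ w - adG Γ w * adG Γ v := by
  apply ext_toG
  intro u
  rw [toG_adG, toG_adG, Matrix.sub_mulVec, toG_sub, ← Matrix.mulVec_mulVec, ← Matrix.mulVec_mulVec,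
    toG_adG, toG_adG, toG_adG, toG_adG]
  simp only [Matrix.mul_sub, Matrix.sub_mul, Matrix.mul_assoc]
  abel

theorem adG_swap (v w : Fin (dm Γ) → A) : adG Γ v *ᵥ w = -(adG Γ w *ᵥ v) := by
  apply toG_injective (Γ := Γ)
  rw [toG_neg, toG_adG, toG_adG]
  abel

/-- The adjoint action commutes with the bracket. -/
theorem Adm_adG {x : Matrix (Fin N) (Fin N) A} (hx : IsPt Γ x) (v : Fin (dm Γ) → A) :
    adG Γ (Adm Γ x *ᵥ v) * Adm Γ x = Adm Γ x * adG Γ v := by
  apply ext_toG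
  intro w
  rw [← Matrix.mulVec_mulVec, ← Matrix.mulVec_mulVec, toG_adG, toG_Adm hx, toG_Adm hx, toG_Adm hx,
    toG_adG, Matrix.mul_sub, Matrix.sub_mul]
  have h := hx.adj_mul
  have e : ∀ Y Z : Matrix (Fin N) (Fin N) A, x * Y * x.adjugate * (x * Z * x.adjugate) =
      x * (Y * Z) * x.adjugate := by
    intro Y Z
    calc x * Y * x.adjugate * (x * Z * x.adjugate) = x * Y * (x.adjugate * x) * Z * x.adjugate := by
          simp only [Matrix.mul_assoc]
      _ = _ := by rw [h, Matrix.mul_one]; simp only [Matrix.mul_assoc]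
  rw [e, e]

/-- The Killing form. -/
def kil (Γ : Subgroup (SpecialLinearGroup (Fin N) ℂ)) (v w : Fin (dm Γ) → A) : A :=
  Matrix.trace (adG Γ v * adG Γ w)

/-- The matrix of the Killing form. -/
def kmat (Γ : Subgroup (SpecialLinearGroup (Fin N) ℂ)) : Matrix (Fin (dm Γ)) (Fin (dm Γ)) ℂ :=
  Matrix.of fun i j => kil Γ (Pi.single i (1 : ℂ)) (Pi.single j (1 : ℂ))

theorem adG_single (A : Type) [CommRing A] [Algebra ℂ A] (i : Fin (dm Γ)) :
    adG Γ (Pi.single i (1 : A)) = (adG Γ (Pi.single i (1 : ℂ))).map (algebraMap ℂ A) := by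
  have h := adG_map (Γ := Γ) (Algebra.ofId ℂ A) (Pi.single i (1 : ℂ))
  have h2 : (fun k => (Algebra.ofId ℂ A) ((Pi.single i (1 : ℂ) : Fin (dm Γ) → ℂ) k)) =
      Pi.single i (1 : A) := by
    ext k
    by_cases hk : k = i
    · subst hk; rw [Pi.single_eq_same, Pi.single_eq_same, map_one]
    · rw [Pi.single_eq_of_ne hk, Pi.single_eq_of_ne hk, map_zero]
  rw [h2] at h
  exact h

theorem kil_single (A : Type) [CommRing A] [Algebra ℂ A] (i j : Fin (dm Γ)) :
    kil Γ (Pi.single i (1 : A)) (Pi.single j (1 : A)) = algebraMap ℂ A (kmat Γ i j) := by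
  rw [kil, adG_single A i, adG_single A j, kmat, Matrix.of_apply, kil, ← Matrix.map_mul]
  simp only [Matrix.trace, Matrix.diag_apply, Matrix.map_apply, map_sum]

theorem pi_eq_sum {n : ℕ} (v : Fin n → A) : v = ∑ i, v i • (Pi.single i (1 : A) : Fin n → A) := by
  ext k
  rw [Finset.sum_apply]
  simp [Pi.single_apply]

theorem kil_add_left (v v' w : Fin (dm Γ) → A) : kil Γ (v + v') w = kil Γ v w + kil Γ v' w := by
  rw [kil, adG_add, Matrix.add_mul, Matrix.trace_add]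
  rfl

theorem kil_smul_left (a : A) (v w : Fin (dm Γ) → A) : kil Γ (a • v) w = a * kil Γ v w := by
  rw [kil, adG_smul, Matrix.smul_mul, Matrix.trace_smul]
  rfl

theorem kil_symm (v w : Fin (dm Γ) → A) : kil Γ v w = kil Γ w v := Matrix.trace_mul_comm _ _

theorem kil_sum_left {ι : Type*} (s : Finset ι) (v : ι → Fin (dm Γ) → A) (w : Fin (dm Γ) → A) :
    kil Γ (∑ i ∈ s, v i) w = ∑ i ∈ s, kil Γ (v i) w := by
  rw [kil, adG_sum, Finset.sum_mul, Matrix.trace_sum]
  rfl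

/-- The matrix of the Killing form over `A`. -/
abbrev kmA (Γ : Subgroup (SpecialLinearGroup (Fin N) ℂ)) (A : Type) [CommRing A] [Algebra ℂ A] :
    Matrix (Fin (dm Γ)) (Fin (dm Γ)) A := (kmat Γ).map (algebraMap ℂ A)

theorem kil_eq (v w : Fin (dm Γ) → A) : kil Γ v w = v ⬝ᵥ (kmA Γ A *ᵥ w) := by
  conv_lhs => rw [pi_eq_sum v]
  rw [kil_sum_left]
  simp only [kil_smul_left, dotProduct]
  refine Finset.sum_congr rfl fun i _ => ?_
  congr 1
  conv_lhs => rw [pi_eq_sum w, kil_symm]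
  rw [kil_sum_left]
  simp only [kil_smul_left, Matrix.mulVec, dotProduct]
  refine Finset.sum_congr rfl fun j _ => ?_
  rw [kil_symm, kil_single, mul_comm]
  rfl

/-- The Killing form is nondegenerate. -/
def KilDet (Γ : Subgroup (SpecialLinearGroup (Fin N) ℂ)) : Prop := (kmat Γ).det ≠ 0

theorem KilDet.isUnit (h : KilDet Γ) (A : Type) [CommRing A] [Algebra ℂ A] :
    IsUnit (kmA Γ A).det := by
  have h1 := (algebraMap ℂ A).map_det (kmat Γ)
  have h2 : ((algebraMap ℂ A).mapMatrix (kmat Γ)) = kmA Γ A := rfl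
  rw [h2] at h1
  rw [← h1]
  exact (isUnit_iff_ne_zero.2 h).map _

theorem KilDet.eq_zero (h : KilDet Γ) {v : Fin (dm Γ) → A} (hv : ∀ w, kil Γ v w = 0) : v = 0 := by
  have h1 : v ᵥ* kmA Γ A = 0 := by
    ext j
    have := hv (Pi.single j 1)
    rw [kil_eq, Matrix.dotProduct_mulVec, dotProduct_single, mul_one] at this
    exact this
  have h2 : v ᵥ* (kmA Γ A * (kmA Γ A)⁻¹) = 0 := by
    rw [← Matrix.vecMul_vecMul, h1, Matrix.zero_vecMul]
  rwa [Matrix.mul_nonsing_inv _ (h.isUnit A), Matrix.vecMul_one] at h2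

/-- A linear functional on `𝔤 ⊗ A` is given by the Killing form. -/
theorem KilDet.exists_dual (h : KilDet Γ) (f : Fin (dm Γ) → A) :
    ∃ v : Fin (dm Γ) → A, ∀ w, kil Γ v w = f ⬝ᵥ w := by
  refine ⟨f ᵥ* (kmA Γ A)⁻¹, fun w => ?_⟩
  rw [kil_eq, Matrix.dotProduct_mulVec, Matrix.vecMul_vecMul,
    Matrix.nonsing_inv_mul _ (h.isUnit A), Matrix.vecMul_one]

/-- Derivations are inner. -/
theorem KilDet.inner (h : KilDet Γ) {M : Matrix (Fin (dm Γ)) (Fin (dm Γ)) A}
    (hM : ∀ v, adG Γ (M *ᵥ v) = M * adG Γ v - adG Γ v * M) : ∃ v, adG Γ v = M := by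
  obtain ⟨v, hv⟩ := h.exists_dual (fun i => Matrix.trace (M * adG Γ (Pi.single i (1 : A))))
  have hf : ∀ w, kil Γ v w = Matrix.trace (M * adG Γ w) := by
    intro w
    rw [hv]
    conv_rhs => rw [pi_eq_sum w, adG_sum, Finset.mul_sum, Matrix.trace_sum]
    simp only [dotProduct]
    refine Finset.sum_congr rfl fun i _ => ?_
    rw [adG_smul, Matrix.mul_smul, Matrix.trace_smul, smul_eq_mul, mul_comm]
  refine ⟨v, ?_⟩
  have hE : ∀ u, (M - adG Γ v) *ᵥ u = 0 := by
    intro u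
    apply h.eq_zero
    intro w
    have h1 : adG Γ ((M - adG Γ v) *ᵥ u) = (M - adG Γ v) * adG Γ u - adG Γ u * (M - adG Γ v) := by
      have h2 : adG Γ ((M - adG Γ v) *ᵥ u) = adG Γ (M *ᵥ u) - adG Γ (adG Γ v *ᵥ u) := by
        rw [Matrix.sub_mulVec, sub_eq_add_neg, adG_add]
        have := adG_smul (Γ := Γ) (-1 : A) (adG Γ v *ᵥ u)
        rw [neg_smul, one_smul, neg_smul, one_smul] at this
        rw [this, ← sub_eq_add_neg]
      rw [h2, hM, adG_lie, Matrix.sub_mul, Matrix.mul_sub]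
      abel
    have h3 : Matrix.trace ((M - adG Γ v) * adG Γ (adG Γ u *ᵥ w)) = 0 := by
      rw [Matrix.sub_mul, Matrix.trace_sub, ← hf]
      exact sub_self _
    rw [adG_lie] at h3
    rw [kil, h1, Matrix.sub_mul, Matrix.trace_sub]
    rw [Matrix.mul_sub, Matrix.trace_sub] at h3
    rw [Matrix.mul_assoc, Matrix.mul_assoc (adG Γ u), Matrix.trace_mul_comm (adG Γ u),
      Matrix.mul_assoc]
    exact h3
  have h4 : M - adG Γ v = 0 := by
    apply Matrix.ext_of_mulVec_single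
    intro j
    rw [hE, Matrix.zero_mulVec]
  rw [sub_eq_zero] at h4
  exact h4.symm

theorem KilDet.adG_injective (h : KilDet Γ) {v w : Fin (dm Γ) → A} (e : adG Γ v = adG Γ w) :
    v = w := by
  rw [← sub_eq_zero]
  apply h.eq_zero
  intro u
  rw [kil, sub_eq_add_neg, adG_add]
  have := adG_smul (Γ := Γ) (-1 : A) w
  rw [neg_smul, one_smul, neg_smul, one_smul] at this
  rw [this, e, add_neg_cancel, Matrix.zero_mul, Matrix.trace_zero]

theorem ad_toMatrix (X : lieAlg Γ) :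
    LinearMap.toMatrix (bs Γ) (bs Γ) (LieAlgebra.ad ℂ (lieAlg Γ) X) =
      adG Γ (fun i => (bs Γ).repr X i) := by
  ext i j
  rw [LinearMap.toMatrix_apply, adG, Matrix.of_apply, LieAlgebra.ad_apply]
  have h2 : toG Γ (fun i => (bs Γ).repr X i) = (X : Matrix (Fin N) (Fin N) ℂ) := by
    have h := toG_coG_complex (Γ := Γ) ((mem_lieAlg _).1 X.2)
    refine Eq.trans ?_ h
    congr 1
    ext i
    rw [coG_complex]
  have h3 : cm ℂ (bs Γ j : Matrix (Fin N) (Fin N) ℂ) = bs Γ j := by ext a b; rfl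
  rw [h2, h3]
  have h4 : (X : Matrix (Fin N) (Fin N) ℂ) * (bs Γ j : Matrix (Fin N) (Fin N) ℂ) -
      (bs Γ j : Matrix (Fin N) (Fin N) ℂ) * (X : Matrix (Fin N) (Fin N) ℂ) =
      ((⁅X, bs Γ j⁆ : lieAlg Γ) : Matrix (Fin N) (Fin N) ℂ) := rfl
  rw [h4, coG_complex]

theorem kilDet_of_isKilling [LieAlgebra.IsKilling ℂ (lieAlg Γ)] : KilDet Γ := by
  intro h0
  obtain ⟨v, hv0, hv⟩ := Matrix.exists_vecMul_eq_zero_iff.mpr h0
  apply hv0
  have h1 := LieAlgebra.IsKilling.killingForm_nondegenerate ℂ (lieAlg Γ)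
  have h2 : ∀ w, kil Γ v w = 0 := by
    intro w
    rw [kil_eq, Matrix.dotProduct_mulVec]
    have : kmA Γ ℂ = kmat Γ := by ext i j; rfl
    rw [this, hv, zero_dotProduct]
  let X : lieAlg Γ := (bs Γ).equivFun.symm v
  have hX : (fun i => (bs Γ).repr X i) = v := (bs Γ).equivFun.apply_symm_apply v
  have h3 : X = 0 := by
    apply h1.1
    intro Y
    rw [LieModule.traceForm_apply_apply, LinearMap.trace_eq_matrix_trace ℂ (bs Γ),
      LinearMap.toMatrix_comp (bs Γ) (bs Γ) (bs Γ)]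
    have h5 := ad_toMatrix X
    have h6 := ad_toMatrix Y
    rw [hX] at h5
    exact (congrArg Matrix.trace (congrArg₂ (· * ·) h5 h6)).trans (h2 _)
  rw [← hX, h3]
  ext i
  simp

end

end Vale.Agent.P286.Gen
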