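import Vale.Agent.P286.Gen.Fr
import Vale.Agent.P286.Gen.Kil

/-!
# The rotation `t ↦ ωt` and the centre
-/

namespace Vale.Agent.P286.Gen

open Matrix LaurentPolynomial

noncomputable section

set_option linter.unusedSectionVars false

variable {N : ℕ} {A B : Type} [CommRing A] [Algebra ℂ A] [CommRing B] [Algebra ℂ B]
  {Γ Z : Gps N} {m : ℕ}

/-- `Z` is central in `Γ`. -/
def Cen (Γ Z : Gps N) : Prop := ∀ ζ ∈ Z, ζ ∈ Γ ∧ ∀ γ ∈ Γ, ζ * γ = γ * ζ

section Cent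

variable {ζ : SpecialLinearGroup (Fin N) ℂ}

/-- The polynomial `(ζ x - x ζ)_{ij}`. -/
def cmP (ζ : SpecialLinearGroup (Fin N) ℂ) (i j : Fin N) : Pl N :=
  ∑ k, (MvPolynomial.C (ζ.1 i k) * MvPolynomial.X (k, j) -
    MvPolynomial.X (i, k) * MvPolynomial.C (ζ.1 k j))

theorem ev_cmP (x : Matrix (Fin N) (Fin N) A) (i j : Fin N) :
    ev x (cmP ζ i j) = (cm A ζ.1 * x - x * cm A ζ.1) i j := by
  rw [cmP, map_sum, Matrix.sub_apply, Matrix.mul_apply, Matrix.mul_apply, ← Finset.sum_sub_distrib]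
  refine Finset.sum_congr rfl fun k _ => ?_
  rw [map_sub, map_mul, map_mul, ev, MvPolynomial.aeval_C, MvPolynomial.aeval_C,
    MvPolynomial.aeval_X, MvPolynomial.aeval_X]
  rfl

theorem IsPt.comm {x : Matrix (Fin N) (Fin N) A} (hx : IsPt Γ x)
    (hζ : ∀ γ ∈ Γ, ζ * γ = γ * ζ) : cm A ζ.1 * x = x * cm A ζ.1 := by
  rw [← sub_eq_zero]
  ext i j
  rw [← ev_cmP]
  apply hx
  intro γ hγ
  rw [ev_cmP]
  have h := congrArg (fun y : SpecialLinearGroup (Fin N) ℂ => y.1) (hζ γ hγ)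
  have e : cm ℂ ζ.1 = ζ.1 := by ext a b; rfl
  rw [e, Matrix.sub_apply, sub_eq_zero]
  exact congrFun (congrFun h i) j

theorem cm_du (X : Matrix (Fin N) (Fin N) ℂ) : cm (DualNumber A) X = du (cm A X) 0 := by
  rw [← map_inlA, cm_map]

theorem IsLi.comm {Y : Matrix (Fin N) (Fin N) A} (hY : IsLi Γ Y)
    (hζ : ∀ γ ∈ Γ, ζ * γ = γ * ζ) : cm A ζ.1 * Y = Y * cm A ζ.1 := by
  have h : IsPt Γ (du 1 Y) := hY
  have h2 := h.comm hζ
  rw [cm_du, du_mul, du_mul] at h2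
  ext i j
  have h3 := congrArg TrivSqZeroExt.snd (congrFun (congrFun h2 i) j)
  rw [du_apply, du_apply] at h3
  simpa using h3

theorem Adm_cen (hζ1 : ζ ∈ Γ) (hζ : ∀ γ ∈ Γ, ζ * γ = γ * ζ) : Adm Γ (cm A ζ.1) = 1 := by
  have hp : IsPt Γ (cm A ζ.1) := isPt_cm hζ1
  apply ext_toG
  intro v
  rw [toG_Adm hp, Matrix.one_mulVec, (isLi_toG v).comm hζ, Matrix.mul_assoc, hp.mul_adj,
    Matrix.mul_one]

end Cent

section Rot

variable [NeZero m]

theorem om_pow (k : ℤ) : ((om m : ℂˣ) ^ k : ℂˣ) = 1 ↔ (m : ℤ) ∣ k := by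
  have h : IsPrimitiveRoot (om m) m := by
    have h1 := Complex.isPrimitiveRoot_exp m (NeZero.ne m)
    exact IsPrimitiveRoot.coe_units_iff.1 h1
  exact h.zpow_eq_one_iff_dvd k

/-- The constant `ω ^ k`. -/
def omk (m : ℕ) (A : Type) [CommRing A] [Algebra ℂ A] (k : ℤ) : A :=
  algebraMap ℂ A ((om m ^ k : ℂˣ) : ℂ)

theorem rot_C (a : A) : rot m A (LaurentPolynomial.C a) = LaurentPolynomial.C a := evT_C _ _ a

theorem rot_T (k : ℤ) : rot m A (T k) = LaurentPolynomial.C (omk m A k) * T k := by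
  rw [rot, evT_T, mul_zpow, Units.val_mul, tU_zpow, one_mul, ← map_zpow]
  rfl

theorem rot_coeff (u : A[T;T⁻¹]) (k : ℤ) : (rot m A u).coeff k = omk m A k * u.coeff k := by
  induction u using LaurentPolynomial.induction_on' with
  | add p q hp hq =>
    rw [map_add, AddMonoidAlgebra.coeff_add, Finsupp.add_apply, hp, hq,
      AddMonoidAlgebra.coeff_add, Finsupp.add_apply, mul_add]
  | C_mul_T n a =>
    rw [map_mul, rot_C, rot_T, ← mul_assoc, ← map_mul, ← single_eq_C_mul_T,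
      ← single_eq_C_mul_T, AddMonoidAlgebra.coeff_single, AddMonoidAlgebra.coeff_single,
      Finsupp.single_apply, Finsupp.single_apply]
    split_ifs with h
    · rw [h, mul_comm]
    · rw [mul_zero]

theorem ex_coeff (u : A[T;T⁻¹]) (k : ℤ) : (ex m A u).coeff (m * k) = u.coeff k := by
  have := congrArg (fun v : A[T;T⁻¹] => v.coeff k) (ct_ex (m := m) u)
  exact this

theorem ex_coeff_of_not (u : A[T;T⁻¹]) (k : ℤ) (hk : ¬ (m : ℤ) ∣ k) : (ex m A u).coeff k = 0 := by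
  induction u using LaurentPolynomial.induction_on' with
  | add p q hp hq =>
    rw [map_add, AddMonoidAlgebra.coeff_add, Finsupp.add_apply, hp, hq, add_zero]
  | C_mul_T n a =>
    rw [map_mul, ex_C, ex_T, ← single_eq_C_mul_T, AddMonoidAlgebra.coeff_single,
      Finsupp.single_apply, if_neg]
    rintro rfl
    exact hk (dvd_mul_right _ _)

theorem ex_ct {u : A[T;T⁻¹]} (h : rot m A u = u) : ex m A (ct m u) = u := by
  ext k
  by_cases hk : (m : ℤ) ∣ k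
  · obtain ⟨l, rfl⟩ := hk
    rw [ex_coeff, ct_coeff]
  · rw [ex_coeff_of_not _ _ hk]
    have h1 : (omk m A k - 1) * u.coeff k = 0 := by
      rw [sub_mul, one_mul, ← rot_coeff, h, sub_self]
    have h2 : ((om m ^ k : ℂˣ) : ℂ) - 1 ≠ 0 := by
      rw [sub_ne_zero]
      intro h3
      exact hk ((om_pow k).1 (Units.ext h3))
    have h3 : IsUnit (omk m A k - 1) := by
      have h4 := (isUnit_iff_ne_zero.2 h2).map (algebraMap ℂ A)
      rwa [map_sub, map_one] at h4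
    exact ((h3.mul_right_eq_zero).1 h1).symm

theorem rot_ex (u : A[T;T⁻¹]) : rot m A (ex m A u) = ex m A u := by
  ext k
  rw [rot_coeff]
  by_cases hk : (m : ℤ) ∣ k
  · have h : omk m A k = 1 := by
      rw [omk, (om_pow k).2 hk, Units.val_one, map_one]
    rw [h, one_mul]
  · rw [ex_coeff_of_not _ _ hk, mul_zero]

/-- The transition matrix of the adjoint bundle. -/
def Hm (m : ℕ) [NeZero m] (g : Gr Γ A[T;T⁻¹]) : Matrix (Fin (dm Γ)) (Fin (dm Γ)) A[T;T⁻¹] :=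
  (Adm Γ (mx g)).map (ct m)

theorem toep_Hm (g : Gr Γ A[T;T⁻¹]) : toep m g = vtoep (Hm m g) := toep_def g

/-- `g` is the transition matrix of a bundle for `Γ'/Z`. -/
def TwZ (Z : Gps N) (m : ℕ) (g : Gr Γ A[T;T⁻¹]) : Prop := ∃ ζ ∈ Z, IsTw m ζ g

theorem Hm_ex (hZ : Cen Γ Z) {g : Gr Γ A[T;T⁻¹]} (hg : TwZ Z m g) :
    (Hm m g).map (ex m A) = Adm Γ (mx g) := by
  obtain ⟨ζ, hζ, h⟩ := hg
  rw [isTw_iff] at h
  have h1 : (Adm Γ (mx g)).map (rot m A) = Adm Γ (mx g) := by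
    rw [← Adm_map, h, Adm_mul (isPt_cm (hZ ζ hζ).1) (isPt g), Adm_cen (hZ ζ hζ).1 (hZ ζ hζ).2,
      Matrix.one_mul]
  ext1 i j
  exact ex_ct (congrFun (congrFun h1 i) j)

theorem ex_inj {a b : Type*} {X Y : Matrix a b A[T;T⁻¹]} (h : X.map (ex m A) = Y.map (ex m A)) :
    X = Y := by
  ext1 i j
  exact ex_injective (m := m) (congrFun (congrFun h i) j)

/-- The adjoint representation has determinant `1`. -/
def AdDet (Γ : Gps N) : Prop := ∀ (A : Type) [CommRing A] [Algebra ℂ A]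
  (x : Matrix (Fin N) (Fin N) A), IsPt Γ x → (Adm Γ x).det = 1

theorem Hm_det (hZ : Cen Γ Z) (hd : AdDet Γ) {g : Gr Γ A[T;T⁻¹]} (hg : TwZ Z m g) :
    (Hm m g).det = 1 := by
  apply ex_injective (m := m)
  have h := (ex m A : A[T;T⁻¹] →+* A[T;T⁻¹]).map_det (Hm m g)
  refine h.trans ?_
  have h2 : (ex m A : A[T;T⁻¹] →+* A[T;T⁻¹]).mapMatrix (Hm m g) = Adm Γ (mx g) := Hm_ex hZ hg
  rw [h2, hd _ _ (isPt g), map_one]

theorem Hm_adG (hZ : Cen Γ Z) {g : Gr Γ A[T;T⁻¹]} (hg : TwZ Z m g)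
    (v : Fin (dm Γ) → A[T;T⁻¹]) : adG Γ (Hm m g *ᵥ v) * Hm m g = Hm m g * adG Γ v := by
  apply ex_inj (m := m)
  rw [Matrix.map_mul, Matrix.map_mul, Hm_ex hZ hg, ← adG_map, ← adG_map]
  have h : (fun i => ex m A ((Hm m g *ᵥ v) i)) = Adm Γ (mx g) *ᵥ fun i => ex m A (v i) := by
    ext1 i
    rw [← Hm_ex hZ hg, Matrix.mulVec, Matrix.mulVec, dotProduct, dotProduct, map_sum]
    exact Finset.sum_congr rfl fun j _ => map_mul _ _ _
  rw [h, Adm_adG (isPt g)]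

end Rot

end

end Vale.Agent.P286.Gen
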