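import Vale.Agent.P286.Gen.Sm
import Vale.Agent.P286.Gen.Sane
import Vale.Agent.P286.Gen.Rot
import Vale.Agent.P286.H527.Smth

/-!
# The points of `Γ` act trivially on the cohomology of a cartesian complex on `BΓ'`
-/

namespace Vale.Agent.P286.Gen

open CategoryTheory LaurentPolynomial TensorProduct

noncomputable section

set_option linter.unusedSectionVars false

variable {N : ℕ} {Γ Z : Gps N}

/-- `BG`, as a definition which is not unfolded automatically. -/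
def BGd (Γ Z : Gps N) : Site := BG Γ Z

/-- A test object of `BG`. -/
def BG.pt (Γ Z : Gps N) (A : SmAlg) : (BGd Γ Z).C := (⟨A⟩ : BGObj Γ)

/-- A morphism of test objects of `BG`. -/
def BG.mor (Γ Z : Gps N) {A B : SmAlg} (f : A.R →ₐ[ℂ] B.R) (h : Gr Γ B.R) :
    BG.pt Γ Z A ⟶ BG.pt Γ Z B := (⟨f, h⟩ : BGHom (⟨A⟩ : BGObj Γ) (⟨B⟩ : BGObj Γ))

theorem BG.mor_comp {A B D : SmAlg} (f : A.R →ₐ[ℂ] B.R) (h : Gr Γ B.R) (f' : B.R →ₐ[ℂ] D.R)
    (h' : Gr Γ D.R) : BG.mor Γ Z f h ≫ BG.mor Γ Z f' h' = BG.mor Γ Z (f'.comp f) (h' * gm f' h) := rfl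

theorem BG.mor_id (A : SmAlg) : BG.mor Γ Z (AlgHom.id ℂ A.R) 1 = 𝟙 (BG.pt Γ Z A) := rfl

/-- A point of `Γ`. -/
def gpt {A : Type} [CommRing A] [Algebra ℂ A] {γ : Matrix.SpecialLinearGroup (Fin N) ℂ}
    (hγ : γ ∈ Γ) : Gr Γ A := Gr.mk' (cm A γ.1) (isPt_cm hγ)

theorem gm_gpt {A B : Type} [CommRing A] [Algebra ℂ A] [CommRing B] [Algebra ℂ B] (f : A →ₐ[ℂ] B)
    {γ : Matrix.SpecialLinearGroup (Fin N) ℂ} (hγ : γ ∈ Γ) : gm f (gpt (A := A) hγ) = gpt hγ :=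
  Gr.ext' (cm_map f γ.1)

theorem gpt_mul {A : Type} [CommRing A] [Algebra ℂ A]
    {γ δ : Matrix.SpecialLinearGroup (Fin N) ℂ} (hγ : γ ∈ Γ) (hδ : δ ∈ Γ) :
    (gpt hγ * gpt hδ : Gr Γ A) = gpt (Γ.mul_mem hγ hδ) :=
  Gr.ext' (by
    change cm A γ.1 * cm A δ.1 = cm A (γ * δ).1
    exact (Matrix.map_mul (f := algebraMap ℂ A)).symm)

theorem gpt_one {A : Type} [CommRing A] [Algebra ℂ A] : (gpt Γ.one_mem : Gr Γ A) = 1 :=
  Gr.ext' (Matrix.map_one _ (map_zero _) (map_one _))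

/-- The automorphism of a test object given by a point of `Γ`. -/
def aut (Z : Gps N) {γ : Matrix.SpecialLinearGroup (Fin N) ℂ} (hγ : γ ∈ Γ) (X : (BGd Γ Z).C) : X ⟶ X :=
  (⟨AlgHom.id ℂ _, gpt hγ⟩ : BGHom (X : BGObj Γ) (X : BGObj Γ))

theorem aut_comp {γ δ : Matrix.SpecialLinearGroup (Fin N) ℂ} (hγ : γ ∈ Γ) (hδ : δ ∈ Γ)
    (X : (BGd Γ Z).C) : aut Z hγ X ≫ aut Z hδ X = aut Z (Γ.mul_mem hδ hγ) X := by
  refine BGHom.ext ?_ ?_
  · rfl
  · refine Eq.trans ?_ (gpt_mul hδ hγ)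
    exact congrArg (gpt hδ * ·) (gm_gpt _ hγ)

theorem aut_one (X : (BGd Γ Z).C) : aut Z Γ.one_mem X = 𝟙 X := by
  refine BGHom.ext ?_ ?_
  · rfl
  · exact gpt_one

section Univ

/-- The ring of functions on `Γ'`. -/
abbrev Of (Γ : Gps N) : Type := Pl N ⧸ vanI Γ

/-- An open subset of `Γ'`. -/
abbrev Oh (Γ : Gps N) (H : Pl N) : Type := Localization.Away (Ideal.Quotient.mk (vanI Γ) H)

/-- The functions on an open subset. -/
def toOh (Γ : Gps N) (H : Pl N) : Pl N →ₐ[ℂ] Oh Γ H :=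
  (IsScalarTower.toAlgHom ℂ (Of Γ) (Oh Γ H)).comp (Ideal.Quotient.mkₐ ℂ (vanI Γ))

theorem toOh_van (H : Pl N) {P : Pl N} (hP : P ∈ vanI Γ) : toOh Γ H P = 0 := by
  have h : Ideal.Quotient.mkₐ ℂ (vanI Γ) P = 0 := Ideal.Quotient.eq_zero_iff_mem.2 hP
  rw [toOh, AlgHom.comp_apply, h, map_zero]

/-- The universal point. -/
def ugr (Γ : Gps N) (H : Pl N) : Gr Γ (Oh Γ H) :=
  Gr.mk' ((gen N ℂ).map (toOh Γ H)) (fun _ hP => by
    rw [← map_ev]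
    have h : ev (gen N ℂ) = AlgHom.id ℂ (Pl N) := by
      apply MvPolynomial.algHom_ext
      intro p
      exact MvPolynomial.aeval_X _ _
    rw [h]
    exact toOh_van H hP)

/-- The value at a point of `Γ`. -/
def evO {γ : Matrix.SpecialLinearGroup (Fin N) ℂ} (hγ : γ ∈ Γ) : Of Γ →ₐ[ℂ] ℂ :=
  Ideal.Quotient.liftₐ (vanI Γ) (ev γ.1) (fun _ hP => hP γ hγ)

theorem evO_mk {γ : Matrix.SpecialLinearGroup (Fin N) ℂ} (hγ : γ ∈ Γ) (P : Pl N) :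
    evO hγ (Ideal.Quotient.mk (vanI Γ) P) = ev γ.1 P := rfl

/-- The value at a point of the open subset. -/
def evH {γ : Matrix.SpecialLinearGroup (Fin N) ℂ} (hγ : γ ∈ Γ) {H : Pl N} (h : ev γ.1 H ≠ 0) :
    Oh Γ H →ₐ[ℂ] ℂ :=
  { (IsLocalization.Away.lift (S := Oh Γ H) (Ideal.Quotient.mk (vanI Γ) H)
      (g := (evO hγ : Of Γ →+* ℂ)) (isUnit_iff_ne_zero.2 h) : Oh Γ H →+* ℂ) with
    commutes' := fun c => by
      have h1 : algebraMap ℂ (Oh Γ H) c = algebraMap (Of Γ) (Oh Γ H) (algebraMap ℂ (Of Γ) c) :=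
        IsScalarTower.algebraMap_apply ℂ (Of Γ) (Oh Γ H) c
      change IsLocalization.Away.lift (S := Oh Γ H) (Ideal.Quotient.mk (vanI Γ) H)
        (g := (evO hγ : Of Γ →+* ℂ)) (isUnit_iff_ne_zero.2 h) (algebraMap ℂ (Oh Γ H) c) = _
      rw [h1, IsLocalization.Away.lift_eq]
      exact (evO hγ).commutes c }

theorem evH_toOh {γ : Matrix.SpecialLinearGroup (Fin N) ℂ} (hγ : γ ∈ Γ) {H : Pl N}
    (h : ev γ.1 H ≠ 0) (P : Pl N) : evH hγ h (toOh Γ H P) = ev γ.1 P :=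
  IsLocalization.Away.lift_eq (S := Oh Γ H) (Ideal.Quotient.mk (vanI Γ) H)
    (g := (evO hγ : Of Γ →+* ℂ)) (isUnit_iff_ne_zero.2 h) _

end Univ

section Tens

variable (A O : Type) [CommRing A] [Algebra ℂ A] [CommRing O] [Algebra ℂ O]

theorem smooth_tens [Algebra.Smooth ℂ A] [Algebra.Smooth ℂ O] : Algebra.Smooth ℂ (A ⊗[ℂ] O) :=
  Algebra.Smooth.comp ℂ A (A ⊗[ℂ] O)

/-- The inclusion on the left. -/
def tL : A →ₐ[ℂ] A ⊗[ℂ] O := Algebra.TensorProduct.includeLeft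

/-- The inclusion on the right. -/
def tR : O →ₐ[ℂ] A ⊗[ℂ] O := Algebra.TensorProduct.includeRight

variable {O}

/-- The evaluation. -/
def tE (u : O →ₐ[ℂ] ℂ) : A ⊗[ℂ] O →ₐ[ℂ] A :=
  Algebra.TensorProduct.lift (AlgHom.id ℂ A) ((Algebra.ofId ℂ A).comp u)
    (fun _ _ => Commute.all _ _)

theorem tE_L (u : O →ₐ[ℂ] ℂ) : (tE A u).comp (tL A O) = AlgHom.id ℂ A := by
  apply AlgHom.ext
  intro a
  exact (Algebra.TensorProduct.lift_tmul (AlgHom.id ℂ A) ((Algebra.ofId ℂ A).comp u)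
    (fun _ _ => Commute.all _ _) a 1).trans (by
      rw [map_one, mul_one])

theorem tE_R (u : O →ₐ[ℂ] ℂ) : (tE A u).comp (tR A O) = (Algebra.ofId ℂ A).comp u := by
  apply AlgHom.ext
  intro a
  exact (Algebra.TensorProduct.lift_tmul (AlgHom.id ℂ A) ((Algebra.ofId ℂ A).comp u)
    (fun _ _ => Commute.all _ _) 1 a).trans (by
      rw [map_one, one_mul])

theorem tder_L (v : Derivation ℂ O O) (a : A) : tder A v (tL A O a) = 0 := by
  refine (tder_tmul v a 1).trans ?_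
  rw [Derivation.map_one_eq_zero, TensorProduct.tmul_zero]

theorem tder_R (v : Derivation ℂ O O) (f : O) : tder A v (tR A O f) = tR A O (v f) :=
  tder_tmul v 1 f

end Tens

section Fam

variable (Γ Z) (A : SmAlg) (H : Pl N) [hs : Algebra.Smooth ℂ (Oh Γ H)]

/-- The family. -/
def famA : SmAlg where
  R := A.R ⊗[ℂ] Oh Γ H
  smooth := smooth_tens A.R (Oh Γ H)

/-- The inclusion of `A`. -/
def famL : A.R →ₐ[ℂ] (famA Γ A H).R := tL A.R (Oh Γ H)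

/-- The inclusion of the functions on `Γ'`. -/
def famR : Oh Γ H →ₐ[ℂ] (famA Γ A H).R := tR A.R (Oh Γ H)

/-- The evaluation at a point. -/
def famE (u : Oh Γ H →ₐ[ℂ] ℂ) : (famA Γ A H).R →ₐ[ℂ] A.R := tE A.R u

theorem famE_L (u : Oh Γ H →ₐ[ℂ] ℂ) : (famE Γ A H u).comp (famL Γ A H) = AlgHom.id ℂ A.R :=
  tE_L A.R u

theorem famE_R (u : Oh Γ H →ₐ[ℂ] ℂ) : (famE Γ A H u).comp (famR Γ A H) =
    (Algebra.ofId ℂ A.R).comp u := tE_R A.R u

/-- The family of test objects. -/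
def smData : SmData (BGd Γ Z) (BG.pt Γ Z A) (BG.pt Γ Z (famA Γ A H)) (Oh Γ H) where
  ι := BG.mor Γ Z (famL Γ A H) 1
  j := famR Γ A H
  κ := Module.Basis.ofVectorSpaceIndex ℂ (Oh Γ H)
  b := Module.Basis.ofVectorSpace ℂ (Oh Γ H)
  E := tensE A.R (Module.Basis.ofVectorSpace ℂ (Oh Γ H))
  hE k := tensE_single _ k
  der v := tder A.R v
  der_res v a := tder_L A.R v a
  der_j v f := tder_R A.R v f
  der_dl v := Derivation.map_one_eq_zero (tder A.R v)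

end Fam

/-- Two points of the open subset act in the same way on the cohomology. -/
theorem aut_bd_open [hP : (vanI Γ).IsPrime] {s : ℂ} {K : TCx (BGd Γ Z) s} (hK : Cartesian K)
    (A : SmAlg) (H : Pl N) (hH : H ∉ vanI Γ) [hs : Algebra.Smooth ℂ (Oh Γ H)]
    {γ δ : Matrix.SpecialLinearGroup (Fin N) ℂ} (hγ : γ ∈ Γ) (hδ : δ ∈ Γ)
    (h : ev γ.1 H ≠ 0) (h' : ev δ.1 H ≠ 0) (i : ℤ) (z : K.obj i (BG.pt Γ Z A))
    (hz : K.Cyc (BG.pt Γ Z A) i z) :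
    K.Bd (BG.pt Γ Z A) i (K.map (aut Z hγ (BG.pt Γ Z A)) i z -
      K.map (aut Z hδ (BG.pt Γ Z A)) i z) := by
  have hne : Ideal.Quotient.mk (vanI Γ) H ≠ 0 := fun h0 => hH (Ideal.Quotient.eq_zero_iff_mem.1 h0)
  have : IsDomain (Oh Γ H) :=
    IsLocalization.isDomain_localization (powers_le_nonZeroDivisors_of_noZeroDivisors hne)
  have : Algebra.FiniteType ℂ (Of Γ) :=
    Algebra.FiniteType.of_surjective (Ideal.Quotient.mkₐ ℂ (vanI Γ))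
      (Ideal.Quotient.mkₐ_surjective ℂ (vanI Γ))
  have : Algebra.FiniteType ℂ (Oh Γ H) := inferInstance
  let D := smData Γ Z A H
  let σ : BG.pt Γ Z A ⟶ BG.pt Γ Z (famA Γ A H) :=
    BG.mor Γ Z (famL Γ A H) (gm (famR Γ A H) (ugr Γ H))
  have hσ : ∀ v : Derivation ℂ (Oh Γ H) (Oh Γ H),
      (HomologicalComplex.X K i).act _ (D.der v) (K.map σ i z) = 0 := by
    intro v
    have h1 := (HomologicalComplex.X K i).map_act σ (D.der v) 0 ![] ![]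
      (by intro a; rw [Finset.univ_eq_empty, Finset.sum_empty]; exact D.der_res v a) z
    have h2 : D.der v ((BGd Γ Z).dl σ : (BGd Γ Z).R (BG.pt Γ Z (famA Γ A H))) = 0 :=
      Derivation.map_one_eq_zero (D.der v)
    rw [h2, mul_zero, zero_smul, sub_zero, Finset.univ_eq_empty, Finset.sum_empty] at h1
    exact h1
  have hε : ∀ {γ : Matrix.SpecialLinearGroup (Fin N) ℂ} (hγ : γ ∈ Γ) (h : ev γ.1 H ≠ 0),
      σ ≫ BG.mor Γ Z (famE Γ A H (evH hγ h)) 1 = aut Z hγ (BG.pt Γ Z A) := by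
    intro γ hγ h
    refine BGHom.ext ?_ ?_
    · exact famE_L Γ A H _
    · refine (one_mul _).trans ?_
      apply Gr.ext'
      change (((gen N ℂ).map (toOh Γ H)).map (famR Γ A H)).map (famE Γ A H (evH hγ h)) = cm A.R γ.1
      ext1 a b
      have h3 := AlgHom.congr_fun (famE_R Γ A H (evH hγ h)) (toOh Γ H (MvPolynomial.X (a, b)))
      refine h3.trans ?_
      rw [AlgHom.comp_apply, evH_toOh]
      have h4 : ev γ.1 (MvPolynomial.X (a, b)) = γ.1 a b := MvPolynomial.aeval_X _ _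
      rw [h4]
      rfl
  have hι : ∀ u : Oh Γ H →ₐ[ℂ] ℂ, D.ι ≫ BG.mor Γ Z (famE Γ A H u) 1 = 𝟙 (BG.pt Γ Z A) := by
    intro u
    refine BGHom.ext ?_ ?_
    · exact famE_L Γ A H _
    · exact (one_mul _).trans (gm_one _)
  have key := D.const hK i (K.map σ i z) (hz.map σ) (fun v => by
    rw [hσ]
    exact TCx.Bd.zero) (BG.mor Γ Z (famE Γ A H (evH hγ h)) 1)
    (BG.mor Γ Z (famE Γ A H (evH hδ h')) 1) (evH hγ h) (evH hδ h') (hι _) (hι _)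
    (fun f => AlgHom.congr_fun (famE_R Γ A H (evH hγ h)) f)
    (fun f => AlgHom.congr_fun (famE_R Γ A H (evH hδ h')) f)
  rw [← K.map_comp, ← K.map_comp, hε hγ h, hε hδ h'] at key
  exact key

/-- **The points of `Γ` act trivially on the cohomology of cartesian complexes.** -/
theorem aut_bd (hP : (vanI Γ).IsPrime) {s : ℂ} {K : TCx (BGd Γ Z) s} (hK : Cartesian K)
    (X : (BGd Γ Z).C) {ζ : Matrix.SpecialLinearGroup (Fin N) ℂ} (hζ : ζ ∈ Γ) (i : ℤ) (z : K.obj i X)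
    (hz : K.Cyc X i z) : K.Bd X i (K.map (aut Z hζ X) i z - z) := by
  obtain ⟨A, rfl⟩ : ∃ A, X = BG.pt Γ Z A := ⟨BGObj.A X, rfl⟩
  -- a smooth open subset
  have : Algebra.FiniteType ℂ (Of Γ) :=
    Algebra.FiniteType.of_surjective (Ideal.Quotient.mkₐ ℂ (vanI Γ))
      (Ideal.Quotient.mkₐ_surjective ℂ (vanI Γ))
  obtain ⟨h₁, hne, hsm⟩ := exists_smooth_loc (1 : Of Γ) one_ne_zero
  obtain ⟨H, hH⟩ := Ideal.Quotient.mk_surjective ((1 : Of Γ) * h₁)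
  have hHv : H ∉ vanI Γ := fun h0 => hne (by rw [← hH]; exact Ideal.Quotient.eq_zero_iff_mem.2 h0)
  have hsm' : Algebra.Smooth ℂ (Oh Γ H) := by
    unfold Oh
    rw [hH]
    exact hsm
  -- a point `γ` with `γ` and `ζγ` in the open subset
  have hT : ∀ δ : Matrix.SpecialLinearGroup (Fin N) ℂ, ev δ.1 (ev (cs ζ.1 * gen N ℂ) H) =
      ev (ζ * δ).1 H := by
    intro δ
    have h1 := evl_cs_mul_gen (A := ℂ) (B := ℂ) (AlgHom.id ℂ ℂ) δ.1 ζ.1 H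
    have h2 : (evl (AlgHom.id ℂ ℂ) δ.1 : Pl N →ₐ[ℂ] ℂ) = ev δ.1 := by
      apply MvPolynomial.algHom_ext
      intro p
      refine (evl_X (A := ℂ) (B := ℂ) (AlgHom.id ℂ ℂ) δ.1 p).trans ?_
      exact (MvPolynomial.aeval_X (fun p : Fin N × Fin N => δ.1 p.1 p.2) p).symm
    rw [h2, map_id'] at h1
    exact h1
  have hTv : ev (cs ζ.1 * gen N ℂ) H ∉ vanI Γ := by
    intro h0
    apply hHv
    intro γ hγ
    have h1 := h0 (ζ⁻¹ * γ) (Γ.mul_mem (Γ.inv_mem hζ) hγ)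
    rw [hT, mul_inv_cancel_left] at h1
    exact h1
  have hmul : H * ev (cs ζ.1 * gen N ℂ) H ∉ vanI Γ := fun h0 =>
    (hP.mem_or_mem h0).elim hHv hTv
  obtain ⟨γ, hγ, hγ0⟩ : ∃ γ ∈ Γ, ev γ.1 (H * ev (cs ζ.1 * gen N ℂ) H) ≠ 0 := by
    by_contra hcon
    push Not at hcon
    exact hmul hcon
  rw [map_mul, hT] at hγ0
  have h1 : ev γ.1 H ≠ 0 := left_ne_zero_of_mul hγ0
  have h2 : ev (ζ * γ).1 H ≠ 0 := right_ne_zero_of_mul hγ0
  let X : (BGd Γ Z).C := BG.pt Γ Z A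
  have h3 := aut_bd_open hK A H hHv (Γ.mul_mem hζ hγ) hγ h2 h1 i
    (K.map (aut Z (Γ.inv_mem hγ) X) i z) (hz.map (aut Z (Γ.inv_mem hγ) X))
  have h4 : K.map (aut Z hγ X) i (K.map (aut Z (Γ.inv_mem hγ) X) i z) = z := by
    rw [← K.map_comp, aut_comp]
    have h6 : ∀ (δ : Matrix.SpecialLinearGroup (Fin N) ℂ) (hδ : δ ∈ Γ), δ = 1 →
        aut Z hδ X = 𝟙 X := by
      rintro δ hδ rfl
      exact aut_one X
    rw [h6 _ (Γ.mul_mem hγ (Γ.inv_mem hγ)) (mul_inv_cancel γ), K.map_id]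
  have h5 : K.map (aut Z (Γ.mul_mem hζ hγ) X) i (K.map (aut Z (Γ.inv_mem hγ) X) i z) =
      K.map (aut Z hζ X) i z := by
    rw [← aut_comp hγ hζ, K.map_comp, h4]
  rw [h4, h5] at h3
  exact h3

end

end Vale.Agent.P286.Gen
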