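import Vale.Agent.P286.Gen.Lie

/-!
# Solutions of linear differential equations with values in `G`
-/

namespace Vale.Agent.P286.Gen

open Matrix

noncomputable section

set_option linter.unusedSectionVars false

variable {N : ℕ} {A B D : Type} [CommRing A] [Algebra ℂ A] [CommRing B] [Algebra ℂ B]
  [CommRing D] [Algebra ℂ D] {Γ : Subgroup (SpecialLinearGroup (Fin N) ℂ)}

/-- The chain rule. -/
theorem der_ev (v : Derivation ℂ A A) (x : Matrix (Fin N) (Fin N) A) (P : Pl N) :
    v (ev x P) = ∑ p : Fin N × Fin N, v (x p.1 p.2) * dcf x p P := by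
  have h1 : derA v (ev x P) = ev (du x (x.map v)) P := map_ev (derA v) x P
  rw [ev_du] at h1
  have h2 := congrArg TrivSqZeroExt.snd h1
  change TrivSqZeroExt.snd (TrivSqZeroExt.inl (ev x P) + TrivSqZeroExt.inr (v (ev x P))) = _ at h2
  simpa using h2

/-- The derivative of a polynomial along the right invariant vector field defined by `C`. -/
def rder (C : Matrix (Fin N) (Fin N) A) (P : Pl N) : MvPolynomial (Fin N × Fin N) A :=
  ∑ p : Fin N × Fin N, (cs C * gen N A) p.1 p.2 * dcf (gen N A) p P

theorem evl_rder (f : A →ₐ[ℂ] B) (x : Matrix (Fin N) (Fin N) B) (C : Matrix (Fin N) (Fin N) A)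
    (P : Pl N) : evl f x (rder C P) = ∑ p : Fin N × Fin N, (C.map f * x) p.1 p.2 * dcf x p P := by
  rw [rder, map_sum]
  refine Finset.sum_congr rfl fun p _ => ?_
  rw [map_mul]
  congr 1
  · have h : (cs C * gen N A).map (evl f x) = C.map f * x := by
      rw [Matrix.map_mul, cs_map, gen_map]
    rw [← h]
    rfl
  · rw [dcf, evl_ev, gen_map]
    rfl

theorem rder_mem {C : Matrix (Fin N) (Fin N) A} (hC : IsLi Γ C) {P : Pl N} (hP : P ∈ van Γ) :
    rder C P ∈ vanA Γ A := by
  apply mem_vanA
  intro γ hγ
  rw [evl_rder, map_id']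
  have h := IsPt.mul (Γ := Γ) hC (IsPt.du (isPt_cm (A := A) hγ))
  rw [du_mul, Matrix.one_mul, Matrix.mul_zero, zero_add] at h
  have h1 := h P hP
  rw [ev_du] at h1
  have h2 := congrArg TrivSqZeroExt.snd h1
  simpa using h2

/-- The derivation `X d/dX`. -/
def xder (B : Type) [CommRing B] [Algebra ℂ B] : Derivation ℂ (Polynomial B) (Polynomial B) :=
  (Polynomial.X : Polynomial B) • (Derivation.restrictScalars ℂ (Polynomial.derivative' (R := B)))

theorem xder_apply (p : Polynomial B) : xder B p = Polynomial.X * Polynomial.derivative p := rfl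

theorem xder_coeff (p : Polynomial B) (n : ℕ) : (xder B p).coeff n = p.coeff n * (n : B) := by
  rw [xder_apply]
  cases n with
  | zero => simp
  | succ n =>
    rw [Polynomial.coeff_X_mul, Polynomial.coeff_derivative]
    push_cast
    ring

theorem nat_mul_eq_zero {b : B} {n : ℕ} (hn : n ≠ 0) (h : b * (n : B) = 0) : b = 0 := by
  have h1 : (algebraMap ℂ B (n : ℂ)⁻¹) * (n : B) = 1 := by
    rw [← map_natCast (algebraMap ℂ B), ← map_mul, inv_mul_cancel₀ (by exact_mod_cast hn), map_one]
  calc b = b * ((algebraMap ℂ B (n : ℂ)⁻¹) * (n : B)) := by rw [h1, mul_one]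
    _ = (b * (n : B)) * (algebraMap ℂ B (n : ℂ)⁻¹) := by ring
    _ = 0 := by rw [h, zero_mul]

/-- A solution of `X dx/dX = X C x`, `x(0) = 1` with `C ∈ 𝔤 ⊗ B[X]` is a point of `G`. -/
theorem isPt_of_ode {x C : Matrix (Fin N) (Fin N) (Polynomial B)} (hC : IsLi Γ C)
    (h0 : x.map (Polynomial.eval 0) = 1) (hx : x.map (xder B) = (Polynomial.X : Polynomial B) • (C * x)) :
    IsPt Γ x := by
  have key : ∀ n : ℕ, ∀ Q ∈ vanA Γ (Polynomial B), evl (AlgHom.id ℂ (Polynomial B)) x Q ∈
      Ideal.span {(Polynomial.X : Polynomial B) ^ n} := by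
    intro n
    induction n with
    | zero =>
      intro Q _
      rw [pow_zero, Ideal.span_singleton_one]
      exact Submodule.mem_top
    | succ n ih =>
      have h : vanA Γ (Polynomial B) ≤ Ideal.comap (evl (AlgHom.id ℂ (Polynomial B)) x)
          (Ideal.span {(Polynomial.X : Polynomial B) ^ (n + 1)}) := by
        conv_lhs => unfold vanA
        rw [Ideal.map_le_iff_le_comap]
        intro P hP
        rw [Ideal.mem_comap, Ideal.mem_comap, evl_pmap]
        have h1 : xder B (ev x P) = Polynomial.X * evl (AlgHom.id ℂ (Polynomial B)) x (rder C P) := by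
          rw [der_ev, evl_rder, map_id', Finset.mul_sum]
          refine Finset.sum_congr rfl fun p _ => ?_
          rw [← mul_assoc]
          congr 1
          exact congrFun (congrFun hx p.1) p.2
        have h2 := ih _ (rder_mem hC hP)
        rw [Ideal.mem_span_singleton] at h2 ⊢
        obtain ⟨q, hq⟩ := h2
        rw [hq] at h1
        rw [Polynomial.X_pow_dvd_iff]
        intro k hk
        rcases Nat.eq_zero_or_pos k with h3 | h3
        · subst h3
          rw [Polynomial.coeff_zero_eq_eval_zero]
          have h4 : (Polynomial.eval 0 (ev x P) : B) = ev (x.map (Polynomial.eval 0)) P := by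
            have := map_ev ((Polynomial.aeval (0 : B)).restrictScalars ℂ) x P
            exact this
          rw [h4, h0]
          exact isPt_one P hP
        · have h5 := congrArg (fun p => Polynomial.coeff p k) h1
          simp only [xder_coeff] at h5
          have h6 : (Polynomial.X * (Polynomial.X ^ n * q)).coeff k = 0 := by
            rw [← mul_assoc, ← pow_succ', Polynomial.coeff_X_pow_mul', if_neg (by omega)]
          rw [h6] at h5
          exact nat_mul_eq_zero h3.ne' h5
      exact h
  intro P hP
  ext k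
  have h1 := key (k + 1) (pmap (Polynomial B) P) (Ideal.mem_map_of_mem _ hP)
  rw [evl_pmap, Ideal.mem_span_singleton, Polynomial.X_pow_dvd_iff] at h1
  rw [h1 k (Nat.lt_succ_self k), Polynomial.coeff_zero]

end

end Vale.Agent.P286.Gen
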