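import Mathlib

/-!
# Generalized eigenvectors and spectral projections
-/

namespace Vale.Agent.P286.Gen

open Polynomial

section CRT

variable {k ι : Type*} [Field k] [DecidableEq ι]

theorem isCoprime_pow_sub {a b : k} (h : a ≠ b) (n m : ℕ) :
    IsCoprime ((X - C a : k[X]) ^ n) ((X - C b) ^ m) :=
  (isCoprime_X_sub_C_of_isUnit_sub (sub_ne_zero_of_ne h).isUnit).pow

/-- The polynomial `∏ (X - e i) ^ n`. -/
noncomputable def spp (S : Finset ι) (e : ι → k) (n : ℕ) : k[X] := ∏ i ∈ S, (X - C (e i)) ^ n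

/-- Chinese remainder theorem. -/
theorem crt (S : Finset ι) {e : ι → k} (he : Function.Injective e) (n : ℕ) :
    ∃ Q : ι → k[X], (∀ i ∈ S, (X - C (e i)) ^ n ∣ Q i - 1) ∧
      ∀ i ∈ S, ∀ j ∈ S, j ≠ i → (X - C (e j)) ^ n ∣ Q i := by
  have h : ∀ i, IsCoprime (∏ j ∈ S.erase i, (X - C (e j) : k[X]) ^ n) ((X - C (e i)) ^ n) := by
    intro i
    apply IsCoprime.prod_left
    intro j hj
    exact isCoprime_pow_sub (fun h => (Finset.ne_of_mem_erase hj) (he h)) n n
  choose a b hab using h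
  refine ⟨fun i => a i * ∏ j ∈ S.erase i, (X - C (e j)) ^ n, fun i _ => ?_, fun i _ j hj hji => ?_⟩
  · refine ⟨-b i, ?_⟩
    linear_combination hab i
  · exact Dvd.dvd.mul_left (Finset.dvd_prod_of_mem _ (Finset.mem_erase.2 ⟨hji, hj⟩)) _

theorem spp_dvd_sum {S : Finset ι} {e : ι → k} (he : Function.Injective e) {n : ℕ} {Q : ι → k[X]}
    (h1 : ∀ i ∈ S, (X - C (e i)) ^ n ∣ Q i - 1)
    (h2 : ∀ i ∈ S, ∀ j ∈ S, j ≠ i → (X - C (e j)) ^ n ∣ Q i) :
    spp S e n ∣ ∑ i ∈ S, Q i - 1 := by
  apply Finset.prod_dvd_of_coprime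
  · intro i _ j _ hij
    exact isCoprime_pow_sub (fun h => hij (he h)) n n
  · intro j hj
    rw [← Finset.add_sum_erase S Q hj]
    have h3 : Q j + ∑ i ∈ S.erase j, Q i - 1 = (Q j - 1) + ∑ i ∈ S.erase j, Q i := by ring
    rw [h3]
    refine dvd_add (h1 j hj) (Finset.dvd_sum fun i hi => ?_)
    exact h2 i (Finset.mem_of_mem_erase hi) j hj (Finset.ne_of_mem_erase hi).symm

theorem spp_dvd_mul {S : Finset ι} {e : ι → k} (he : Function.Injective e) {n : ℕ} {Q : ι → k[X]}
    (h2 : ∀ i ∈ S, ∀ j ∈ S, j ≠ i → (X - C (e j)) ^ n ∣ Q i) {i : ι} (hi : i ∈ S) :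
    spp S e n ∣ (X - C (e i)) ^ n * Q i := by
  apply Finset.prod_dvd_of_coprime
  · intro i _ j _ hij
    exact isCoprime_pow_sub (fun h => hij (he h)) n n
  · intro j hj
    by_cases hji : j = i
    · subst hji
      exact dvd_mul_right _ _
    · exact Dvd.dvd.mul_left (h2 i hi j hj hji) _

end CRT

section Kill

variable {k : Type*} [Field k] {E : Type*} [Ring E] [Algebra k E]

theorem aeval_dvd {c : E} {P Q : k[X]} (h : P ∣ Q) (hP : aeval c P = 0) : aeval c Q = 0 := by
  obtain ⟨R, rfl⟩ := h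
  rw [map_mul, hP, zero_mul]

/-- If `P₁(c) Q(c) y = 0` and `P₂(c) y = 0` and `P₁`, `P₂` are coprime, then `Q(c) y = 0`. -/
theorem coprime_kill {c y : E} {P₁ P₂ Q : k[X]} (h : IsCoprime P₁ P₂)
    (h1 : aeval c (P₁ * Q) * y = 0) (h2 : aeval c P₂ * y = 0) : aeval c Q * y = 0 := by
  obtain ⟨u, v, huv⟩ := h
  have h3 : Q = u * (P₁ * Q) + v * Q * P₂ := by linear_combination (-Q) * huv
  rw [h3, map_add, add_mul, map_mul (aeval c) u (P₁ * Q), mul_assoc, h1, mul_zero,
    map_mul (aeval c) (v * Q) P₂, mul_assoc, h2, mul_zero, add_zero]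

end Kill

section Leib

/-- The Leibniz rule for generalized eigenvectors. -/
theorem leib {M₁ M₂ M₃ : Type*} [AddCommGroup M₁] [AddCommGroup M₂] [AddCommGroup M₃]
    (β : M₁ →+ M₂ →+ M₃) {δ₁ : M₁ → M₁} {δ₂ : M₂ → M₂} (δ₃ : M₃ →+ M₃)
    (h : ∀ x y, δ₃ (β x y) = β (δ₁ x) y + β x (δ₂ y)) :
    ∀ (s a b : ℕ), a + b = s → ∀ x y, δ₁^[a] x = 0 → δ₂^[b] y = 0 → δ₃^[s] (β x y) = 0 := by
  intro s
  induction s with
  | zero =>
    intro a b hab x y hx hy
    have ha : a = 0 := by omega
    subst ha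
    rw [Function.iterate_zero, id] at hx ⊢
    rw [hx, map_zero, AddMonoidHom.zero_apply]
  | succ s ih =>
    intro a b hab x y hx hy
    rw [Function.iterate_succ_apply, h]
    have hadd : ∀ (n : ℕ) (u v : M₃), δ₃^[n] (u + v) = δ₃^[n] u + δ₃^[n] v := by
      intro n
      induction n with
      | zero => intro u v; rfl
      | succ n ihn =>
        intro u v
        rw [Function.iterate_succ_apply, map_add, ihn, ← Function.iterate_succ_apply,
          ← Function.iterate_succ_apply]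
    have hz : ∀ n : ℕ, δ₃^[n] (0 : M₃) = 0 := by
      intro n
      induction n with
      | zero => rfl
      | succ n ihn => rw [Function.iterate_succ_apply, map_zero, ihn]
    rw [hadd]
    rcases Nat.eq_zero_or_pos a with ha | ha
    · subst ha
      rw [Function.iterate_zero, id] at hx
      subst hx
      have h1 : β (δ₁ 0) y + β 0 (δ₂ y) = 0 := by
        rw [← h, map_zero, AddMonoidHom.zero_apply, map_zero]
      rw [← hadd, h1, hz]
    rcases Nat.eq_zero_or_pos b with hb | hb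
    · subst hb
      rw [Function.iterate_zero, id] at hy
      subst hy
      have h1 : β (δ₁ x) 0 + β x (δ₂ 0) = 0 := by
        rw [← h, map_zero, map_zero]
      rw [← hadd, h1, hz]
    obtain ⟨a', rfl⟩ : ∃ a', a = a' + 1 := ⟨a - 1, by omega⟩
    obtain ⟨b', rfl⟩ : ∃ b', b = b' + 1 := ⟨b - 1, by omega⟩
    rw [ih a' (b' + 1) (by omega) (δ₁ x) y (by rw [← Function.iterate_succ_apply]; exact hx) hy,
      ih (a' + 1) b' (by omega) x (δ₂ y) hx (by rw [← Function.iterate_succ_apply]; exact hy),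
      add_zero]

end Leib

section Com

variable {k : Type*} [Field k] {E : Type*} [Ring E] [Algebra k E]

/-- `v ↦ c v - v c - λ v` -/
def adl (c : E) (l : k) (v : E) : E := c * v - v * c - l • v

theorem iterate_mul (c : E) (n : ℕ) (y : E) : (fun y => c * y)^[n] y = c ^ n * y := by
  induction n generalizing y with
  | zero => rw [Function.iterate_zero, id, pow_zero, one_mul]
  | succ n ih => rw [Function.iterate_succ_apply, ih, ← mul_assoc, pow_succ]

theorem aeval_pow_sub (c : E) (a : k) (n : ℕ) :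
    aeval c ((X - C a) ^ n : k[X]) = (c - algebraMap k E a) ^ n := by
  rw [map_pow, map_sub, aeval_X, aeval_C]

/-- If `v` is a generalized eigenvector of `ad c` with eigenvalue `μ` and `y` is a generalized
eigenvector of `c` with eigenvalue `b`, then `v y` is a generalized eigenvector of `c` with the
eigenvalue `b + μ`. -/
theorem eig_mul {c v y : E} {μ b : k} {m n : ℕ} (hv : (adl c μ)^[m] v = 0)
    (hy : aeval c ((X - C b) ^ n : k[X]) * y = 0) :
    aeval c ((X - C (b + μ)) ^ (m + n) : k[X]) * (v * y) = 0 := by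
  rw [aeval_pow_sub] at hy ⊢
  have h := leib (AddMonoidHom.mul : E →+ E →+ E) (δ₁ := adl c μ)
    (δ₂ := fun y => (c - algebraMap k E b) * y)
    (AddMonoidHom.mulLeft (c - algebraMap k E (b + μ))) (by
      intro x y
      change (c - algebraMap k E (b + μ)) * (x * y) = adl c μ x * y +
        x * ((c - algebraMap k E b) * y)
      unfold adl
      have h1 : algebraMap k E b * (x * y) = x * (algebraMap k E b * y) := by
        rw [← mul_assoc, Algebra.commutes b x, mul_assoc]
      rw [Algebra.smul_def, map_add, sub_mul, add_mul, h1]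
      noncomm_ring) (m + n) m n rfl v y hv (by rw [iterate_mul]; exact hy)
  have h2 : ∀ z : E, (AddMonoidHom.mulLeft (c - algebraMap k E (b + μ)))^[m + n] z =
      (c - algebraMap k E (b + μ)) ^ (m + n) * z := fun z => iterate_mul _ _ z
  rw [h2] at h
  exact h

/-- `q_γ(c) v q_β(c) = 0` unless `γ = β + μ`. -/
theorem proj_eig_mul {c v : E} {μ b g : k} {m n : ℕ} {Qg Qb : k[X]}
    (hv : (adl c μ)^[m] v = 0) (hb : aeval c ((X - C b) ^ n * Qb) = 0)
    (hg : aeval c ((X - C g) ^ n * Qg) = 0) (hne : g ≠ b + μ) :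
    aeval c Qg * (v * aeval c Qb) = 0 := by
  have h1 := eig_mul (y := aeval c Qb) hv (by rw [← map_mul]; exact hb)
  exact coprime_kill (isCoprime_pow_sub hne n (m + n)) (by rw [hg, zero_mul]) h1

end Com

end Vale.Agent.P286.Gen
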