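import Vale.Agent.P286.Gen.Grad2
import Vale.Agent.P286.Gen.Spec
import Vale.Agent.P286.So.Torus

/-!
# The weight of a grading on the determinant line
-/

namespace Vale.Agent.P286.Gen

open Matrix LaurentPolynomial

noncomputable section

set_option linter.unusedSectionVars false

section Proj

variable {d : ℕ}

/-- The values of `l`. -/
def lset (l : Fin d → ℤ) : Finset ℤ := Finset.univ.image l

theorem cast_inj' : Function.Injective (fun k : ℤ => (k : ℂ)) := Int.cast_injective

/-- Polynomials which are `1` at `k` and `0` at the other values of `l`, to the order `d`. -/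
def qp (l : Fin d → ℤ) : ℤ → Polynomial ℂ := (crt (lset l) cast_inj' d).choose

theorem qp_one (l : Fin d → ℤ) {i : ℤ} (hi : i ∈ lset l) :
    (Polynomial.X - Polynomial.C (i : ℂ)) ^ d ∣ qp l i - 1 :=
  (crt (lset l) cast_inj' d).choose_spec.1 i hi

theorem qp_zero (l : Fin d → ℤ) {i j : ℤ} (hi : i ∈ lset l) (hj : j ∈ lset l) (h : j ≠ i) :
    (Polynomial.X - Polynomial.C (j : ℂ)) ^ d ∣ qp l i :=
  (crt (lset l) cast_inj' d).choose_spec.2 i hi j hj h

theorem mem_lset (l : Fin d → ℤ) (i : Fin d) : l i ∈ lset l :=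
  Finset.mem_image_of_mem _ (Finset.mem_univ i)

theorem qp_eval (l : Fin d → ℤ) {k : ℤ} (hk : k ∈ lset l) (i : Fin d) :
    (qp l k).eval (l i : ℂ) = if l i = k then 1 else 0 := by
  have hd : d ≠ 0 := fun h => by subst h; exact i.elim0
  have key : ∀ P : Polynomial ℂ, (Polynomial.X - Polynomial.C (l i : ℂ)) ^ d ∣ P →
      P.eval (l i : ℂ) = 0 := by
    intro P hP
    obtain ⟨Q, rfl⟩ := hP
    rw [Polynomial.eval_mul, Polynomial.eval_pow, Polynomial.eval_sub, Polynomial.eval_X,
      Polynomial.eval_C, sub_self, zero_pow hd, zero_mul]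
  split_ifs with h
  · subst h
    have := key _ (qp_one l hk)
    rw [Polynomial.eval_sub, Polynomial.eval_one, sub_eq_zero] at this
    exact this
  · exact key _ (qp_zero l hk (mem_lset l i) h)

/-- The polynomial `∏ (X - k) ^ d`. -/
def sp (l : Fin d → ℤ) : Polynomial ℂ := spp (lset l) (fun k : ℤ => (k : ℂ)) d

section Alg

variable {E : Type*} [Ring E] [Algebra ℂ E] {l : Fin d → ℤ} {x : E}

theorem sum_qp (h : Polynomial.aeval x (sp l) = 0) :
    ∑ k ∈ lset l, Polynomial.aeval x (qp l k) = 1 := by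
  have h1 := aeval_dvd (spp_dvd_sum cast_inj' (fun i hi => qp_one l hi)
    (fun i hi j hj hji => qp_zero l hi hj hji)) h
  rw [map_sub, map_sum, map_one, sub_eq_zero] at h1
  exact h1

theorem qp_kill (h : Polynomial.aeval x (sp l) = 0) {k : ℤ} (hk : k ∈ lset l) :
    Polynomial.aeval x ((Polynomial.X - Polynomial.C (k : ℂ)) ^ d * qp l k) = 0 :=
  aeval_dvd (spp_dvd_mul cast_inj' (fun i hi j hj hji => qp_zero l hi hj hji) hk) h

theorem qp_mul_ne (h : Polynomial.aeval x (sp l) = 0) {k j : ℤ} (hk : k ∈ lset l)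
    (hj : j ∈ lset l) (hkj : k ≠ j) :
    Polynomial.aeval x (qp l k) * Polynomial.aeval x (qp l j) = 0 := by
  have hc : (k : ℂ) ≠ (j : ℂ) := fun h => hkj (cast_inj' h)
  refine coprime_kill (isCoprime_pow_sub hc d d) ?_ ?_
  · rw [qp_kill h hk, zero_mul]
  · rw [← map_mul, qp_kill h hj]

theorem qp_mul_self (h : Polynomial.aeval x (sp l) = 0) {k : ℤ} (hk : k ∈ lset l) :
    Polynomial.aeval x (qp l k) * Polynomial.aeval x (qp l k) = Polynomial.aeval x (qp l k) := by
  have h1 : Polynomial.aeval x (qp l k) * ∑ j ∈ lset l, Polynomial.aeval x (qp l j) =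
      Polynomial.aeval x (qp l k) * Polynomial.aeval x (qp l k) := by
    rw [Finset.mul_sum]
    refine Finset.sum_eq_single k (fun j hj hjk => qp_mul_ne h hk hj hjk.symm) fun hc => ?_
    exact absurd hk hc
  rw [← h1, sum_qp h, mul_one]

end Alg

end Proj

section Uop

variable {R R' : Type} [CommRing R] [Algebra ℂ R] [CommRing R'] [Algebra ℂ R'] {d : ℕ}
  {l : Fin d → ℤ} {M M' : Matrix (Fin d) (Fin d) R[T;T⁻¹]}

/-- `M` is a filtered endomorphism with associated graded endomorphism `l`. -/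
def IsGr (l : Fin d → ℤ) (M : Matrix (Fin d) (Fin d) R[T;T⁻¹]) : Prop :=
  Wt l l M ∧ rm l l M = dgl R l

theorem Fl_zero_eq {u : R[T;T⁻¹]} (h : Fl 0 u) : u = LaurentPolynomial.C (rho 0 u) := by
  ext k
  have hC : (LaurentPolynomial.C (rho 0 u) : R[T;T⁻¹]).coeff k = if 0 = k then rho 0 u else 0 := by
    rw [← mul_one (LaurentPolynomial.C (rho 0 u)), ← T_zero, ← single_eq_C_mul_T,
      AddMonoidAlgebra.coeff_single, Finsupp.single_apply]
  rw [hC]
  rcases lt_trichotomy 0 k with hk | hk | hk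
  · rw [if_neg hk.ne, h.2 k hk]
  · subst hk
    rw [if_pos rfl]
    unfold rho
    rw [if_pos rfl]
  · rw [if_neg hk.ne', h.1 k hk]

/-- The entries of a filtered endomorphism, inside a block. -/
theorem IsGr.entry (h : IsGr l M) {i j : Fin d} (hij : l i = l j) :
    M i j = if i = j then (l i : R[T;T⁻¹]) else 0 := by
  have h1 := h.1 i j
  have h2 := congrFun (congrFun h.2 i) j
  rw [hij, sub_self] at h1
  rw [rm_apply, hij, sub_self, dgl, Matrix.diagonal_apply] at h2
  rw [Fl_zero_eq h1, h2]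
  split_ifs with h3
  · rw [map_intCast]
  · rw [map_zero]

theorem IsGr.entry_lt (h : IsGr l M) {i j : Fin d} (hij : l i < l j) : M i j = 0 :=
  (h.1 i j).eq_zero (by omega)

theorem IsGr.charpoly (h : IsGr l M) :
    M.charpoly ∣ (sp l).map (algebraMap ℂ R[T;T⁻¹]) := by
  classical
  have hb : M.BlockTriangular (OrderDual.toDual ∘ l) := by
    intro i j hij
    apply h.entry_lt
    exact hij
  rw [hb.charpoly]
  have h1 : ∀ a ∈ Finset.image (OrderDual.toDual ∘ l) Finset.univ,
      (M.toSquareBlock (OrderDual.toDual ∘ l) a).charpoly ∣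
        (Polynomial.X - Polynomial.C ((OrderDual.ofDual a : ℤ) : R[T;T⁻¹])) ^ d := by
    intro a _
    have h2 : M.toSquareBlock (OrderDual.toDual ∘ l) a =
        Matrix.diagonal fun _ => ((OrderDual.ofDual a : ℤ) : R[T;T⁻¹]) := by
      ext1 i j
      have hi : l i.1 = OrderDual.ofDual a := congrArg OrderDual.ofDual i.2
      have hj : l j.1 = OrderDual.ofDual a := congrArg OrderDual.ofDual j.2
      rw [Matrix.toSquareBlock_def, Matrix.of_apply, h.entry (hi.trans hj.symm),
        Matrix.diagonal_apply]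
      by_cases hij : i = j
      · rw [if_pos hij, if_pos (congrArg Subtype.val hij), hi]
      · rw [if_neg hij, if_neg fun hc => hij (Subtype.ext hc)]
    rw [h2, Matrix.charpoly_diagonal, Finset.prod_const]
    apply pow_dvd_pow
    rw [Finset.card_univ]
    exact (Fintype.card_subtype_le _).trans_eq (Fintype.card_fin d)
  refine (Finset.prod_dvd_prod_of_dvd _ _ h1).trans ?_
  have h3 : (sp l).map (algebraMap ℂ R[T;T⁻¹]) =
      ∏ k ∈ lset l, (Polynomial.X - Polynomial.C (k : R[T;T⁻¹])) ^ d := by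
    rw [sp, spp, Polynomial.map_prod]
    refine Finset.prod_congr rfl fun k _ => ?_
    rw [Polynomial.map_pow, Polynomial.map_sub, Polynomial.map_X, Polynomial.map_C, map_intCast]
  rw [h3]
  have h4 : Finset.image (OrderDual.toDual ∘ l) Finset.univ =
      (lset l).image OrderDual.toDual := by
    rw [lset, Finset.image_image]
  rw [h4, Finset.prod_image fun a _ b _ hab => OrderDual.toDual.injective hab]
  rfl

theorem IsGr.annih (h : IsGr l M) : Polynomial.aeval M (sp l) = 0 := by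
  obtain ⟨Q, hQ⟩ := h.charpoly
  rw [← Polynomial.aeval_map_algebraMap R[T;T⁻¹], hQ, map_mul, Matrix.aeval_self_charpoly, zero_mul]

theorem Wt_diag (μ : Fin d → ℤ) (c : Fin d → R) :
    Wt μ μ (Matrix.diagonal fun i => LaurentPolynomial.C (c i)) ∧
      rm μ μ (Matrix.diagonal fun i => LaurentPolynomial.C (c i)) = Matrix.diagonal c := by
  refine ⟨fun k j => ?_, ?_⟩
  · rw [Matrix.diagonal_apply]
    split_ifs with h
    · subst h
      rw [sub_self]
      exact Fl.C _
    · exact Fl.zero _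
  · ext k j
    rw [rm_apply, Matrix.diagonal_apply, Matrix.diagonal_apply]
    split_ifs with h
    · subst h
      rw [sub_self, rho_C]
    · exact rho_zero _

theorem Wt.add {μ ν : Fin d → ℤ} (h : Wt μ ν M) (h' : Wt μ ν M') : Wt μ ν (M + M') :=
  fun k j => (h k j).add (h' k j)

theorem rm_add (μ ν : Fin d → ℤ) (M M' : Matrix (Fin d) (Fin d) R[T;T⁻¹]) :
    rm μ ν (M + M') = rm μ ν M + rm μ ν M' := by
  ext k j
  rw [Matrix.add_apply, rm_apply, rm_apply, rm_apply, Matrix.add_apply, rho_add]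

theorem IsGr.aeval (h : IsGr l M) (P : Polynomial ℂ) : Wt l l (Polynomial.aeval M P) := by
  induction P using Polynomial.induction_on' with
  | add p q hp hq => rw [map_add]; exact hp.add hq
  | monomial n a =>
    rw [← Polynomial.C_mul_X_pow_eq_monomial, map_mul, Polynomial.aeval_C, map_pow,
      Polynomial.aeval_X]
    have h1 : Wt l l (algebraMap ℂ (Matrix (Fin d) (Fin d) R[T;T⁻¹]) a) :=
      (Wt_diag l fun _ => algebraMap ℂ R a).1
    refine h1.mul ?_
    induction n with
    | zero =>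
      rw [pow_zero]
      have h2 := (Wt_diag (R := R) l fun _ => 1).1
      have h3 : (Matrix.diagonal fun _ => LaurentPolynomial.C (1 : R)) =
          (1 : Matrix (Fin d) (Fin d) R[T;T⁻¹]) := by
        rw [← Matrix.diagonal_one, map_one]
      rwa [h3] at h2
    | succ n ih => rw [pow_succ]; exact ih.mul h.1

/-- The operator with the eigenvalues `u ^ k`. -/
def Uop (l : Fin d → ℤ) (u : Rˣ) (M : Matrix (Fin d) (Fin d) R[T;T⁻¹]) :
    Matrix (Fin d) (Fin d) R[T;T⁻¹] :=
  ∑ k ∈ lset l, LaurentPolynomial.C ((u ^ k : Rˣ) : R) • Polynomial.aeval M (qp l k)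

theorem Uop_one (h : IsGr l M) : Uop l 1 M = 1 := by
  rw [Uop, ← sum_qp h.annih]
  refine Finset.sum_congr rfl fun k _ => ?_
  rw [_root_.one_zpow, Units.val_one, map_one, one_smul]

theorem Uop_mul (h : IsGr l M) (u v : Rˣ) : Uop l u M * Uop l v M = Uop l (u * v) M := by
  rw [Uop, Uop, Uop, Finset.sum_mul]
  refine Finset.sum_congr rfl fun k hk => ?_
  rw [Finset.mul_sum, Finset.sum_eq_single k]
  · rw [Matrix.smul_mul, Matrix.mul_smul, smul_smul, ← map_mul, ← Units.val_mul, ← mul_zpow,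
      qp_mul_self h.annih hk]
  · intro j hj hjk
    rw [Matrix.smul_mul, Matrix.mul_smul, qp_mul_ne h.annih hk hj hjk.symm, smul_zero, smul_zero]
  · intro hc
    exact absurd hk hc

theorem Wt.smulC {μ ν : Fin d → ℤ} (h : Wt μ ν M) (c : R) :
    Wt μ ν (LaurentPolynomial.C c • M) := fun k j => by
  have := (Fl.C c).mul (h k j)
  rwa [zero_add] at this

theorem Wt.sum' {ι : Type*} (s : Finset ι) {μ ν : Fin d → ℤ}
    {X : ι → Matrix (Fin d) (Fin d) R[T;T⁻¹]} (h : ∀ i ∈ s, Wt μ ν (X i)) :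
    Wt μ ν (∑ i ∈ s, X i) := fun k j => by
  rw [Matrix.sum_apply]
  exact Fl.sum _ fun i hi => h i hi k j

theorem Uop_Wt (h : IsGr l M) (u : Rˣ) : Wt l l (Uop l u M) :=
  Wt.sum' _ fun _ _ => (h.aeval _).smulC _

theorem Wt.MGE (h : Wt l l M) : MGE 0 M := fun i j => (h i j).1

theorem Wt.MLE (h : Wt l l M) : MLE 0 (mono (-l) * M * mono l) := by
  intro k j
  rw [mono, mono, Matrix.mul_diagonal, Matrix.diagonal_mul]
  have h1 := ((LE.T (R := R) ((-l) k)).mul (h k j).2).mul (LE.T (R := R) (l j))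
  rw [Pi.neg_apply] at h1
  have e : -l k + (l k - l j) + l j = 0 := by ring
  rw [e] at h1
  exact h1

theorem map_mono (f : R →ₐ[ℂ] R') (l : Fin d → ℤ) :
    (mono l : Matrix (Fin d) (Fin d) R[T;T⁻¹]).map (lmA f) = mono l := by
  ext1 i j
  rw [Matrix.map_apply, mono, mono, Matrix.diagonal_apply, Matrix.diagonal_apply]
  split_ifs
  · exact lmA_T f _
  · exact map_zero _

theorem Uop_map (f : R →ₐ[ℂ] R') (u : Rˣ) :
    (Uop l u M).map (lmA f) = Uop l (Units.map (f : R →* R') u) (M.map (lmA f)) := by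
  have h := map_sum (lmA f).mapMatrix (fun k => LaurentPolynomial.C ((u ^ k : Rˣ) : R) •
    Polynomial.aeval M (qp l k)) (lset l)
  refine h.trans ?_
  rw [Uop]
  refine Finset.sum_congr rfl fun k _ => ?_
  have h1 : Polynomial.aeval (M.map (lmA f)) (qp l k) =
      (Polynomial.aeval M (qp l k)).map (lmA f) :=
    Polynomial.aeval_algHom_apply (lmA f).mapMatrix M (qp l k)
  rw [h1, ← map_zpow]
  ext1 i j
  change lmA f (LaurentPolynomial.C ((u ^ k : Rˣ) : R) * Polynomial.aeval M (qp l k) i j) = _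
  rw [map_mul, lmA_C]
  rfl

theorem IsGr.map (h : IsGr l M) (f : R →ₐ[ℂ] R') : IsGr l (M.map (lmA f)) := by
  refine ⟨fun i j => ⟨(h.1 i j).1.map (f : R →+* R'), (h.1 i j).2.map (f : R →+* R')⟩, ?_⟩
  ext i j
  have h1 := congrArg f (congrFun (congrFun h.2 i) j)
  have h2 : f (rm l l M i j) = rm l l (M.map (lmA f)) i j := by
    rw [rm_apply, rm_apply]
    unfold rho
    split_ifs
    · rw [Matrix.map_apply]
      change _ = (lmap (f : R →+* R') (M i j)).coeff 0
      rw [lmap, AddMonoidAlgebra.coeff_mapRingHom]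
      rfl
    · exact map_zero f
  rw [← h2, h1, dgl, dgl, Matrix.diagonal_apply, Matrix.diagonal_apply]
  split_ifs
  · exact map_intCast f _
  · exact map_zero f

theorem isGr_dgl (l : Fin d → ℤ) : IsGr l (dgl R[T;T⁻¹] l) := by
  have h := Wt_diag (R := R) l fun i => (l i : R)
  have h1 : (Matrix.diagonal fun i => LaurentPolynomial.C (l i : R)) = dgl R[T;T⁻¹] l := by
    rw [dgl]
    simp only [map_intCast]
  rw [h1] at h
  exact h

theorem Uop_dgl (u : Rˣ) : Uop l u (dgl R[T;T⁻¹] l) =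
    Matrix.diagonal fun i => LaurentPolynomial.C ((u ^ l i : Rˣ) : R) := by
  have h1 : ∀ P : Polynomial ℂ, Polynomial.aeval (dgl R[T;T⁻¹] l) P =
      Matrix.diagonal fun i => algebraMap ℂ R[T;T⁻¹] (P.eval (l i : ℂ)) := by
    intro P
    have h2 := Polynomial.aeval_algHom_apply (Matrix.diagonalAlgHom (n := Fin d)
      (α := R[T;T⁻¹]) ℂ) (fun i => ((l i : ℤ) : R[T;T⁻¹])) P
    refine h2.trans ?_
    change Matrix.diagonal _ = _
    congr 1
    funext i
    have h3 : Polynomial.aeval (fun i => ((l i : ℤ) : R[T;T⁻¹])) P i =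
        Polynomial.aeval ((l i : ℤ) : R[T;T⁻¹]) P :=
      (Polynomial.aeval_algHom_apply (Pi.evalAlgHom ℂ (fun _ : Fin d => R[T;T⁻¹]) i)
        (fun i => ((l i : ℤ) : R[T;T⁻¹])) P).symm
    rw [h3, ← map_intCast (algebraMap ℂ R[T;T⁻¹]), Polynomial.aeval_algebraMap_apply]
    rfl
  ext1 i j
  rw [Uop, Matrix.sum_apply]
  simp only [Matrix.smul_apply, smul_eq_mul, h1, Matrix.diagonal_apply]
  by_cases hij : i = j
  · subst hij
    simp only [if_true]
    rw [Finset.sum_eq_single (l i)]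
    · rw [qp_eval l (mem_lset l i), if_pos rfl, map_one, mul_one]
    · intro k hk hki
      rw [qp_eval l hk, if_neg hki.symm, map_zero, mul_zero]
    · intro hc
      exact absurd (mem_lset l i) hc
  · simp only [if_neg hij, mul_zero, Finset.sum_const_zero]

/-- The operator defined by `Uop` on `z ≥ 0`. -/
def PU (h : IsGr l M) (u : Rˣ) : (Module.End R (ℕ × Fin d →₀ R))ˣ where
  val := vtoep (Uop l u M)
  inv := vtoep (Uop l u⁻¹ M)
  val_inv := by
    rw [← vtoep_pos_mul (Uop_Wt h u).MGE, Uop_mul h, mul_inv_cancel, Uop_one h, vtoep_one]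
  inv_val := by
    rw [← vtoep_pos_mul (Uop_Wt h _).MGE, Uop_mul h, inv_mul_cancel, Uop_one h, vtoep_one]

theorem conj_mul (l : Fin d → ℤ) (X Y : Matrix (Fin d) (Fin d) R[T;T⁻¹]) :
    mono (-l) * X * mono l * (mono (-l) * Y * mono l) = mono (-l) * (X * Y) * mono l := by
  calc _ = mono (-l) * X * (mono l * mono (-l)) * Y * mono l := by simp only [Matrix.mul_assoc]
    _ = _ := by rw [mono_mul_neg, Matrix.mul_one]; simp only [Matrix.mul_assoc]

/-- The operator defined by `Uop` on `z⁻¹ ≥ 0`. -/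
def NU (h : IsGr l M) (u : Rˣ) : (Module.End R (ℕ × Fin d →₀ R))ˣ where
  val := vtoep (mono (-l) * Uop l u M * mono l)
  inv := vtoep (mono (-l) * Uop l u⁻¹ M * mono l)
  val_inv := by
    rw [← vtoep_mul_neg _ (Uop_Wt h _).MLE, conj_mul, Uop_mul h, mul_inv_cancel, Uop_one h,
      Matrix.mul_one, mono_neg_mul, vtoep_one]
  inv_val := by
    rw [← vtoep_mul_neg _ (Uop_Wt h _).MLE, conj_mul, Uop_mul h, inv_mul_cancel, Uop_one h,
      Matrix.mul_one, mono_neg_mul, vtoep_one]

/-- The commutator. -/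
def fwU (h : IsGr l M) (u : Rˣ) (S : (Module.End R (ℕ × Fin d →₀ R))ˣ) :
    (Module.End R (ℕ × Fin d →₀ R))ˣ := PU h u * S * (NU h u)⁻¹ * S⁻¹

theorem ring_w1 {E : Type*} [Ring E] {P S V N : E} (h : P * V = V * N) :
    P * (S - V) - (S - V) * N = P * S - S * N := by
  rw [mul_sub, sub_mul, h]
  abel

theorem ring_w2 {E : Type*} [Ring E] (P : E) {S N Ni Si : E} (h1 : N * Ni = 1) (h2 : S * Si = 1) :
    P * S * Ni * Si - 1 = (P * S - S * N) * (Ni * Si) := by
  have h3 : S * N * (Ni * Si) = 1 := by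
    calc S * N * (Ni * Si) = S * (N * Ni) * Si := by noncomm_ring
      _ = 1 := by rw [h1, mul_one, h2]
  rw [sub_mul, h3]
  noncomm_ring

theorem fwU_finRank (h : IsGr l M) (u : Rˣ) {S : (Module.End R (ℕ × Fin d →₀ R))ˣ}
    (hS : FinRank ((S : Module.End R (ℕ × Fin d →₀ R)) - vtoep (mono l))) :
    FinRank ((fwU h u S : Module.End R (ℕ × Fin d →₀ R)) - 1) := by
  have h1 : vtoep (Uop l u M) * vtoep (mono l) =
      vtoep (mono l) * vtoep (mono (-l) * Uop l u M * mono l) := by
    rw [← vtoep_pos_mul (Uop_Wt h u).MGE, ← vtoep_mul_neg _ (Uop_Wt h u).MLE,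
      ← Matrix.mul_assoc, ← Matrix.mul_assoc, mono_mul_neg, Matrix.one_mul]
  have h2 := (hS.mul_left (vtoep (Uop l u M))).sub
    (hS.mul_right (vtoep (mono (-l) * Uop l u M * mono l)))
  have e1 := ring_w1 (S := (S : Module.End R (ℕ × Fin d →₀ R))) h1
  have e2 := ring_w2 (vtoep (Uop l u M)) (Units.mul_inv (NU h u)) (Units.mul_inv S)
  have h3 := h2.mul_right ((((NU h u)⁻¹ : (Module.End R (ℕ × Fin d →₀ R))ˣ) :
    Module.End R (ℕ × Fin d →₀ R)) * ((S⁻¹ : (Module.End R (ℕ × Fin d →₀ R))ˣ) :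
    Module.End R (ℕ × Fin d →₀ R)))
  have h4 : (fwU h u S : Module.End R (ℕ × Fin d →₀ R)) - 1 =
    (vtoep (Uop l u M) * ((S : Module.End R (ℕ × Fin d →₀ R)) - vtoep (mono l)) -
      ((S : Module.End R (ℕ × Fin d →₀ R)) - vtoep (mono l)) *
        vtoep (mono (-l) * Uop l u M * mono l)) *
      ((((NU h u)⁻¹ : (Module.End R (ℕ × Fin d →₀ R))ˣ) :
        Module.End R (ℕ × Fin d →₀ R)) * ((S⁻¹ : (Module.End R (ℕ × Fin d →₀ R))ˣ) :
        Module.End R (ℕ × Fin d →₀ R))) := e2.trans (congrArg (· *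
          ((((NU h u)⁻¹ : (Module.End R (ℕ × Fin d →₀ R))ˣ) :
        Module.End R (ℕ × Fin d →₀ R)) * ((S⁻¹ : (Module.End R (ℕ × Fin d →₀ R))ˣ) :
        Module.End R (ℕ × Fin d →₀ R)))) e1.symm)
  rw [h4]
  exact h3

theorem fw_map (h : IsGr l M) (u : Rˣ) {S : (Module.End R (ℕ × Fin d →₀ R))ˣ}
    (hS : FinRank ((S : Module.End R (ℕ × Fin d →₀ R)) - vtoep (mono l))) (f : R →ₐ[ℂ] R') :
    f (fdet (fwU h u S : Module.End R (ℕ × Fin d →₀ R))) =
      fdet (fwU (h.map f) (Units.map (f : R →* R') u)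
        (Units.map (bcHom (ℕ × Fin d) (f : R →+* R')) S) :
          Module.End R' (ℕ × Fin d →₀ R')) := by
  have h1 := fdet_bc (f : R →+* R') (fwU_finRank h u hS)
  refine h1.symm.trans ?_
  have hP : Units.map (bcHom (ℕ × Fin d) (f : R →+* R')) (PU h u) =
      PU (h.map f) (Units.map (f : R →* R') u) := by
    apply Units.ext
    have h2 := bc_vtoep (f : R →+* R') (Uop l u M)
    refine h2.trans ?_
    change vtoep _ = vtoep _
    congr 1
    exact Uop_map f u
  have hN : Units.map (bcHom (ℕ × Fin d) (f : R →+* R')) (NU h u) =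
      NU (h.map f) (Units.map (f : R →* R') u) := by
    apply Units.ext
    have h2 := bc_vtoep (f : R →+* R') (mono (-l) * Uop l u M * mono l)
    refine h2.trans ?_
    change vtoep _ = vtoep _
    congr 1
    rw [← Uop_map f u]
    change (mono (-l) * Uop l u M * mono l).map (lmA f) = _
    rw [Matrix.map_mul, Matrix.map_mul, map_mono, map_mono]
  have h3 : Units.map (bcHom (ℕ × Fin d) (f : R →+* R')) (fwU h u S) =
      fwU (h.map f) (Units.map (f : R →* R') u)
        (Units.map (bcHom (ℕ × Fin d) (f : R →+* R')) S) := by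
    rw [fwU, fwU, map_mul, map_mul, map_mul, map_inv, map_inv, hP, hN]
  rw [← h3]
  rfl

theorem fwU_congr {M M' : Matrix (Fin d) (Fin d) R[T;T⁻¹]} (e : M = M') (h : IsGr l M)
    (h' : IsGr l M') {u u' : Rˣ} (eu : u = u') {S S' : (Module.End R (ℕ × Fin d →₀ R))ˣ}
    (eS : S = S') : fwU h u S = fwU h' u' S' := by
  subst e eu eS
  rfl

end Uop

section Deform

variable {R : Type} [CommRing R] [Algebra ℂ R] {d : ℕ}
  {l : Fin d → ℤ} {M : Matrix (Fin d) (Fin d) R[T;T⁻¹]}

/-- The inclusion `R → R[σ]`. -/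
def cP (R : Type) [CommRing R] [Algebra ℂ R] : R →ₐ[ℂ] Polynomial R :=
  { (Polynomial.C : R →+* Polynomial R) with
    commutes' := fun _ => rfl }

/-- The evaluation at `σ = c`. -/
def evc (c : R) : Polynomial R →ₐ[ℂ] R := (Polynomial.aeval c).restrictScalars ℂ

theorem evc_cP (c : R) : (evc c).comp (cP R) = AlgHom.id ℂ R := by
  apply AlgHom.ext
  intro x
  exact Polynomial.aeval_C c x

/-- The degeneration of `M` to its diagonal. -/
def dfm (l : Fin d → ℤ) (M : Matrix (Fin d) (Fin d) R[T;T⁻¹]) :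
    Matrix (Fin d) (Fin d) (Polynomial R)[T;T⁻¹] :=
  Matrix.of fun i j => LaurentPolynomial.C (Polynomial.X ^ (l i - l j).toNat) *
    lmA (cP R) (M i j)

theorem isGr_dfm (h : IsGr l M) : IsGr l (dfm l M) := by
  have hc := h.map (cP R)
  refine ⟨fun i j => ?_, ?_⟩
  · have := (Fl.C (Polynomial.X ^ (l i - l j).toNat : Polynomial R)).mul (hc.1 i j)
    rwa [zero_add] at this
  · ext1 i j
    rw [← hc.2, rm_apply, rm_apply]
    unfold rho
    split_ifs with h0
    · rw [dfm, Matrix.of_apply, h0, Int.toNat_zero, pow_zero, map_one, one_mul]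
      rfl
    · rfl

theorem dfm_map (c : R) (i j : Fin d) : (dfm l M).map (lmA (evc c)) i j =
    LaurentPolynomial.C (c ^ (l i - l j).toNat) * M i j := by
  rw [Matrix.map_apply, dfm, Matrix.of_apply, map_mul, lmA_C]
  have h1 : lmA (evc c) (lmA (cP R) (M i j)) = M i j := by
    rw [← AlgHom.comp_apply, lmA_comp, evc_cP, lmA_id]
    rfl
  rw [h1]
  congr 2
  rw [map_pow]
  congr 1
  exact Polynomial.aeval_X c

theorem dfm_one : (dfm l M).map (lmA (evc (1 : R))) = M := by
  ext1 i j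
  rw [dfm_map, one_pow, map_one, one_mul]

theorem dfm_zero (h : IsGr l M) : (dfm l M).map (lmA (evc (0 : R))) = dgl R[T;T⁻¹] l := by
  ext1 i j
  rw [dfm_map, dgl, Matrix.diagonal_apply]
  rcases lt_trichotomy (l i) (l j) with hij | hij | hij
  · rw [h.entry_lt hij, mul_zero, if_neg]
    rintro rfl
    exact lt_irrefl _ hij
  · rw [hij, sub_self, Int.toNat_zero, pow_zero, map_one, one_mul, h.entry hij, hij]
  · rw [zero_pow (by omega), map_zero, zero_mul, if_neg]
    rintro rfl
    exact lt_irrefl _ hij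

theorem bcU_evc (c : R) (S : (Module.End R (ℕ × Fin d →₀ R))ˣ) :
    Units.map (bcHom (ℕ × Fin d) (evc c : Polynomial R →+* R))
      (Units.map (bcHom (ℕ × Fin d) (cP R : R →+* Polynomial R)) S) = S := by
  apply Units.ext
  have h5 : (evc c : Polynomial R →+* R).comp (cP R : R →+* Polynomial R) = RingHom.id R := by
    apply RingHom.ext
    intro x
    exact AlgHom.congr_fun (evc_cP c) x
  have h6 := bc_bc (cP R : R →+* Polynomial R) (evc c : Polynomial R →+* R)
    (S : Module.End R (ℕ × Fin d →₀ R))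
  rw [h5, bc_id] at h6
  exact h6

/-- **The weight does not change under the degeneration.** -/
theorem fw_eq_dgl [IsDomain R] (h : IsGr l M) (u : Rˣ) {S : (Module.End R (ℕ × Fin d →₀ R))ˣ}
    (hS : FinRank ((S : Module.End R (ℕ × Fin d →₀ R)) - vtoep (mono l))) :
    fdet (fwU h u S : Module.End R (ℕ × Fin d →₀ R)) =
      fdet (fwU (isGr_dgl (R := R) l) u S : Module.End R (ℕ × Fin d →₀ R)) := by
  have hS2 : FinRank (((Units.map (bcHom (ℕ × Fin d) (cP R : R →+* Polynomial R)) S :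
      (Module.End (Polynomial R) (ℕ × Fin d →₀ Polynomial R))ˣ) :
        Module.End (Polynomial R) (ℕ × Fin d →₀ Polynomial R)) - vtoep (mono l)) := by
    have h1 := hS.bc (cP R : R →+* Polynomial R)
    rw [bc_sub, bc_vtoep, mp_mono] at h1
    exact h1
  have h2 := isUnit_fdet (fwU_finRank (isGr_dfm h) (Units.map (cP R : R →* Polynomial R) u) hS2)
    (Units.isUnit _)
  rw [Polynomial.isUnit_iff] at h2
  obtain ⟨r, -, hr⟩ := h2
  have key : ∀ c : R, ∀ (M' : Matrix (Fin d) (Fin d) R[T;T⁻¹]) (h' : IsGr l M'),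
      (dfm l M).map (lmA (evc c)) = M' →
      fdet (fwU h' u S : Module.End R (ℕ × Fin d →₀ R)) = r := by
    intro c M' h' e
    have h3 := fw_map (isGr_dfm h) (Units.map (cP R : R →* Polynomial R) u) hS2 (evc c)
    rw [← hr] at h3
    have h4 : evc c (Polynomial.C r) = r := Polynomial.aeval_C c r
    rw [h4] at h3
    have eu : Units.map (evc c : Polynomial R →* R) (Units.map (cP R : R →* Polynomial R) u) = u :=
      Units.ext (AlgHom.congr_fun (evc_cP c) (u : R))
    rw [h3, fwU_congr e _ h' eu (bcU_evc c S)]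
  rw [key 1 M h dfm_one, key 0 _ (isGr_dgl l) (dfm_zero h)]

end Deform

end

end Vale.Agent.P286.Gen
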