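import Vale.Agent.P286.Gen.Integ
import Vale.Agent.P286.Gen.Weight
import Vale.Agent.P286.Gen.Ode

/-!
# The one-parameter group generated by an element with rational eigenvalues
-/

namespace Vale.Agent.P286.Gen

open Matrix LaurentPolynomial

noncomputable section

set_option linter.unusedSectionVars false

variable {N : ℕ} {Γ : Gps N}

/-- The rational number `j / N!`. -/
def rj (N : ℕ) (j : ℤ) : ℂ := (j : ℂ) / (N.factorial : ℂ)

theorem rj_inj (N : ℕ) : Function.Injective (rj N) := by
  intro i j h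
  have h0 : (N.factorial : ℂ) ≠ 0 := by exact_mod_cast N.factorial_ne_zero
  unfold rj at h
  rw [div_left_inj' h0] at h
  exact_mod_cast h

theorem rj_add (N : ℕ) (i j : ℤ) : rj N (i + j) = rj N i + rj N j := by
  unfold rj
  push_cast
  ring

theorem rj_mul (N : ℕ) (k : ℤ) : rj N (N.factorial * k) = k := by
  have h0 : (N.factorial : ℂ) ≠ 0 := by exact_mod_cast N.factorial_ne_zero
  unfold rj
  push_cast
  field_simp

section Domain

/-- The eigenvalues on the standard representation. -/
theorem exists_spp (hK : KilDet Γ) {R : Type} [CommRing R] [IsDomain R] [Algebra ℂ R]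
    {w : Fin (dm Γ) → R} {l : Fin (dm Γ) → ℤ} (h : Polynomial.aeval (adG Γ w) (sp l) = 0) :
    ∃ J : Finset ℤ, Polynomial.aeval (toG Γ w) (spp J (rj N) N) = 0 := by
  classical
  let F := AlgebraicClosure (FractionRing R)
  let φ : R →ₐ[ℂ] F := (IsScalarTower.toAlgHom ℂ (FractionRing R) F).comp
    (IsScalarTower.toAlgHom ℂ R (FractionRing R))
  have hφ : Function.Injective φ := by
    intro x y hxy
    exact IsFractionRing.injective R (FractionRing R)
      ((algebraMap (FractionRing R) F).injective hxy)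
  have : CharZero F := charZero_of_injective_algebraMap (algebraMap ℂ F).injective
  let w' : Fin (dm Γ) → F := fun i => φ (w i)
  have h1 : adG Γ w' = (adG Γ w).map φ := adG_map φ w
  have h1' : toG Γ w' = (toG Γ w).map φ := toG_map φ w
  have h2 : Polynomial.aeval (adG Γ w') (spp (lset l) (fun j : ℤ => (j : F)) (dm Γ)) = 0 := by
    have e : spp (lset l) (fun j : ℤ => (j : F)) (dm Γ) = (sp l).map (algebraMap ℂ F) := by
      rw [sp, spp, spp, Polynomial.map_prod]
      refine Finset.prod_congr rfl fun k _ => ?_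
      have e1 : algebraMap ℂ F (k : ℂ) = (k : F) := map_intCast _ _
      rw [Polynomial.map_pow, Polynomial.map_sub, Polynomial.map_X, Polynomial.map_C, e1]
    rw [e, Polynomial.aeval_map_algebraMap, h1]
    have h3 := Polynomial.aeval_algHom_apply φ.mapMatrix (adG Γ w) (sp l)
    refine h3.trans ?_
    rw [h, map_zero]
  let V := (toG Γ w').charpoly.roots.toFinset
  have h3 : ∀ α : F, ∃ j : ℤ, α ∈ V → algebraMap ℂ F (rj N j) = α := by
    intro α
    by_cases hα : α ∈ V
    · have h4 : (toG Γ w').charpoly.IsRoot α := by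
        have := hα
        rw [Multiset.mem_toFinset, Polynomial.mem_roots (charpoly_monic _).ne_zero] at this
        exact this
      obtain ⟨r, hr1, hrN, z, hz⟩ := eig_rational hK h2 h4
      obtain ⟨q, hq⟩ : r ∣ N.factorial := Nat.dvd_factorial hr1 hrN
      refine ⟨q * z, fun _ => ?_⟩
      have hr0 : (r : F) ≠ 0 := by
        have : r ≠ 0 := by omega
        exact_mod_cast this
      have hq0 : (q : F) ≠ 0 := by
        have : q ≠ 0 := by
          rintro rfl
          exact N.factorial_ne_zero (by rw [hq, mul_zero])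
        exact_mod_cast this
      have e1 : algebraMap ℂ F ((q * z : ℤ) : ℂ) = (q : F) * (z : F) := by
        rw [Int.cast_mul, map_mul, map_intCast, map_intCast, Int.cast_natCast]
      have e2 : algebraMap ℂ F ((r * q : ℕ) : ℂ) = (r : F) * (q : F) := by
        rw [Nat.cast_mul, map_mul, map_natCast, map_natCast]
      rw [rj, hq, map_div₀, e1, e2, ← hz, div_eq_iff (mul_ne_zero hr0 hq0)]
      ring
    · exact ⟨0, fun hc => absurd hc hα⟩
  choose j hj using h3
  refine ⟨V.image j, ?_⟩
  have h4 : Polynomial.aeval (toG Γ w') (spp V (id : F → F) N) = 0 :=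
    aeval_dvd (charpoly_dvd (toG Γ w')) (Matrix.aeval_self_charpoly _)
  have h5 : spp V (id : F → F) N = (spp (V.image j) (rj N) N).map (algebraMap ℂ F) := by
    rw [spp, spp, Polynomial.map_prod, Finset.prod_image]
    · refine Finset.prod_congr rfl fun α hα => ?_
      rw [Polynomial.map_pow, Polynomial.map_sub, Polynomial.map_X, Polynomial.map_C, hj α hα]
      rfl
    · intro α hα β hβ e
      rw [← hj α hα, ← hj β hβ, e]
  rw [h5, Polynomial.aeval_map_algebraMap, h1'] at h4
  have h6 := Polynomial.aeval_algHom_apply φ.mapMatrix (toG Γ w) (spp (V.image j) (rj N) N)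
  have h7 : φ.mapMatrix (Polynomial.aeval (toG Γ w) (spp (V.image j) (rj N) N)) = 0 := by
    rw [← h6]
    exact h4
  ext a b
  apply hφ
  have h8 := congrFun (congrFun h7 a) b
  rw [Matrix.zero_apply, map_zero]
  exact h8

end Domain

section Gev

variable {E : Type} [CommRing E] [Algebra ℂ E]

/-- `f` is a generalized eigenvector of `L`. -/
def Gev (L : Module.End ℂ E) (a : ℂ) (f : E) : Prop :=
  ∃ n, Polynomial.aeval L ((Polynomial.X - Polynomial.C a) ^ n : Polynomial ℂ) f = 0

theorem Gev.mono {L : Module.End ℂ E} {a : ℂ} {f : E} {n k : ℕ} (h : n ≤ k)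
    (hf : Polynomial.aeval L ((Polynomial.X - Polynomial.C a) ^ n : Polynomial ℂ) f = 0) :
    Polynomial.aeval L ((Polynomial.X - Polynomial.C a) ^ k : Polynomial ℂ) f = 0 := by
  obtain ⟨c, rfl⟩ := Nat.exists_eq_add_of_le h
  rw [add_comm, pow_add, map_mul, Module.End.mul_apply, hf, map_zero]

theorem Gev.zero (L : Module.End ℂ E) (a : ℂ) : Gev L a 0 := ⟨0, map_zero _⟩

theorem Gev.add {L : Module.End ℂ E} {a : ℂ} {f g : E} (hf : Gev L a f) (hg : Gev L a g) :
    Gev L a (f + g) := by
  obtain ⟨n, hn⟩ := hf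
  obtain ⟨k, hk⟩ := hg
  refine ⟨max n k, ?_⟩
  rw [map_add, Gev.mono (le_max_left n k) hn, Gev.mono (le_max_right n k) hk, add_zero]

theorem Gev.sum {ι : Type*} (s : Finset ι) {L : Module.End ℂ E} {a : ℂ} {f : ι → E}
    (h : ∀ i ∈ s, Gev L a (f i)) : Gev L a (∑ i ∈ s, f i) := by
  classical
  induction s using Finset.induction_on with
  | empty => rw [Finset.sum_empty]; exact Gev.zero L a
  | insert i s hi ih =>
    rw [Finset.sum_insert hi]
    exact (h i (Finset.mem_insert_self _ _)).add (ih fun j hj => h j (Finset.mem_insert_of_mem hj))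

theorem aeval_iterate (L : Module.End ℂ E) (a : ℂ) (n : ℕ) (f : E) :
    Polynomial.aeval L ((Polynomial.X - Polynomial.C a) ^ n : Polynomial ℂ) f =
      (fun g => L g - a • g)^[n] f := by
  induction n generalizing f with
  | zero => rw [pow_zero, map_one]; rfl
  | succ n ih =>
    rw [Function.iterate_succ_apply, ← ih, pow_succ, map_mul, Module.End.mul_apply]
    congr 1
    rw [map_sub, Polynomial.aeval_X, Polynomial.aeval_C, LinearMap.sub_apply,
      Module.algebraMap_end_apply]

theorem Gev.mul (δ : Derivation ℂ E E) {a b : ℂ} {f g : E} (hf : Gev (δ : E →ₗ[ℂ] E) a f)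
    (hg : Gev (δ : E →ₗ[ℂ] E) b g) : Gev (δ : E →ₗ[ℂ] E) (a + b) (f * g) := by
  obtain ⟨n, hn⟩ := hf
  obtain ⟨k, hk⟩ := hg
  refine ⟨n + k, ?_⟩
  rw [aeval_iterate] at *
  let δ₃ : E →+ E :=
    { toFun := fun g => (δ : E →ₗ[ℂ] E) g - (a + b) • g
      map_zero' := by rw [map_zero, smul_zero, sub_zero]
      map_add' := fun x y => by rw [map_add, smul_add]; abel }
  exact leib (AddMonoidHom.mul : E →+ E →+ E) (δ₁ := fun g => (δ : E →ₗ[ℂ] E) g - a • g)
    (δ₂ := fun g => (δ : E →ₗ[ℂ] E) g - b • g) δ₃ (by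
      intro x y
      change δ (x * y) - (a + b) • (x * y) = (δ x - a • x) * y + x * (δ y - b • y)
      rw [Derivation.leibniz, smul_eq_mul, smul_eq_mul, add_smul, sub_mul, mul_sub, smul_mul_assoc,
        mul_smul_comm]
      ring) (n + k) n k rfl f g hn hk

/-- The components of a sum of generalized eigenvectors. -/
theorem Gev.component {L : Module.End ℂ E} (S : Finset ℤ) {e : ℤ → ℂ} (he : Function.Injective e)
    {f : ℤ → E} (hf : ∀ j, Gev L (e j) (f j)) {i : ℤ} (hi : i ∈ S) :
    ∃ Q : Polynomial ℂ, Polynomial.aeval L Q (∑ j ∈ S, f j) = f i := by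
  choose n hn using hf
  obtain ⟨K, hK⟩ : ∃ K : ℕ, ∀ j ∈ S, n j ≤ K := ⟨S.sup n, fun j hj => Finset.le_sup hj⟩
  obtain ⟨Q, hQ1, hQ2⟩ := crt S he K
  refine ⟨Q i, ?_⟩
  rw [map_sum, Finset.sum_eq_single i]
  · obtain ⟨c, hc⟩ := hQ1 i hi
    have h1 : Q i = 1 + c * (Polynomial.X - Polynomial.C (e i)) ^ K := by
      linear_combination hc
    rw [h1, map_add, map_one, LinearMap.add_apply, map_mul, Module.End.mul_apply,
      Gev.mono (hK i hi) (hn i), map_zero, add_zero]
    rfl
  · intro j hj hji
    obtain ⟨c, hc⟩ := hQ2 i hi j hj hji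
    rw [hc, mul_comm, map_mul, Module.End.mul_apply, Gev.mono (hK j hj) (hn j), map_zero]
  · intro h
    exact absurd hi h

end Gev

section Der

variable {R : Type} [CommRing R] [Algebra ℂ R]

/-- The derivation `x ↦ C x`. -/
def Ld (C : Matrix (Fin N) (Fin N) R) :
    Derivation R (MvPolynomial (Fin N × Fin N) R) (MvPolynomial (Fin N × Fin N) R) :=
  MvPolynomial.mkDerivation R fun p => (cs C * gen N R) p.1 p.2

/-- The same derivation, over `ℂ`. -/
def Lc (C : Matrix (Fin N) (Fin N) R) :
    Derivation ℂ (MvPolynomial (Fin N × Fin N) R) (MvPolynomial (Fin N × Fin N) R) :=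
  (Ld C).restrictScalars ℂ

theorem Lc_apply (C : Matrix (Fin N) (Fin N) R) (f : MvPolynomial (Fin N × Fin N) R) :
    Lc C f = Ld C f := rfl

theorem cs_mul (C D : Matrix (Fin N) (Fin N) R) : cs (C * D) = cs C * cs D := by
  rw [cs, cs, cs, Matrix.map_mul]

theorem Lc_gen (C D : Matrix (Fin N) (Fin N) R) (i k : Fin N) :
    Lc C ((cs D * gen N R) i k) = (cs (D * C) * gen N R) i k := by
  rw [Lc_apply, Matrix.mul_apply, map_sum, cs_mul, Matrix.mul_assoc, Matrix.mul_apply]
  refine Finset.sum_congr rfl fun a _ => ?_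
  have h1 : (cs D : Matrix _ _ (MvPolynomial (Fin N × Fin N) R)) i a =
      algebraMap R (MvPolynomial (Fin N × Fin N) R) (D i a) := rfl
  rw [Derivation.leibniz, h1, Derivation.map_algebraMap, smul_zero, add_zero, smul_eq_mul]
  congr 1
  exact MvPolynomial.mkDerivation_X _ _ _

theorem cs_add (C D : Matrix (Fin N) (Fin N) R) : cs (C + D) = cs C + cs D := by
  ext1 i j
  exact map_add MvPolynomial.C _ _

theorem cs_smul (c : ℂ) (D : Matrix (Fin N) (Fin N) R) : cs (c • D) = c • cs D := by
  ext1 i j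
  change MvPolynomial.C (c • D i j) = c • MvPolynomial.C (D i j)
  rw [Algebra.smul_def, map_mul, Algebra.smul_def]
  rfl

theorem aeval_Lc_gen (C D : Matrix (Fin N) (Fin N) R) (Q : Polynomial ℂ) (i k : Fin N) :
    Polynomial.aeval ((Lc C : MvPolynomial (Fin N × Fin N) R →ₗ[ℂ] _) :
      Module.End ℂ (MvPolynomial (Fin N × Fin N) R)) Q ((cs D * gen N R) i k) =
      (cs (D * Polynomial.aeval C Q) * gen N R) i k := by
  induction Q using Polynomial.induction_on' generalizing D with
  | add p q hp hq =>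
    rw [map_add, LinearMap.add_apply, hp, hq, map_add, Matrix.mul_add, cs_add, Matrix.add_mul,
      Matrix.add_apply]
  | monomial n a =>
    induction n generalizing D with
    | zero =>
      rw [Polynomial.monomial_zero_left, Polynomial.aeval_C, Polynomial.aeval_C,
        Module.algebraMap_end_apply, Algebra.algebraMap_eq_smul_one, Matrix.mul_smul,
        Matrix.mul_one, cs_smul, Matrix.smul_mul, Matrix.smul_apply]
    | succ n ih =>
      rw [← Polynomial.monomial_mul_X, map_mul, Module.End.mul_apply, Polynomial.aeval_X]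
      have e : ((Lc C : MvPolynomial (Fin N × Fin N) R →ₗ[ℂ] _) :
          Module.End ℂ (MvPolynomial (Fin N × Fin N) R)) ((cs D * gen N R) i k) =
          (cs (D * C) * gen N R) i k := Lc_gen C D i k
      rw [e, ih, mul_comm (Polynomial.monomial n a) Polynomial.X, map_mul, Polynomial.aeval_X,
        Matrix.mul_assoc]

theorem Lc_pmap (C : Matrix (Fin N) (Fin N) R) (P : Pl N) : Lc C (pmap R P) = rder C P := by
  rw [pmap, der_ev, rder]
  refine Finset.sum_congr rfl fun p _ => ?_
  congr 1
  exact MvPolynomial.mkDerivation_X _ _ _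

theorem Lc_mem {C : Matrix (Fin N) (Fin N) R} (hC : IsLi Γ C)
    {Q : MvPolynomial (Fin N × Fin N) R} (hQ : Q ∈ vanA Γ R) : Lc C Q ∈ vanA Γ R := by
  unfold vanA Ideal.map at hQ
  induction hQ using Submodule.span_induction with
  | mem x hx =>
    obtain ⟨P, hP, rfl⟩ := hx
    have := rder_mem hC hP
    rw [← Lc_pmap] at this
    exact this
  | zero => rw [map_zero]; exact Ideal.zero_mem _
  | add x y _ _ hx hy => rw [map_add]; exact Ideal.add_mem _ hx hy
  | smul a x hx hx' =>
    rw [smul_eq_mul, Derivation.leibniz, smul_eq_mul, smul_eq_mul]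
    exact Ideal.add_mem _ (Ideal.mul_mem_left _ _ hx') (Ideal.mul_mem_right _ _ hx)

theorem aeval_Lc_mem {C : Matrix (Fin N) (Fin N) R} (hC : IsLi Γ C) (P : Polynomial ℂ)
    {Q : MvPolynomial (Fin N × Fin N) R} (hQ : Q ∈ vanA Γ R) :
    Polynomial.aeval ((Lc C : MvPolynomial (Fin N × Fin N) R →ₗ[ℂ] _) :
      Module.End ℂ (MvPolynomial (Fin N × Fin N) R)) P Q ∈ vanA Γ R := by
  induction P using Polynomial.induction_on' with
  | add p q hp hq => rw [map_add, LinearMap.add_apply]; exact Ideal.add_mem _ hp hq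
  | monomial n a =>
    induction n with
    | zero =>
      rw [Polynomial.monomial_zero_left, Polynomial.aeval_C, Module.algebraMap_end_apply,
        Algebra.smul_def]
      exact Ideal.mul_mem_left _ _ hQ
    | succ n ih =>
      rw [← Polynomial.monomial_mul_X, mul_comm, map_mul, Module.End.mul_apply, Polynomial.aeval_X]
      exact Lc_mem hC ih

/-- **The one-parameter group generated by `C`.** -/
theorem isPt_cochar {C : Matrix (Fin N) (Fin N) R} (hC : IsLi Γ C) (J : Finset ℤ)
    {D : ℤ → Matrix (Fin N) (Fin N) R} (h1 : ∑ j ∈ J, D j = 1)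
    (h2 : ∀ j ∈ J, D j * Polynomial.aeval C ((Polynomial.X - Polynomial.C (rj N j)) ^ N :
      Polynomial ℂ) = 0) :
    IsPt Γ (∑ j ∈ J, (T j : R[T;T⁻¹]) • (D j).map (cA R)) := by
  classical
  let E := MvPolynomial (Fin N × Fin N) R
  let L : Module.End ℂ E := (Lc C : E →ₗ[ℂ] E)
  let y : Matrix (Fin N) (Fin N) E[T;T⁻¹] :=
    ∑ j ∈ J, (T j : E[T;T⁻¹]) • (cs (D j) * gen N R).map (cA E)
  have hy : ∀ i k, y i k = ∑ j ∈ J, T j * LaurentPolynomial.C ((cs (D j) * gen N R) i k) := by
    intro i k
    change (∑ j ∈ J, (T j : E[T;T⁻¹]) • (cs (D j) * gen N R).map (cA E)) i k = _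
    rw [Matrix.sum_apply]
    rfl
  have hD : ∀ j ∈ J, ∀ i k, Gev L (rj N j) ((cs (D j) * gen N R) i k) := by
    intro j hj i k
    refine ⟨N, ?_⟩
    have h3 := aeval_Lc_gen C (D j) ((Polynomial.X - Polynomial.C (rj N j)) ^ N) i k
    rw [h2 j hj] at h3
    refine h3.trans ?_
    have h4 : (cs (0 : Matrix (Fin N) (Fin N) R)) = 0 := by
      ext1 a b
      exact map_zero MvPolynomial.C
    rw [h4, Matrix.zero_mul]
    rfl
  -- the components of `P (a x)`
  have key : ∀ (P : Pl N) (k : ℤ), Gev L (rj N k) ((ev y P).coeff k) := by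
    intro P
    induction P using MvPolynomial.induction_on with
    | C a =>
      intro k
      have e : ev y (MvPolynomial.C a) = algebraMap ℂ E[T;T⁻¹] a := AlgHom.commutes _ _
      have e2 : algebraMap ℂ E[T;T⁻¹] a = LaurentPolynomial.C (algebraMap ℂ E a) := rfl
      rw [e, e2, ← mul_one (LaurentPolynomial.C (algebraMap ℂ E a)), ← T_zero,
        ← single_eq_C_mul_T, AddMonoidAlgebra.coeff_single, Finsupp.single_apply]
      split_ifs with hk
      · subst hk
        refine ⟨1, ?_⟩
        have h0 : rj N 0 = 0 := by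
          unfold rj
          rw [Int.cast_zero, zero_div]
        rw [h0, map_zero, sub_zero, pow_one, Polynomial.aeval_X]
        exact Derivation.map_algebraMap (Lc C) a
      · exact Gev.zero _ _
    | add p q hp hq =>
      intro k
      rw [map_add, AddMonoidAlgebra.coeff_add, Finsupp.add_apply]
      exact (hp k).add (hq k)
    | mul_X p i hp =>
      intro k
      have e : ev y (MvPolynomial.X i) = y i.1 i.2 := MvPolynomial.aeval_X _ _
      rw [map_mul, e, hy, Finset.mul_sum, AddMonoidAlgebra.coeff_sum, Finsupp.finsetSum_apply]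
      refine Gev.sum _ fun j hj => ?_
      have e2 : ev y p * (T j * LaurentPolynomial.C ((cs (D j) * gen N R) i.1 i.2)) =
          LaurentPolynomial.C ((cs (D j) * gen N R) i.1 i.2) * (T j * ev y p) := by ring
      rw [e2, coeff_C_mul, coeff_T_mul]
      have h3 := Gev.mul (Lc C) (hD j hj i.1 i.2) (hp (k - j))
      rw [← rj_add] at h3
      have e3 : j + (k - j) = k := by ring
      rw [e3] at h3
      exact h3
  intro P hP
  -- the sum of the components
  let σ : E[T;T⁻¹] →ₐ[ℂ] E := evT (AlgHom.id ℂ E) 1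
  have hσ : ∀ u : E[T;T⁻¹], σ u = ∑ j ∈ u.coeff.support, u.coeff j := by
    intro u
    have h3 : ∀ (s : Finset ℤ) (c : ℤ → E), σ (∑ j ∈ s, LaurentPolynomial.C (c j) * T j) =
        ∑ j ∈ s, c j := by
      intro s c
      rw [map_sum]
      refine Finset.sum_congr rfl fun j _ => ?_
      rw [map_mul]
      change evT _ _ _ * evT _ _ _ = _
      rw [evT_C, evT_T, _root_.one_zpow, Units.val_one, mul_one]
      rfl
    have h4 : u = ∑ j ∈ u.coeff.support, LaurentPolynomial.C (u.coeff j) * T j := by
      ext k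
      rw [AddMonoidAlgebra.coeff_sum, Finsupp.finsetSum_apply]
      by_cases hk : k ∈ u.coeff.support
      · rw [Finset.sum_eq_single k]
        · rw [← single_eq_C_mul_T, AddMonoidAlgebra.coeff_single, Finsupp.single_eq_same]
        · intro j _ hjk
          rw [← single_eq_C_mul_T, AddMonoidAlgebra.coeff_single, Finsupp.single_apply, if_neg hjk]
        · intro hc
          exact absurd hk hc
      · rw [Finsupp.notMem_support_iff.1 hk, Finset.sum_eq_zero]
        intro j hj
        rw [← single_eq_C_mul_T, AddMonoidAlgebra.coeff_single, Finsupp.single_apply, if_neg]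
        rintro rfl
        exact hk hj
    conv_lhs => rw [h4]
    exact h3 _ _
  have hσy : y.map σ = gen N R := by
    have e : y.map σ = ∑ j ∈ J, cs (D j) * gen N R := by
      ext1 i k
      rw [Matrix.map_apply, hy, map_sum, Matrix.sum_apply]
      refine Finset.sum_congr rfl fun j _ => ?_
      rw [map_mul]
      change evT _ _ _ * evT _ _ _ = _
      rw [evT_C, evT_T, _root_.one_zpow, Units.val_one, one_mul]
      rfl
    have e2 : ∑ j ∈ J, cs (D j) = cs (∑ j ∈ J, D j) := by
      ext1 a b
      rw [Matrix.sum_apply]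
      change _ = MvPolynomial.C ((∑ j ∈ J, D j) a b)
      rw [Matrix.sum_apply, map_sum]
      rfl
    rw [e, ← Finset.sum_mul, e2, h1]
    have e3 : (cs (1 : Matrix (Fin N) (Fin N) R)) = 1 :=
      Matrix.map_one _ (map_zero _) (map_one _)
    rw [e3, Matrix.one_mul]
  have hmem : ∀ k, (ev y P).coeff k ∈ vanA Γ R := by
    intro k
    by_cases hk : k ∈ (ev y P).coeff.support
    · obtain ⟨Q, hQ⟩ := Gev.component (L := L) (ev y P).coeff.support (rj_inj N) (key P) hk
      rw [← hQ, ← hσ, map_ev, hσy]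
      exact aeval_Lc_mem hC Q (Ideal.mem_map_of_mem _ hP)
    · rw [Finsupp.notMem_support_iff.1 hk]
      exact Ideal.zero_mem _
  -- evaluation at `x = 1`
  let ρ : E →ₐ[ℂ] R := evl (AlgHom.id ℂ R) (1 : Matrix (Fin N) (Fin N) R)
  have hρ : y.map (lmA ρ) = ∑ j ∈ J, (T j : R[T;T⁻¹]) • (D j).map (cA R) := by
    ext1 i k
    rw [Matrix.map_apply, hy, map_sum, Matrix.sum_apply]
    refine Finset.sum_congr rfl fun j _ => ?_
    rw [map_mul, lmA_T, lmA_C]
    have e : ρ ((cs (D j) * gen N R) i k) = D j i k := by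
      have e2 : (cs (D j) * gen N R).map ρ = D j := by
        rw [Matrix.map_mul]
        change (cs (D j)).map (evl _ _) * (gen N R).map (evl _ _) = _
        rw [cs_map, gen_map, map_id', Matrix.mul_one]
      exact congrFun (congrFun e2 i) k
    rw [e]
    rfl
  rw [← hρ, ← map_ev]
  ext k
  change (lmap (ρ : E →+* R) (ev y P)).coeff k = _
  rw [lmap, AddMonoidAlgebra.coeff_mapRingHom]
  exact evl_of_mem Γ (hmem k) (AlgHom.id ℂ R) isPt_one

end Der

end

end Vale.Agent.P286.Gen
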