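import Vale.Agent.P286.Gen.Cochar

/-!
# The adjoint action of the one-parameter group
-/

namespace Vale.Agent.P286.Gen

open Matrix LaurentPolynomial

noncomputable section

set_option linter.unusedSectionVars false

variable {N : ℕ} {Γ : Gps N}

/-- Spectral projections. -/
def qj (N : ℕ) (J : Finset ℤ) : ℤ → Polynomial ℂ := (crt J (rj_inj N) N).choose

theorem qj_one (J : Finset ℤ) {i : ℤ} (hi : i ∈ J) :
    (Polynomial.X - Polynomial.C (rj N i)) ^ N ∣ qj N J i - 1 :=
  (crt J (rj_inj N) N).choose_spec.1 i hi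

theorem qj_zero (J : Finset ℤ) {i j : ℤ} (hi : i ∈ J) (hj : j ∈ J) (h : j ≠ i) :
    (Polynomial.X - Polynomial.C (rj N j)) ^ N ∣ qj N J i :=
  (crt J (rj_inj N) N).choose_spec.2 i hi j hj h

section Gen

variable {R R' : Type} [CommRing R] [Algebra ℂ R] [CommRing R'] [Algebra ℂ R'] {J : Finset ℤ}
  {C : Matrix (Fin N) (Fin N) R}

theorem sum_qj (h : Polynomial.aeval C (spp J (rj N) N) = 0) :
    ∑ j ∈ J, Polynomial.aeval C (qj N J j) = 1 := by
  have h1 := aeval_dvd (spp_dvd_sum (rj_inj N) (fun i hi => qj_one J hi)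
    (fun i hi j hj hji => qj_zero J hi hj hji)) h
  rw [map_sub, map_sum, map_one, sub_eq_zero] at h1
  exact h1

theorem qj_kill (h : Polynomial.aeval C (spp J (rj N) N) = 0) {j : ℤ} (hj : j ∈ J) :
    Polynomial.aeval C ((Polynomial.X - Polynomial.C (rj N j)) ^ N * qj N J j) = 0 :=
  aeval_dvd (spp_dvd_mul (rj_inj N) (fun i hi j hj hji => qj_zero J hi hj hji) hj) h

/-- The one-parameter group. -/
def cch (J : Finset ℤ) (u : Rˣ) (C : Matrix (Fin N) (Fin N) R) : Matrix (Fin N) (Fin N) R :=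
  ∑ j ∈ J, ((u ^ j : Rˣ) : R) • Polynomial.aeval C (qj N J j)

theorem cch_map (f : R →ₐ[ℂ] R') (u : Rˣ) :
    (cch J u C).map f = cch J (Units.map (f : R →* R') u) (C.map f) := by
  have h := map_sum f.mapMatrix (fun j => ((u ^ j : Rˣ) : R) •
    Polynomial.aeval C (qj N J j)) J
  refine h.trans ?_
  rw [cch]
  refine Finset.sum_congr rfl fun k _ => ?_
  have h1 : Polynomial.aeval (C.map f) (qj N J k) = (Polynomial.aeval C (qj N J k)).map f :=
    Polynomial.aeval_algHom_apply f.mapMatrix C (qj N J k)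
  rw [h1, ← map_zpow]
  ext1 i j
  change f (((u ^ k : Rˣ) : R) * Polynomial.aeval C (qj N J k) i j) = _
  rw [map_mul]
  rfl

/-- The one-parameter group is a point of the group. -/
theorem isPt_cch (hC : IsLi Γ C) (h : Polynomial.aeval C (spp J (rj N) N) = 0)
    (f : R →ₐ[ℂ] R') (u : R'ˣ) : IsPt Γ (cch J u (C.map f)) := by
  have h1 : IsPt Γ (cch J (tU R 1) (C.map (cA R))) := by
    have h2 := isPt_cochar hC J (sum_qj h) (fun j hj => by
      rw [← map_mul, mul_comm]
      exact qj_kill h hj)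
    have h3 : cch J (tU R 1) (C.map (cA R)) =
        ∑ j ∈ J, (T j : R[T;T⁻¹]) • (Polynomial.aeval C (qj N J j)).map (cA R) := by
      rw [cch]
      refine Finset.sum_congr rfl fun j _ => ?_
      have h4 : Polynomial.aeval (C.map (cA R)) (qj N J j) =
          (Polynomial.aeval C (qj N J j)).map (cA R) :=
        Polynomial.aeval_algHom_apply (cA R).mapMatrix C (qj N J j)
      rw [tU_zpow, one_mul, h4]
    rw [h3]
    exact h2
  have h5 := h1.map (evT f u)
  rw [cch_map] at h5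
  have h6 : Units.map (evT f u : R[T;T⁻¹] →* R') (tU R 1) = u := by
    apply Units.ext
    change evT f u (T 1) = u
    rw [evT_T, zpow_one]
  have h7 : (C.map (cA R)).map (evT f u) = C.map f := by
    ext1 i j
    exact evT_C f u (C i j)
  rw [h6, h7] at h5
  exact h5

end Gen

section Ad

variable {R : Type} [CommRing R] [Algebra ℂ R] {J : Finset ℤ} {w : Fin (dm Γ) → R}
  {l : Fin (dm Γ) → ℤ}

/-- The commutation relation of the one-parameter group with an eigenvector. -/
theorem cch_comm (h : Polynomial.aeval (adG Γ w) (sp l) = 0)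
    (hJ : Polynomial.aeval (toG Γ w) (spp J (rj N) N) = 0) (u : Rˣ) {k : ℤ} (hk : k ∈ lset l)
    (v : Fin (dm Γ) → R) :
    cch J u (toG Γ w) * toG Γ (Polynomial.aeval (adG Γ w) (qp l k) *ᵥ v) =
      ((u ^ (N.factorial * k) : Rˣ) : R) •
        (toG Γ (Polynomial.aeval (adG Γ w) (qp l k) *ᵥ v) * cch J u (toG Γ w)) := by
  set V := toG Γ (Polynomial.aeval (adG Γ w) (qp l k) *ᵥ v) with hV
  have h1 : (adl (toG Γ w) (k : ℂ))^[dm Γ] V = 0 := adl_proj (qp_kill h hk) v
  have h2 : ∀ i ∈ J, ∀ j ∈ J, ((u ^ i : Rˣ) : R) • (Polynomial.aeval (toG Γ w) (qj N J i) *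
      (V * Polynomial.aeval (toG Γ w) (qj N J j))) =
      ((u ^ (N.factorial * k + j) : Rˣ) : R) • (Polynomial.aeval (toG Γ w) (qj N J i) *
      (V * Polynomial.aeval (toG Γ w) (qj N J j))) := by
    intro i hi j hj
    by_cases hij : i = N.factorial * k + j
    · rw [hij]
    · have hne : rj N i ≠ rj N j + (k : ℂ) := by
        rw [← rj_mul N k, ← rj_add]
        intro hc
        apply hij
        rw [rj_inj N hc, add_comm]
      rw [proj_eig_mul h1 (qj_kill hJ hj) (qj_kill hJ hi) hne, smul_zero, smul_zero]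
  have h3 : ∀ i, Polynomial.aeval (toG Γ w) (qj N J i) * V =
      ∑ j ∈ J, Polynomial.aeval (toG Γ w) (qj N J i) *
        (V * Polynomial.aeval (toG Γ w) (qj N J j)) := by
    intro i
    rw [← Finset.mul_sum, ← Finset.mul_sum, sum_qj hJ, Matrix.mul_one]
  have h4 : ∀ j, V * Polynomial.aeval (toG Γ w) (qj N J j) =
      ∑ i ∈ J, Polynomial.aeval (toG Γ w) (qj N J i) *
        (V * Polynomial.aeval (toG Γ w) (qj N J j)) := by
    intro j
    rw [← Finset.sum_mul, sum_qj hJ, Matrix.one_mul]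
  calc cch J u (toG Γ w) * V = ∑ i ∈ J, ∑ j ∈ J, ((u ^ i : Rˣ) : R) •
        (Polynomial.aeval (toG Γ w) (qj N J i) * (V * Polynomial.aeval (toG Γ w) (qj N J j))) := by
        rw [cch, Finset.sum_mul]
        refine Finset.sum_congr rfl fun i _ => ?_
        rw [Matrix.smul_mul, h3, Finset.smul_sum]
    _ = ∑ i ∈ J, ∑ j ∈ J, ((u ^ (N.factorial * k + j) : Rˣ) : R) •
        (Polynomial.aeval (toG Γ w) (qj N J i) * (V * Polynomial.aeval (toG Γ w) (qj N J j))) :=
        Finset.sum_congr rfl fun i hi => Finset.sum_congr rfl fun j hj => h2 i hi j hj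
    _ = ((u ^ (N.factorial * k) : Rˣ) : R) • (V * cch J u (toG Γ w)) := by
        rw [Finset.sum_comm, cch, Finset.mul_sum, Finset.smul_sum]
        refine Finset.sum_congr rfl fun j _ => ?_
        rw [← Finset.smul_sum, ← h4, Matrix.mul_smul, smul_smul, ← Units.val_mul, _root_.zpow_add]

/-- **The adjoint action of the one-parameter group.** -/
theorem Adm_cch (h : Polynomial.aeval (adG Γ w) (sp l) = 0)
    (hJ : Polynomial.aeval (toG Γ w) (spp J (rj N) N) = 0) (u : Rˣ)
    (hp : IsPt Γ (cch J u (toG Γ w))) :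
    Adm Γ (cch J u (toG Γ w)) = ∑ k ∈ lset l, ((u ^ (N.factorial * k) : Rˣ) : R) •
      Polynomial.aeval (adG Γ w) (qp l k) := by
  apply ext_toG
  intro v
  rw [toG_Adm hp]
  have hs : ∀ (s : Finset ℤ) (x : ℤ → Fin (dm Γ) → R), toG Γ (∑ k ∈ s, x k) =
      ∑ k ∈ s, toG Γ (x k) := by
    intro s x
    classical
    induction s using Finset.induction_on with
    | empty => rw [Finset.sum_empty, Finset.sum_empty, toG_zero]
    | insert a s ha ih => rw [Finset.sum_insert ha, Finset.sum_insert ha, toG_add, ih]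
  have h1 : toG Γ v = ∑ k ∈ lset l, toG Γ (Polynomial.aeval (adG Γ w) (qp l k) *ᵥ v) := by
    rw [← hs, ← Matrix.sum_mulVec, sum_qp h, Matrix.one_mulVec]
  rw [h1, Finset.mul_sum, Finset.sum_mul, Matrix.sum_mulVec, hs]
  refine Finset.sum_congr rfl fun k hk => ?_
  rw [cch_comm h hJ u hk, Matrix.smul_mul, Matrix.mul_assoc, hp.mul_adj, Matrix.mul_one,
    Matrix.smul_mulVec, toG_smul]

end Ad

end

end Vale.Agent.P286.Gen
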