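import Vale.Agent.P286.Gen.Rot
import Vale.Agent.P286.Gen.Ode
import Vale.Agent.P286.H527.Euler
import Vale.Agent.P286.H211.Fact2

/-!
# The canonical connection on a bundle whose adjoint bundle is trivial
-/

namespace Vale.Agent.P286.Gen

open Matrix LaurentPolynomial

noncomputable section

set_option linter.unusedSectionVars false

variable {N : ℕ} {B : Type} [CommRing B] [Algebra ℂ B] {Γ Z : Gps N} {m : ℕ}

section Der

variable {A : Type} [CommRing A] [Algebra ℂ A]

theorem mapd_mul (δ : Derivation ℂ A A) {a b c : Type*} [Fintype b] (X : Matrix a b A)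
    (Y : Matrix b c A) : (X * Y).map δ = X.map δ * Y + X * Y.map δ := by
  ext i j
  rw [Matrix.map_apply, Matrix.mul_apply, Matrix.add_apply, Matrix.mul_apply, Matrix.mul_apply,
    map_sum, ← Finset.sum_add_distrib]
  refine Finset.sum_congr rfl fun k _ => ?_
  rw [Derivation.leibniz, smul_eq_mul, smul_eq_mul, Matrix.map_apply, Matrix.map_apply]
  ring

theorem mapd_mulVec (δ : Derivation ℂ A A) {a b : Type*} [Fintype b] (X : Matrix a b A)
    (v : b → A) : (fun i => δ ((X *ᵥ v) i)) = X.map δ *ᵥ v + X *ᵥ fun i => δ (v i) := by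
  ext i
  rw [Pi.add_apply, Matrix.mulVec, Matrix.mulVec, Matrix.mulVec, dotProduct, dotProduct, dotProduct,
    map_sum, ← Finset.sum_add_distrib]
  refine Finset.sum_congr rfl fun k _ => ?_
  rw [Derivation.leibniz, smul_eq_mul, smul_eq_mul, Matrix.map_apply]
  ring

theorem adG_der (δ : Derivation ℂ A A) (v : Fin (dm Γ) → A) :
    (adG Γ v).map δ = adG Γ (fun i => δ (v i)) := by
  conv_lhs => rw [pi_eq_sum v]
  conv_rhs => rw [pi_eq_sum fun i => δ (v i)]
  rw [adG_sum, adG_sum]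
  ext a b
  rw [Matrix.map_apply, Matrix.sum_apply, Matrix.sum_apply, map_sum]
  refine Finset.sum_congr rfl fun i _ => ?_
  rw [adG_smul, adG_smul, Matrix.smul_apply, Matrix.smul_apply, adG_single, Matrix.map_apply,
    smul_eq_mul, smul_eq_mul, Derivation.leibniz, Derivation.map_algebraMap, smul_zero, zero_add,
    smul_eq_mul, mul_comm]

theorem adG_sub (v w : Fin (dm Γ) → A) : adG Γ (v - w) = adG Γ v - adG Γ w := by
  have := adG_smul (Γ := Γ) (-1 : A) w
  rw [neg_smul, one_smul, neg_smul, one_smul] at this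
  rw [sub_eq_add_neg, adG_add, this, ← sub_eq_add_neg]

/-- An automorphism of the Lie algebra defines a connection. -/
theorem exists_conn (hK : KilDet Γ) (δ : Derivation ℂ A A) (M : Matrix (Fin (dm Γ)) (Fin (dm Γ)) A)
    (hM : M.det = 1)
    (h : ∀ i, adG Γ (M *ᵥ Pi.single i 1) * M = M * adG Γ (Pi.single i (1 : A))) :
    ∃ C, adG Γ C = M.map δ * M.adjugate := by
  have h1 : M.adjugate * M = 1 := adjugate_mul_self hM
  have h2 : M * M.adjugate = 1 := self_mul_adjugate hM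
  set D := M.map δ * M.adjugate with hD
  have hDM : D * M = M.map δ := by rw [hD, Matrix.mul_assoc, h1, Matrix.mul_one]
  apply hK.inner
  have key : ∀ i, adG Γ (D *ᵥ (M *ᵥ Pi.single i 1)) = D * adG Γ (M *ᵥ Pi.single i 1) -
      adG Γ (M *ᵥ Pi.single i 1) * D := by
    intro i
    have h3 := congrArg (fun X : Matrix (Fin (dm Γ)) (Fin (dm Γ)) A => X.map δ) (h i)
    rw [mapd_mul, mapd_mul, adG_der, adG_der, mapd_mulVec] at h3
    have h4 : (fun k => δ ((Pi.single i (1 : A) : Fin (dm Γ) → A) k)) = 0 := by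
      ext k
      by_cases hk : k = i
      · subst hk; rw [Pi.single_eq_same, Derivation.map_one_eq_zero]; rfl
      · rw [Pi.single_eq_of_ne hk, map_zero]; rfl
    have h5 : adG Γ (0 : Fin (dm Γ) → A) = 0 := by
      have := adG_smul (Γ := Γ) (0 : A) (0 : Fin (dm Γ) → A)
      rwa [zero_smul, zero_smul] at this
    rw [h4, Matrix.mulVec_zero, add_zero, h5, Matrix.mul_zero, add_zero, ← hDM,
      ← Matrix.mulVec_mulVec] at h3
    have h6 := congrArg (· * M.adjugate) h3
    rw [Matrix.add_mul] at h6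
    have h7 : ∀ X : Matrix (Fin (dm Γ)) (Fin (dm Γ)) A, X * M * M.adjugate = X := fun X => by
      rw [Matrix.mul_assoc, h2, Matrix.mul_one]
    have h8 : D * M * adG Γ (Pi.single i 1) * M.adjugate =
        D * adG Γ (M *ᵥ Pi.single i 1) := by
      rw [Matrix.mul_assoc D, ← h i, ← Matrix.mul_assoc, h7]
    rw [h7, ← Matrix.mul_assoc, h7, h8] at h6
    exact eq_sub_of_add_eq h6
  intro v
  have hv : v = ∑ i, (M.adjugate *ᵥ v) i • (M *ᵥ Pi.single i (1 : A)) := by
    have h3 : v = M *ᵥ (M.adjugate *ᵥ v) := by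
      rw [Matrix.mulVec_mulVec, h2, Matrix.one_mulVec]
    conv_lhs => rw [h3, pi_eq_sum (M.adjugate *ᵥ v)]
    rw [Matrix.mulVec_sum]
    exact Finset.sum_congr rfl fun i _ => Matrix.mulVec_smul _ _ _
  rw [hv, Matrix.mulVec_sum, adG_sum, adG_sum, Finset.mul_sum, Finset.sum_mul,
    ← Finset.sum_sub_distrib]
  refine Finset.sum_congr rfl fun i _ => ?_
  rw [Matrix.mulVec_smul, adG_smul, adG_smul, key, Matrix.mul_smul, Matrix.smul_mul, smul_sub]

/-- The differential of the adjoint representation. -/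
theorem Adm_der (δ : Derivation ℂ A A) {x : Matrix (Fin N) (Fin N) A} (hx : IsPt Γ x) :
    (Adm Γ x).map δ = adG Γ (coG Γ (x.map δ * x.adjugate)) * Adm Γ x := by
  have hW : toG Γ (coG Γ (x.map δ * x.adjugate)) = x.map δ * x.adjugate := toG_coG (hx.dlog δ)
  set W := coG Γ (x.map δ * x.adjugate) with hW'
  have h1 := hx.adj_mul
  have h2 := hx.mul_adj
  have hadj : x.adjugate.map δ = -(x.adjugate * (x.map δ * x.adjugate)) := by
    have h3 := congrArg (fun X : Matrix (Fin N) (Fin N) A => X.map δ) h1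
    rw [mapd_mul] at h3
    have h4 : (1 : Matrix (Fin N) (Fin N) A).map δ = 0 := by
      ext i j
      rw [Matrix.map_apply, Matrix.one_apply]
      split_ifs
      · exact Derivation.map_one_eq_zero δ
      · exact map_zero δ
    rw [h4] at h3
    have h5 := congrArg (· * x.adjugate) h3
    rw [Matrix.add_mul, Matrix.mul_assoc, h2, Matrix.mul_one, Matrix.zero_mul,
      Matrix.mul_assoc] at h5
    exact eq_neg_of_add_eq_zero_left h5
  apply Matrix.ext_of_mulVec_single
  intro j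
  apply toG_injective (Γ := Γ)
  rw [← Matrix.mulVec_mulVec, toG_adG, toG_Adm hx, hW]
  have h6 : (Adm Γ x).map δ *ᵥ Pi.single j 1 = fun i => δ ((Adm Γ x *ᵥ Pi.single j 1) i) := by
    rw [mapd_mulVec]
    have h4 : (fun k => δ ((Pi.single j (1 : A) : Fin (dm Γ) → A) k)) = 0 := by
      ext k
      by_cases hk : k = j
      · subst hk; rw [Pi.single_eq_same, Derivation.map_one_eq_zero]; rfl
      · rw [Pi.single_eq_of_ne hk, map_zero]; rfl
    rw [h4, Matrix.mulVec_zero, add_zero]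
  have h7 : ∀ v : Fin (dm Γ) → A, toG Γ (fun i => δ (v i)) = (toG Γ v).map δ := by
    intro v
    ext a b
    rw [Matrix.map_apply, toG_apply, toG_apply, map_sum]
    refine Finset.sum_congr rfl fun i _ => ?_
    rw [Derivation.leibniz, Derivation.map_algebraMap, smul_zero, zero_add, smul_eq_mul, mul_comm]
  rw [h6, h7, toG_Adm hx, mapd_mul, mapd_mul, hadj]
  have h8 : (toG Γ (Pi.single j (1 : A))).map δ = 0 := by
    rw [← h7]
    have h4 : (fun k => δ ((Pi.single j (1 : A) : Fin (dm Γ) → A) k)) = 0 := by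
      ext k
      by_cases hk : k = j
      · subst hk; rw [Pi.single_eq_same, Derivation.map_one_eq_zero]; rfl
      · rw [Pi.single_eq_of_ne hk, map_zero]; rfl
    rw [h4, toG_zero]
  rw [h8, Matrix.mul_zero, add_zero]
  have h9 : x.map δ * toG Γ (Pi.single j 1) * x.adjugate =
      x.map δ * x.adjugate * (x * toG Γ (Pi.single j 1) * x.adjugate) := by
    calc _ = x.map δ * (x.adjugate * x) * toG Γ (Pi.single j 1) * x.adjugate := by
          rw [h1, Matrix.mul_one]
      _ = _ := by simp only [Matrix.mul_assoc]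
  rw [h9]
  simp only [Matrix.mul_neg, Matrix.mul_assoc, sub_eq_add_neg]

end Der

section Coef

theorem adG_cf (k : ℤ) (v : Fin (dm Γ) → B[T;T⁻¹]) :
    cf k (adG Γ v) = adG Γ (fun i => (v i).coeff k) := by
  conv_lhs => rw [pi_eq_sum v]
  conv_rhs => rw [pi_eq_sum fun i => (v i).coeff k]
  rw [adG_sum, adG_sum]
  ext a b
  rw [cf_apply, Matrix.sum_apply, Matrix.sum_apply, AddMonoidAlgebra.coeff_sum,
    Finsupp.finsetSum_apply]
  refine Finset.sum_congr rfl fun i _ => ?_
  rw [adG_smul, adG_smul, Matrix.smul_apply, Matrix.smul_apply, adG_single, adG_single B,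
    Matrix.map_apply, Matrix.map_apply, smul_eq_mul, smul_eq_mul, mul_comm, mul_comm ((v i).coeff k)]
  exact coeff_C_mul _ _ _

theorem adG_GE {k : ℤ} {v : Fin (dm Γ) → B[T;T⁻¹]} (h : ∀ i, GE k (v i)) : MGE k (adG Γ v) := by
  rw [MGE_iff]
  intro j hj
  rw [adG_cf]
  have : (fun i => (v i).coeff j) = (0 : Fin (dm Γ) → B) := by
    ext i
    exact h i j hj
  rw [this]
  have := adG_smul (Γ := Γ) (0 : B) (0 : Fin (dm Γ) → B)
  rwa [zero_smul, zero_smul] at this

theorem adG_LE {k : ℤ} {v : Fin (dm Γ) → B[T;T⁻¹]} (h : ∀ i, LE k (v i)) : MLE k (adG Γ v) := by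
  rw [MLE_iff]
  intro j hj
  rw [adG_cf]
  have : (fun i => (v i).coeff j) = (0 : Fin (dm Γ) → B) := by
    ext i
    exact h i j hj
  rw [this]
  have := adG_smul (Γ := Γ) (0 : B) (0 : Fin (dm Γ) → B)
  rwa [zero_smul, zero_smul] at this

theorem KilDet.adG_zero (hK : KilDet Γ) {A : Type} [CommRing A] [Algebra ℂ A]
    {v : Fin (dm Γ) → A} (h : adG Γ v = 0) : v = 0 := by
  apply hK.adG_injective
  have := adG_smul (Γ := Γ) (0 : A) (0 : Fin (dm Γ) → A)
  rw [zero_smul, zero_smul] at this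
  rw [h, this]

theorem GE_of_adG (hK : KilDet Γ) {k : ℤ} {v : Fin (dm Γ) → B[T;T⁻¹]} (h : MGE k (adG Γ v)) :
    ∀ i, GE k (v i) := by
  intro i j hj
  have h1 := MGE_iff.1 h j hj
  rw [adG_cf] at h1
  exact congrFun (hK.adG_zero h1) i

theorem LE_of_adG (hK : KilDet Γ) {k : ℤ} {v : Fin (dm Γ) → B[T;T⁻¹]} (h : MLE k (adG Γ v)) :
    ∀ i, LE k (v i) := by
  intro i j hj
  have h1 := MLE_iff.1 h j hj
  rw [adG_cf] at h1
  exact congrFun (hK.adG_zero h1) i

theorem euler_coeff (u : B[T;T⁻¹]) (k : ℤ) : (eulerD B u).coeff k = (k : B) * u.coeff k :=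
  eulerFun_coeff B u k

theorem euler_MGE {a b : Type*} {X : Matrix a b B[T;T⁻¹]} (h : MGE 0 X) :
    MGE 1 (X.map (eulerD B)) := by
  intro i j k hk
  rw [Matrix.map_apply, euler_coeff]
  rcases eq_or_ne k 0 with rfl | hk'
  · rw [Int.cast_zero, zero_mul]
  · rw [h i j k (by omega), mul_zero]

theorem euler_MLE {a b : Type*} {X : Matrix a b B[T;T⁻¹]} (h : MLE 0 X) :
    MLE (-1) (X.map (eulerD B)) := by
  intro i j k hk
  rw [Matrix.map_apply, euler_coeff]
  rcases eq_or_ne k 0 with rfl | hk'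
  · rw [Int.cast_zero, zero_mul]
  · rw [h i j k (by omega), mul_zero]

variable [NeZero m]

theorem euler_ex (u : B[T;T⁻¹]) : eulerD B (ex m B u) = (m : B[T;T⁻¹]) * ex m B (eulerD B u) := by
  induction u using LaurentPolynomial.induction_on' with
  | add p q hp hq => rw [map_add, map_add, hp, hq, map_add, map_add, mul_add]
  | C_mul_T k a =>
    rw [map_mul, ex_C, ex_T, Derivation.leibniz, eulerD_C, eulerD_T, smul_zero, add_zero,
      smul_eq_mul, Derivation.leibniz, eulerD_C, eulerD_T, smul_zero, add_zero, smul_eq_mul,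
      map_mul, map_mul, ex_C, ex_T, map_intCast]
    push_cast
    ring

end Coef

section Sol

/-- The solution of `H Y = X`, `X(0) = 1`, if the Toeplitz operator of `H` is invertible. -/
theorem exists_sol {d : ℕ} {H : Matrix (Fin d) (Fin d) B[T;T⁻¹]} (hH : H.det = 1)
    (hu : IsUnit (vtoep H)) :
    ∃ X Y : Matrix (Fin d) (Fin d) B[T;T⁻¹], X = H * Y ∧ MGE 0 X ∧ cf 0 X = 1 ∧ MLE 0 Y ∧
      X.det = 1 ∧ Y.det = 1 := by
  obtain ⟨u, hu⟩ := hu
  have hsur : ∀ y, ∃ x, vtoep H x = y := fun y =>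
    ⟨((u⁻¹ : (Module.End B (ℕ × Fin d →₀ B))ˣ) : Module.End B (ℕ × Fin d →₀ B)) y, by
      rw [← hu]
      exact LinearMap.congr_fun (Units.mul_inv u) y⟩
  choose x hx using fun p : Fin d => hsur (vpart d B (Pi.single p 1))
  let Y : Matrix (Fin d) (Fin d) B[T;T⁻¹] := Matrix.of fun i p => toV d B (x p) i
  have hY : MLE 0 Y := fun i p => toV_LE (x p) i
  have hcol : ∀ p, H *ᵥ toV d B (x p) = (H * Y) *ᵥ Pi.single p 1 := by
    intro p
    rw [← Matrix.mulVec_mulVec]
    congr 1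
    ext1 i
    rw [Matrix.mulVec_single_one]
    rfl
  have hX1 : MGE 1 (H * Y - 1) := by
    intro i p
    have h1 := sub_toV_vpart (H *ᵥ toV d B (x p)) i
    rw [← vtoep_apply, hx, toV_vpart, hcol, Matrix.mulVec_single_one] at h1
    · have h2 : (H * Y - 1) i p = (((H * Y).col p : Fin d → B[T;T⁻¹]) -
          (Pi.single p 1 : Fin d → B[T;T⁻¹])) i := by
        rw [Matrix.sub_apply, Pi.sub_apply, Matrix.one_apply, Pi.single_apply]
        rfl
      rw [h2]
      exact h1
    · intro q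
      by_cases hq : q = p
      · subst hq; rw [Pi.single_eq_same]; exact LE.one
      · rw [Pi.single_eq_of_ne hq]; exact LE.zero _
  have hXG : MGE 0 (H * Y) := by
    have := (hX1.mono (show (0 : ℤ) ≤ 1 by norm_num)).add MGE.one
    simpa using this
  have hX0 : cf 0 (H * Y) = 1 := by
    have := hX1.cf_eq (show (0 : ℤ) < 1 by norm_num)
    rw [cf_sub, cf_one, sub_eq_zero] at this
    exact this
  have hdet : (H * Y).det = Y.det := by rw [Matrix.det_mul, hH, one_mul]
  have hdX : (H * Y).det = 1 := by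
    have h2 : LE 0 (H * Y).det := by rw [hdet]; exact hY.det.1
    rw [eq_C_of_LE_GE h2 hXG.det.1, hXG.det.2, hX0, Matrix.det_one, map_one]
  exact ⟨H * Y, Y, rfl, hXG, hX0, hY, hdX, by rw [← hdet, hdX]⟩

theorem adjugate_mul_one {d : ℕ} {A : Type} [CommRing A] {X Y : Matrix (Fin d) (Fin d) A}
    (hX : X.det = 1) (h : X * Y = 1) : Y = X.adjugate := by
  calc Y = X.adjugate * X * Y := by rw [adjugate_mul_self hX, Matrix.one_mul]
    _ = _ := by rw [Matrix.mul_assoc, h, Matrix.mul_one]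

variable [NeZero m]

theorem mge3 {d : ℕ} {X Y Z : Matrix (Fin d) (Fin d) B[T;T⁻¹]} (hX : MGE 0 X) (hY : MGE 0 Y)
    (hZ : MGE 0 Z) : MGE 0 (X * (Y * Z)) := by
  have := hX.mul (hY.mul hZ)
  rwa [add_zero, add_zero] at this

theorem mle3 {d : ℕ} {X Y Z : Matrix (Fin d) (Fin d) B[T;T⁻¹]} (hX : MLE 0 X) (hY : MLE 0 Y)
    (hZ : MLE 0 Z) : MLE 0 (X * (Y * Z)) := by
  have := hX.mul (hY.mul hZ)
  rwa [add_zero, add_zero] at this

theorem cf3 {d : ℕ} {X Y Z : Matrix (Fin d) (Fin d) B[T;T⁻¹]} (hX : MGE 0 X) (hY : MGE 0 Y)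
    (hZ : MGE 0 Z) : cf 0 (X * (Y * Z)) = cf 0 X * (cf 0 Y * cf 0 Z) := by
  have h1 := MGE.cf_mul hX (hY.mul hZ)
  have h2 := MGE.cf_mul hY hZ
  rw [add_zero] at h1 h2
  rw [add_zero] at h1
  rw [h1, h2]

/-- The solution of `H Y = X` preserves the bracket. -/
theorem sol_bracket {H X Y : Matrix (Fin (dm Γ)) (Fin (dm Γ)) B[T;T⁻¹]} (hH : H.det = 1)
    (hHa : ∀ v, adG Γ (H *ᵥ v) * H = H * adG Γ v)
    (hXY : X = H * Y) (hX : MGE 0 X) (hX0 : cf 0 X = 1) (hY : MLE 0 Y) (hX1 : X.det = 1)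
    (hY1 : Y.det = 1) (i : Fin (dm Γ)) :
    adG Γ (X *ᵥ Pi.single i 1) * X = X * adG Γ (Pi.single i (1 : B[T;T⁻¹])) ∧
    adG Γ (Y *ᵥ Pi.single i 1) * Y = Y * adG Γ (Pi.single i (1 : B[T;T⁻¹])) := by
  have hXa := adjugate_mul_self hX1
  have hXa' := self_mul_adjugate hX1
  have hYa := adjugate_mul_self hY1
  have hYa' := self_mul_adjugate hY1
  have hHa1 := adjugate_mul_self hH
  have hXadj : X.adjugate = Y.adjugate * H.adjugate := by rw [hXY, Matrix.adjugate_mul_distrib]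
  set E := X.adjugate * (adG Γ (X *ᵥ Pi.single i 1) * X) with hE
  have hE' : E = Y.adjugate * (adG Γ (Y *ᵥ Pi.single i 1) * Y) := by
    have h1 : adG Γ (X *ᵥ Pi.single i 1) * X = H * (adG Γ (Y *ᵥ Pi.single i 1) * Y) := by
      rw [hXY, ← Matrix.mulVec_mulVec, ← Matrix.mul_assoc, hHa, Matrix.mul_assoc]
    rw [hE, h1, hXadj, Matrix.mul_assoc, ← Matrix.mul_assoc H.adjugate, hHa1, Matrix.one_mul]
  have hv : ∀ k, GE 0 ((Pi.single i (1 : B[T;T⁻¹]) : Fin (dm Γ) → B[T;T⁻¹]) k) := by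
    intro k
    by_cases hk : k = i
    · subst hk; rw [Pi.single_eq_same]; exact GE.one
    · rw [Pi.single_eq_of_ne hk]; exact GE.zero _
  have hv' : ∀ k, LE 0 ((Pi.single i (1 : B[T;T⁻¹]) : Fin (dm Γ) → B[T;T⁻¹]) k) := by
    intro k
    by_cases hk : k = i
    · subst hk; rw [Pi.single_eq_same]; exact LE.one
    · rw [Pi.single_eq_of_ne hk]; exact LE.zero _
  have hXv : ∀ k, GE 0 ((X *ᵥ Pi.single i (1 : B[T;T⁻¹])) k) := by
    have := mulVec_GE hX hv
    rwa [add_zero] at this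
  have hYv : ∀ k, LE 0 ((Y *ᵥ Pi.single i (1 : B[T;T⁻¹])) k) := by
    have := mulVec_LE hY hv'
    rwa [add_zero] at this
  have hEG : MGE 0 E := mge3 hX.adjugate (adG_GE hXv) hX
  have hEL : MLE 0 E := by
    rw [hE']
    exact mle3 hY.adjugate (adG_LE hYv) hY
  have hX0' : cf 0 X.adjugate = 1 := by
    have h1 := MGE.cf_mul hX.adjugate hX
    rw [hXa, add_zero, cf_one, hX0, Matrix.mul_one] at h1
    exact h1.symm
  have hE0 : cf 0 E = adG Γ (Pi.single i (1 : B)) := by
    rw [hE, cf3 hX.adjugate (adG_GE hXv) hX, hX0', hX0, Matrix.mul_one, Matrix.one_mul, adG_cf]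
    congr 1
    ext k
    rw [Matrix.mulVec_single_one]
    change cf 0 X k i = _
    rw [hX0, Matrix.one_apply, Pi.single_apply]
  have hEc : E = adG Γ (Pi.single i (1 : B[T;T⁻¹])) := by
    rw [adG_single]
    ext1 a b
    rw [eq_C_of_LE_GE (hEL a b) (hEG a b)]
    have h1 : (E a b).coeff 0 = cf 0 E a b := rfl
    rw [h1, hE0, adG_single, Matrix.map_apply, Matrix.map_apply]
    rfl
  constructor
  · rw [← hEc, hE, ← Matrix.mul_assoc, hXa', Matrix.one_mul]
  · rw [← hEc, hE', ← Matrix.mul_assoc, hYa', Matrix.one_mul]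

theorem gauge_mul {d : ℕ} {A : Type} [CommRing A] [Algebra ℂ A] (δ : Derivation ℂ A A)
    (H Y : Matrix (Fin d) (Fin d) A) (hY : Y * Y.adjugate = 1) :
    (H * Y).map δ * (H * Y).adjugate = H.map δ * H.adjugate +
      H * (Y.map δ * Y.adjugate) * H.adjugate := by
  rw [mapd_mul, Matrix.adjugate_mul_distrib, Matrix.add_mul]
  congr 1
  · rw [Matrix.mul_assoc, ← Matrix.mul_assoc Y, hY, Matrix.one_mul]
  · simp only [Matrix.mul_assoc]

/-- The canonical connection on a bundle whose adjoint bundle is trivial. -/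
theorem exists_pot (hK : KilDet Γ) (hZ : Cen Γ Z) (hd : AdDet Γ) {g : Gr Γ B[T;T⁻¹]}
    (hg : TwZ Z m g) (hu : IsUnit (toep m g)) :
    ∃ c c' : Matrix (Fin N) (Fin N) B[T;T⁻¹], IsLi Γ c ∧ MGE 1 c ∧ MLE (-1) c' ∧
      c = (mx g).map (eulerD B) * (mx g).adjugate + mx g * c' * (mx g).adjugate := by
  have hH : (Hm m g).det = 1 := Hm_det hZ hd hg
  have hHa := Hm_adG (m := m) hZ hg
  rw [toep_Hm] at hu
  obtain ⟨X, Y, hXY, hX, hX0, hY, hX1, hY1⟩ := exists_sol hH hu
  have hb := sol_bracket hH hHa hXY hX hX0 hY hX1 hY1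
  obtain ⟨C, hC⟩ := exists_conn hK (eulerD B) X hX1 fun i => (hb i).1
  obtain ⟨C', hC'⟩ := exists_conn hK (eulerD B) Y hY1 fun i => (hb i).2
  have hCG : ∀ i, GE 1 (C i) := by
    apply GE_of_adG hK
    rw [hC]
    have := (euler_MGE hX).mul hX.adjugate
    rwa [add_zero] at this
  have hCL : ∀ i, LE (-1) (C' i) := by
    apply LE_of_adG hK
    rw [hC']
    have := (euler_MLE hY).mul hY.adjugate
    rwa [add_zero] at this
  -- the gauge transformation
  have hYa' := self_mul_adjugate hY1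
  have hHa1 := self_mul_adjugate hH
  have h1 : adG Γ C = (Hm m g).map (eulerD B) * (Hm m g).adjugate + adG Γ (Hm m g *ᵥ C') := by
    have h2 : adG Γ (Hm m g *ᵥ C') = Hm m g * adG Γ C' * (Hm m g).adjugate := by
      rw [← hHa, Matrix.mul_assoc, hHa1, Matrix.mul_one]
    rw [hC, h2, hC', hXY]
    exact gauge_mul (eulerD B) (Hm m g) Y hYa'
  have h3 := congrArg (fun M : Matrix (Fin (dm Γ)) (Fin (dm Γ)) B[T;T⁻¹] => M.map (ex m B)) h1
  have hex := Hm_ex hZ hg
  have hmap_add : ∀ M M' : Matrix (Fin (dm Γ)) (Fin (dm Γ)) B[T;T⁻¹],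
      (M + M').map (ex m B) = M.map (ex m B) + M'.map (ex m B) := fun M M' =>
    Matrix.map_add _ (map_add (ex m B)) _ _
  have hadjex : ((Hm m g).adjugate).map (ex m B) = (Adm Γ (mx g)).adjugate := by
    have := RingHom.map_adjugate (ex m B : B[T;T⁻¹] →+* B[T;T⁻¹]) (Hm m g)
    refine this.trans ?_
    rw [← hex]
    rfl
  have hex2 : (Hm m g *ᵥ C') = fun i => (Hm m g *ᵥ C') i := rfl
  have hmv : (fun i => ex m B ((Hm m g *ᵥ C') i)) = Adm Γ (mx g) *ᵥ fun i => ex m B (C' i) := by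
    ext1 i
    rw [← hex, Matrix.mulVec, Matrix.mulVec, dotProduct, dotProduct, map_sum]
    exact Finset.sum_congr rfl fun j _ => map_mul _ _ _
  rw [hmap_add, Matrix.map_mul, ← adG_map, ← adG_map, hadjex, hmv] at h3
  have hdm : (m : B[T;T⁻¹]) • ((Hm m g).map (eulerD B)).map (ex m B) =
      (Adm Γ (mx g)).map (eulerD B) := by
    rw [← hex]
    ext1 i j
    rw [Matrix.smul_apply, Matrix.map_apply, Matrix.map_apply, Matrix.map_apply, Matrix.map_apply,
      euler_ex, smul_eq_mul]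
  have hAd1 : (Adm Γ (mx g)).det = 1 := hd _ _ (isPt g)
  have hder := Adm_der (eulerD B) (isPt g)
  set W := coG Γ ((mx g).map (eulerD B) * (mx g).adjugate) with hW
  have h4 : (m : B[T;T⁻¹]) • adG Γ (fun i => ex m B (C i)) =
      adG Γ W + (m : B[T;T⁻¹]) • adG Γ (Adm Γ (mx g) *ᵥ fun i => ex m B (C' i)) := by
    rw [h3, smul_add, ← Matrix.smul_mul, hdm, hder, Matrix.mul_assoc, self_mul_adjugate hAd1,
      Matrix.mul_one]
  rw [← adG_smul, ← adG_smul, ← adG_add] at h4
  have h5 := hK.adG_injective h4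
  have h6 := congrArg (toG Γ) h5
  rw [toG_add, toG_coG ((isPt g).dlog (eulerD B)), toG_smul, toG_smul, toG_Adm (isPt g)] at h6
  refine ⟨(m : B[T;T⁻¹]) • toG Γ (fun i => ex m B (C i)),
    (m : B[T;T⁻¹]) • toG Γ (fun i => ex m B (C' i)), (isLi_toG _).smul _, ?_, ?_, ?_⟩
  · have hexC : ∀ i, GE 1 (ex m B (C i)) := by
      intro i k hk
      by_cases hmk : (m : ℤ) ∣ k
      · obtain ⟨l, rfl⟩ := hmk
        rw [ex_coeff]
        apply hCG
        have : 0 < (m : ℤ) := by exact_mod_cast Nat.pos_of_neZero m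
        nlinarith
      · exact ex_coeff_of_not _ _ hmk
    intro a b
    rw [Matrix.smul_apply, toG_apply, smul_eq_mul]
    have h7 : GE 0 (m : B[T;T⁻¹]) := by
      have := GE.C (m : B)
      rwa [map_natCast] at this
    have h8 := h7.mul (GE.sum Finset.univ fun i _ => (hexC i).mul
      (GE.C (algebraMap ℂ B ((bs Γ i : Matrix (Fin N) (Fin N) ℂ) a b))))
    simpa using h8
  · have hexC : ∀ i, LE (-1) (ex m B (C' i)) := by
      intro i k hk
      by_cases hmk : (m : ℤ) ∣ k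
      · obtain ⟨l, rfl⟩ := hmk
        rw [ex_coeff]
        apply hCL
        have : 0 < (m : ℤ) := by exact_mod_cast Nat.pos_of_neZero m
        by_contra hcon
        rw [not_lt] at hcon
        nlinarith
      · exact ex_coeff_of_not _ _ hmk
    intro a b
    rw [Matrix.smul_apply, toG_apply, smul_eq_mul]
    have h7 : LE 0 (m : B[T;T⁻¹]) := by
      have := LE.C (m : B)
      rwa [map_natCast] at this
    have h8 := h7.mul (LE.sum Finset.univ fun i _ => (hexC i).mul
      (LE.C (algebraMap ℂ B ((bs Γ i : Matrix (Fin N) (Fin N) ℂ) a b))))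
    simpa using h8
  · rw [h6, Matrix.mul_smul, Matrix.smul_mul]

end Sol

end

end Vale.Agent.P286.Gen
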