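import Mathlib

/-!
# Functions which are killed by all vector fields are constant
-/

namespace Vale.Agent.P286.Gen

open Polynomial

noncomputable section

/-- The ring of dual numbers. -/
def DN (F : Type) [Field F] : Type := DualNumber F

instance (F : Type) [Field F] : CommRing (DN F) := inferInstanceAs (CommRing (DualNumber F))

section Fld

variable {F : Type} [Field F]

/-- The first component. -/
def dn1 (F : Type) [Field F] : DN F →+* F := (TrivSqZeroExt.fstHom F F F : DualNumber F →+* F)

/-- The second component. -/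
def dn2 (x : DN F) : F := TrivSqZeroExt.snd (R := F) (M := F) x

/-- The inclusion. -/
def dnl (F : Type) [Field F] : F →+* DN F := (TrivSqZeroExt.inlHom F F : F →+* DualNumber F)

theorem dn2_add (x y : DN F) : dn2 (x + y) = dn2 x + dn2 y := TrivSqZeroExt.snd_add x y

theorem dn2_mul (x y : DN F) : dn2 (x * y) = dn1 F x * dn2 y + dn1 F y * dn2 x := by
  refine (TrivSqZeroExt.snd_mul (R := F) (M := F) x y).trans ?_
  rw [smul_eq_mul, MulOpposite.smul_eq_mul_unop, MulOpposite.unop_op, mul_comm (TrivSqZeroExt.snd x)]
  rfl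

/-- The element `ε`. -/
def epsE (F : Type) [Field F] : DN F := (TrivSqZeroExt.inr (1 : F) : DualNumber F)

theorem dn1_eps : dn1 F (epsE F) = 0 := rfl

theorem dn2_eps : dn2 (epsE F) = 1 := rfl

theorem dn1_inl (y : F) : dn1 F (dnl F y) = y := rfl

theorem dn2_inl (y : F) : dn2 (dnl F y) = 0 := rfl

theorem ker_dn1 : IsNilpotent (RingHom.ker (dn1 F)) := by
  refine ⟨2, ?_⟩
  rw [pow_two, Ideal.zero_eq_bot, eq_bot_iff, Ideal.mul_le]
  intro x hx y hy
  rw [RingHom.mem_ker] at hx hy
  rw [Ideal.mem_bot]
  apply TrivSqZeroExt.ext (R := F) (M := F)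
  · have : dn1 F (x * y) = 0 := by rw [map_mul, hx, zero_mul]
    exact this
  · have := dn2_mul x y
    rw [hx, hy, zero_mul, zero_mul, add_zero] at this
    exact this

theorem dn1_surj : Function.Surjective (dn1 F) := fun x => ⟨dnl F x, rfl⟩

variable [Algebra ℂ F]

/-- A transcendental element has a nonzero derivative. -/
theorem exists_der [Algebra.EssFiniteType ℂ F] (f : F) (hf : Transcendental ℂ f) :
    ∃ D : Derivation ℂ F F, D f = 1 := by
  let : Algebra ℂ[X] F := (aeval (R := ℂ) f).toRingHom.toAlgebra
  have hinj : Function.Injective (algebraMap ℂ[X] F) := transcendental_iff_injective.1 hf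
  have : FaithfulSMul ℂ[X] F := (faithfulSMul_iff_algebraMap_injective ℂ[X] F).2 hinj
  have : IsScalarTower ℂ ℂ[X] F := IsScalarTower.of_algebraMap_eq fun c => by
    exact ((aeval (R := ℂ) f).commutes c).symm
  let : Algebra (FractionRing ℂ[X]) F := FractionRing.liftAlgebra ℂ[X] F
  have : IsScalarTower ℂ[X] (FractionRing ℂ[X]) F := inferInstance
  have : IsScalarTower ℂ (FractionRing ℂ[X]) F := by
    apply IsScalarTower.of_algebraMap_eq
    intro c
    rw [IsScalarTower.algebraMap_apply ℂ ℂ[X] F,
      IsScalarTower.algebraMap_apply ℂ[X] (FractionRing ℂ[X]) F,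
      ← IsScalarTower.algebraMap_apply ℂ ℂ[X] (FractionRing ℂ[X])]
  have : Algebra.EssFiniteType (FractionRing ℂ[X]) F :=
    Algebra.EssFiniteType.of_comp ℂ (FractionRing ℂ[X]) F
  have : CharZero (FractionRing ℂ[X]) :=
    charZero_of_injective_algebraMap (algebraMap ℂ (FractionRing ℂ[X])).injective
  have h1 : Algebra.FormallySmooth (FractionRing ℂ[X]) F := inferInstance
  have h2 : Algebra.FormallySmooth ℂ[X] (FractionRing ℂ[X]) :=
    .of_isLocalization (nonZeroDivisors _)
  have h3 : Algebra.FormallySmooth ℂ[X] F := .comp ℂ[X] (FractionRing ℂ[X]) F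
  let x : DN F := dnl F f + epsE F
  let : Algebra ℂ (DN F) := ((dnl F).comp (algebraMap ℂ F)).toAlgebra
  let : Algebra ℂ[X] (DN F) := (aeval (R := ℂ) x).toRingHom.toAlgebra
  have hx1 : dn1 F x = f := by
    change dn1 F (dnl F f + epsE F) = f
    rw [map_add, dn1_inl, dn1_eps, add_zero]
  have hx2 : dn2 x = 1 := by
    change dn2 (dnl F f + epsE F) = 1
    rw [dn2_add, dn2_inl, dn2_eps, zero_add]
  let d1 : DN F →ₐ[ℂ] F := { dn1 F with commutes' := fun c => rfl }
  let g : DN F →ₐ[ℂ[X]] F :=
    { dn1 F with
      commutes' := fun p => by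
        change d1 (aeval x p) = aeval f p
        rw [← Polynomial.aeval_algHom_apply]
        congr 1
        rw [← hx1]
        rfl }
  let h := Algebra.FormallySmooth.liftOfSurjective (AlgHom.id ℂ[X] F) g dn1_surj ker_dn1
  have hh : ∀ y, dn1 F (h y) = y := fun y =>
    Algebra.FormallySmooth.liftOfSurjective_apply (AlgHom.id ℂ[X] F) g dn1_surj ker_dn1 y
  have hc : ∀ c : ℂ, h (algebraMap ℂ F c) = dnl F (algebraMap ℂ F c) := by
    intro c
    have e1 : algebraMap ℂ F c = algebraMap ℂ[X] F (C c) :=
      ((aeval (R := ℂ) f).commutes c).symm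
    rw [e1, h.commutes]
    change aeval x (C c) = _
    rw [aeval_C, ← e1]
    rfl
  refine ⟨Derivation.mk' { toFun := fun y => dn2 (h y), map_add' := ?_, map_smul' := ?_ } ?_, ?_⟩
  · intro a b
    rw [map_add, dn2_add]
  · intro c y
    rw [Algebra.smul_def, map_mul, hc, dn2_mul]
    have e1 : dn1 F (dnl F (algebraMap ℂ F c)) = algebraMap ℂ F c := rfl
    have e2 : dn2 (dnl F (algebraMap ℂ F c)) = 0 := rfl
    rw [e1, e2, mul_zero, add_zero, RingHom.id_apply, Algebra.smul_def]
  · intro a b
    change dn2 (h (a * b)) = a • dn2 (h b) + b • dn2 (h a)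
    rw [map_mul, dn2_mul, hh, hh, smul_eq_mul, smul_eq_mul]
  · change dn2 (h f) = 1
    have e1 : f = algebraMap ℂ[X] F X := (aeval_X (R := ℂ) f).symm
    have e2 : h f = x := by
      conv_lhs => rw [e1]
      rw [h.commutes]
      exact aeval_X x
    rw [e2, hx2]

end Fld

/-- A nonconstant function on an irreducible variety is not killed by all vector fields. -/
theorem const_of_der {D : Type} [CommRing D] [IsDomain D] [Algebra ℂ D] [Algebra.FiniteType ℂ D]
    (f : D) (hf : ∀ v : Derivation ℂ D D, v f = 0) : ∃ c : ℂ, f = algebraMap ℂ D c := by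
  classical
  by_cases ht : Transcendental ℂ f
  · exfalso
    let F := FractionRing D
    have : Algebra.EssFiniteType ℂ F := by
      have : Algebra.EssFiniteType D (FractionRing D) := .of_isLocalization _ (nonZeroDivisors D)
      exact .comp ℂ D (FractionRing D)
    have hinj : Function.Injective (algebraMap D F) := IsFractionRing.injective D F
    have ht' : Transcendental ℂ (algebraMap D F f) := by
      rw [transcendental_algebraMap_iff hinj]
      exact ht
    obtain ⟨v, hv⟩ := exists_der (algebraMap D F f) ht'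
    -- clear denominators
    obtain ⟨s, hs⟩ := (Algebra.FiniteType.out : (⊤ : Subalgebra ℂ D).FG)
    obtain ⟨⟨h, hh⟩, hd⟩ := IsLocalization.exist_integer_multiples_of_finset (nonZeroDivisors D)
      (s.image fun y => v (algebraMap D F y))
    have hh0 : h ≠ 0 := nonZeroDivisors.ne_zero hh
    have key : ∀ y : D, ∃ z : D, algebraMap D F z = algebraMap D F h * v (algebraMap D F y) := by
      intro y
      have hy : y ∈ Algebra.adjoin ℂ (s : Set D) := by rw [hs]; exact Algebra.mem_top
      induction hy using Algebra.adjoin_induction with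
      | mem y hy =>
        obtain ⟨z, hz⟩ := hd _ (Finset.mem_image_of_mem _ hy)
        refine ⟨z, ?_⟩
        rw [hz, Algebra.smul_def]
      | algebraMap c =>
        refine ⟨0, ?_⟩
        rw [map_zero, ← IsScalarTower.algebraMap_apply ℂ D F, Derivation.map_algebraMap, mul_zero]
      | add a b _ _ ha hb =>
        obtain ⟨z, hz⟩ := ha
        obtain ⟨z', hz'⟩ := hb
        exact ⟨z + z', by rw [map_add, hz, hz', map_add, map_add, mul_add]⟩
      | mul a b _ _ ha hb =>
        obtain ⟨z, hz⟩ := ha
        obtain ⟨z', hz'⟩ := hb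
        refine ⟨a * z' + b * z, ?_⟩
        rw [map_add, map_mul, map_mul, hz, hz', map_mul, Derivation.leibniz, smul_eq_mul,
          smul_eq_mul]
        ring
    choose w hw using key
    let v' : Derivation ℂ D D := Derivation.mk'
      { toFun := w
        map_add' := fun a b => hinj (by
          rw [map_add, hw, hw, hw, map_add, map_add, mul_add])
        map_smul' := fun c a => hinj (by
          have e1 : algebraMap D F (c • a) = c • algebraMap D F a := by
            rw [Algebra.smul_def, map_mul, ← IsScalarTower.algebraMap_apply ℂ D F,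
              ← Algebra.smul_def]
          have e2 : algebraMap D F (c • w a) = c • algebraMap D F (w a) := by
            rw [Algebra.smul_def, map_mul, ← IsScalarTower.algebraMap_apply ℂ D F,
              ← Algebra.smul_def]
          rw [RingHom.id_apply, hw, e1, e2, hw, Derivation.map_smul, mul_smul_comm]) }
      (fun a b => hinj (by
        change algebraMap D F (w (a * b)) = algebraMap D F (a * w b + b * w a)
        rw [map_add, map_mul, map_mul, hw, hw, hw, map_mul, Derivation.leibniz, smul_eq_mul,
          smul_eq_mul]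
        ring))
    have h1 : w f = 0 := hf v'
    have h2 := hw f
    rw [h1, map_zero, hv, mul_one] at h2
    exact hh0 (hinj (by rw [map_zero, h2]))
  · rw [Transcendental, not_not] at ht
    obtain ⟨p, hp0, hp⟩ := ht
    have h1 := (IsAlgClosed.splits p).eq_prod_roots
    rw [h1, map_mul, aeval_C, mul_eq_zero] at hp
    rcases hp with hp | hp
    · exact absurd ((map_eq_zero_iff _ (FaithfulSMul.algebraMap_injective ℂ D)).1 hp)
        (leadingCoeff_ne_zero.2 hp0)
    · rw [map_multiset_prod, Multiset.prod_eq_zero_iff, Multiset.mem_map] at hp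
      obtain ⟨q, hq, hq0⟩ := hp
      rw [Multiset.mem_map] at hq
      obtain ⟨c, -, rfl⟩ := hq
      refine ⟨c, ?_⟩
      rw [map_sub, aeval_X, aeval_C, sub_eq_zero] at hq0
      exact hq0

end

end Vale.Agent.P286.Gen
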