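import Vale.Agent.P286.Defs
import Vale.Agent.P286.St.ToT
import Vale.Agent.P286.Gen.Bun

/-!
# The sites of `Bun_G(ℙ¹)` and of `BG`
-/

namespace Vale.Agent.P286.Gen

open CategoryTheory LaurentPolynomial

noncomputable section

section Framing

variable {N : ℕ} {A B D : Type} [CommRing A] [Algebra ℂ A] [CommRing B] [Algebra ℂ B]
  [CommRing D] [Algebra ℂ D] {Γ Z : Gps N} {m : ℕ} [NeZero m]

/-- `G(A[z])` acts on `𝔤 ⊗ A[z⁻¹] = 𝔤 ⊗ A[z,z⁻¹] / z 𝔤 ⊗ A[z]` by the adjoint representation. -/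
def toepPos (Γ : Gps N) (A : Type) [CommRing A] [Algebra ℂ A] :
    Gr Γ (Polynomial A) →* OprU Γ A :=
  MonoidHom.toHomUnits
    { toFun := fun a => vtoep (Adp Γ A a)
      map_one' := by rw [Adp_one, vtoep_one]
      map_mul' := fun a a' => by rw [Adp_mul, vtoep_pos_mul (Adp_MGE a)] }

/-- `G(A[z⁻¹])` acts on `𝔤 ⊗ A[z⁻¹]` by the adjoint representation. -/
def toepNeg (Γ : Gps N) (A : Type) [CommRing A] [Algebra ℂ A] :
    Gr Γ (Polynomial A) →* OprU Γ A :=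
  MonoidHom.toHomUnits
    { toFun := fun b => vtoep (Adn Γ A b)
      map_one' := by rw [Adn_one, vtoep_one]
      map_mul' := fun b b' => by rw [Adn_mul, vtoep_mul_neg _ (Adn_MLE b')] }

theorem toepPos_val (a : Gr Γ (Polynomial A)) :
    (toepPos Γ A a : Opr Γ A) = toep m (pos m Γ A a) := (toep_pos a).symm

theorem toepNeg_val (b : Gr Γ (Polynomial A)) :
    (toepNeg Γ A b : Opr Γ A) = toep m (neg m Γ A b) := (toep_neg b).symm

/-- Base change of invertible operators. -/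
def bcU (Γ : Gps N) (f : A →ₐ[ℂ] B) : OprU Γ A →* OprU Γ B :=
  Units.map (bcHom (ℕ × Fin (dm Γ)) (f : A →+* B))

/-- The framing of `g' = a f(g) b⁻¹` induced by a framing of `g`. -/
def transport (f : A →ₐ[ℂ] B) (a b : Gr Γ (Polynomial B)) (S : OprU Γ A) : OprU Γ B :=
  toepPos Γ B a * bcU Γ f S * (toepNeg Γ B b)⁻¹

theorem IsFraming.transport {g : Gr Γ A[T;T⁻¹]}
    {S : OprU Γ A} (h : IsFraming m g S) (f : A →ₐ[ℂ] B)
    {a b : Gr Γ (Polynomial B)} {g' : Gr Γ B[T;T⁻¹]}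
    (e : g' * neg m Γ B b = pos m Γ B a * gm (lmA f) g) :
    IsFraming m g' (Gen.transport f a b S) := by
  have e1 : g' = pos m Γ B a * (gm (lmA f) g * neg m Γ B b⁻¹) := by
    rw [← mul_assoc, ← e, mul_assoc, ← map_mul, mul_inv_cancel, map_one, mul_one]
  have e2 : ((Gen.transport f a b S : OprU Γ B) : Opr Γ B) -
      toep m g' = toep m (pos m Γ B a) * bc (f : A →+* B) ((S : Opr Γ A) - toep m g) *
        toep m (neg m Γ B b⁻¹) := by
    rw [e1, toep_pos_mul, toep_mul_neg, ← bc_toep, bc_sub]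
    change (toepPos Γ B a : Opr Γ B) * bc (f : A →+* B) (S : Opr Γ A) *
      (((toepNeg Γ B b)⁻¹ : OprU Γ B) : Opr Γ B) - _ = _
    rw [← map_inv, toepPos_val (m := m), toepNeg_val (m := m)]
    exact ring_aux₁ (toep m (pos m Γ B a)) (bc (f : A →+* B) S) (bc (f : A →+* B) (toep m g))
      (toep m (neg m Γ B b⁻¹))
  change FinRank (((Gen.transport f a b S : OprU Γ B) : Opr Γ B) - toep m g')
  rw [e2]
  exact ((h.bc (f : A →+* B)).mul_left _).mul_right _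

theorem IsFraming.div {g : Gr Γ A[T;T⁻¹]}
    {S S' : OprU Γ A} (h : IsFraming m g S) (h' : IsFraming m g S') :
    FinRank (((S * S'⁻¹ : OprU Γ A) : Opr Γ A) - 1) := by
  have e : ((S * S'⁻¹ : OprU Γ A) : Opr Γ A) - 1 =
      (((S : Opr Γ A) - toep m g) - ((S' : Opr Γ A) - toep m g)) *
        ((S'⁻¹ : OprU Γ A) : Opr Γ A) :=
    ring_aux₂ (S : Opr Γ A) (S' : Opr Γ A) (toep m g)
      ((S'⁻¹ : OprU Γ A) : Opr Γ A) (Units.mul_inv S')
  rw [e]
  exact (h.sub h').mul_right _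

theorem bcU_toepPos (f : A →ₐ[ℂ] B) (a : Gr Γ (Polynomial A)) :
    bcU Γ f (toepPos Γ A a) = toepPos Γ B (gm (pmA f) a) := by
  apply Units.ext
  rw [toepPos_val (m := 1), ← map_pos, ← bc_toep, ← toepPos_val]
  rfl

theorem bcU_toepNeg (f : A →ₐ[ℂ] B) (b : Gr Γ (Polynomial A)) :
    bcU Γ f (toepNeg Γ A b) = toepNeg Γ B (gm (pmA f) b) := by
  apply Units.ext
  rw [toepNeg_val (m := 1), ← map_neg, ← bc_toep, ← toepNeg_val]
  rfl

theorem bcU_bcU (f : A →ₐ[ℂ] B) (g : B →ₐ[ℂ] D)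
    (S : OprU Γ A) : bcU Γ g (bcU Γ f S) = bcU Γ (g.comp f) S := by
  apply Units.ext
  exact bc_bc (f : A →+* B) (g : B →+* D) _

theorem bcU_id (S : OprU Γ A) : bcU Γ (AlgHom.id ℂ A) S = S := by
  apply Units.ext
  exact bc_id _

theorem transport_transport (f : A →ₐ[ℂ] B) (g : B →ₐ[ℂ] D)
    (a b : Gr Γ (Polynomial B)) (a' b' : Gr Γ (Polynomial D)) (S : OprU Γ A) :
    transport g a' b' (transport f a b S) =
      transport (g.comp f) (a' * gm (pmA g) a) (b' * gm (pmA g) b) S := by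
  simp only [transport, map_mul, map_inv, bcU_toepPos, bcU_toepNeg, bcU_bcU, mul_assoc,
    mul_inv_rev]

/-- The unit `δ` with `t_{S'} = δ • t_S`, for two framings `S, S'` of the same determinant line. -/
def ratio (S S' : OprU Γ A)
    (h : FinRank (((S * S'⁻¹ : OprU Γ A) : Opr Γ A) - 1)) : Aˣ :=
  (isUnit_fdet h (Units.isUnit _)).unit

theorem ratio_val (S S' : OprU Γ A)
    (h : FinRank (((S * S'⁻¹ : OprU Γ A) : Opr Γ A) - 1)) :
    (ratio S S' h : A) = fdet ((S * S'⁻¹ : OprU Γ A) : Opr Γ A) := rfl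

/-- The cocycle property of the Fredholm determinant. -/
theorem fdet_cocycle (f : A →ₐ[ℂ] B) (a b : Gr Γ (Polynomial B))
    (U S : OprU Γ A) (S' : OprU Γ B)
    (h : FinRank (((U * S⁻¹ : OprU Γ A) : Opr Γ A) - 1))
    (h' : FinRank (((transport f a b S * S'⁻¹ : OprU Γ B) : Opr Γ B) - 1)) :
    fdet ((transport f a b U * S'⁻¹ : OprU Γ B) : Opr Γ B) =
      fdet ((transport f a b S * S'⁻¹ : OprU Γ B) : Opr Γ B) *
        f (fdet ((U * S⁻¹ : OprU Γ A) : Opr Γ A)) := by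
  have e : transport f a b U * S'⁻¹ = (toepPos Γ B a * bcU Γ f (U * S⁻¹) * (toepPos Γ B a)⁻¹) *
      (transport f a b S * S'⁻¹) := by
    simp only [transport, map_mul, map_inv]
    group
  have hb : FinRank (((bcU Γ f (U * S⁻¹) : OprU Γ B) : Opr Γ B) - 1) := by
    have := FinRank.bc (f : A →+* B) h
    rwa [bc_sub, bc_one] at this
  have hc : FinRank (((toepPos Γ B a * bcU Γ f (U * S⁻¹) * (toepPos Γ B a)⁻¹ :
      OprU Γ B) : Opr Γ B) - 1) := by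
    have e1 : ((toepPos Γ B a * bcU Γ f (U * S⁻¹) * (toepPos Γ B a)⁻¹ :
      OprU Γ B) : Opr Γ B) - 1 =
      (toepPos Γ B a : Opr Γ B) *
        (((bcU Γ f (U * S⁻¹) : OprU Γ B) : Opr Γ B) - 1) *
        (((toepPos Γ B a)⁻¹ : OprU Γ B) : Opr Γ B) :=
      ring_aux₃ (toepPos Γ B a : Opr Γ B)
        (((toepPos Γ B a)⁻¹ : OprU Γ B) : Opr Γ B)
        ((bcU Γ f (U * S⁻¹) : OprU Γ B) : Opr Γ B)
        (Units.mul_inv (toepPos Γ B a))
    rw [e1]
    exact (hb.mul_left _).mul_right _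
  rw [e, Units.val_mul, fdet_mul hc h', mul_comm]
  congr 1
  rw [Units.val_mul, Units.val_mul, fdet_conj _ hb]
  exact fdet_bc (f : A →+* B) h

end Framing

variable {N : ℕ} {Γ Z : Gps N} {m : ℕ} [NeZero m]

/-- The classifying stack of `Γ'/Z`, given by its test objects (with the trivial line bundle). -/
abbrev BG (Γ Z : Gps N) : Site where
  C := BGObj Γ
  R X := X.A.R
  res φ := BGHom.f φ
  res_id _ := rfl
  res_comp _ _ := rfl
  dl _ := 1
  dl_comp φ ψ := by simp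
  cen X := {φ : X ⟶ X | BGHom.f φ = SmAlg.Hm.id X.A ∧ ∃ ζ ∈ Z, IsCst ζ (BGHom.h φ)}

theorem BunHom.eq {X Y : BunObj Γ Z m} (φ : BunHom X Y) :
    Y.g * neg m Γ Y.A.R φ.b = pos m Γ Y.A.R φ.a * gm (lmA φ.f) X.g := φ.glue.eq

theorem BunHom.finRank {X Y : BunObj Γ Z m} (φ : BunHom X Y) :
    FinRank (((transport φ.f φ.a φ.b X.S * Y.S⁻¹ : OprU Γ Y.A.R) : Opr Γ Y.A.R) - 1) :=
  (X.framing.transport _ φ.eq).div Y.framing

/-- The unit `δ` with `t_Y = δ • φ_* t_X`. -/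
def BunHom.dl {X Y : BunObj Γ Z m} (φ : BunHom X Y) : (Y.A.R)ˣ :=
  ratio (transport φ.f φ.a φ.b X.S) Y.S φ.finRank

/-- The stack `Bun_G(ℙ¹)` with its canonical bundle `ω`, given by its test objects. -/
abbrev Bun (Γ Z : Gps N) (m : ℕ) [NeZero m] : Site where
  C := BunObj Γ Z m
  R X := X.A.R
  res φ := BunHom.f φ
  res_id _ := rfl
  res_comp _ _ := rfl
  dl φ := BunHom.dl φ
  dl_comp {X Y Z'} φ ψ := by
    apply Units.ext
    change fdet ((transport ((BunHom.f ψ).comp (BunHom.f φ))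
        (BunHom.a ψ * gm (pmA (BunHom.f ψ)) (BunHom.a φ))
        (BunHom.b ψ * gm (pmA (BunHom.f ψ)) (BunHom.b φ))
          X.S * Z'.S⁻¹ : OprU Γ Z'.A.R) : Opr Γ Z'.A.R) = _
    rw [← transport_transport]
    exact fdet_cocycle _ _ _ _ _ _ (BunHom.finRank φ) (BunHom.finRank ψ)
  cen X := {φ : X ⟶ X | BunHom.f φ = SmAlg.Hm.id X.A ∧
    ∃ ζ ∈ Z, IsCst ζ (BunHom.a φ) ∧ IsCst ζ (BunHom.b φ)}

theorem delta_eq {A B : Type} [CommRing A] [Algebra ℂ A] [CommRing B] [Algebra ℂ B]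
    (f : A →ₐ[ℂ] B) (a b : Gr Γ (Polynomial B)) (S : OprU Γ A) (S' : OprU Γ B) :
    delta m f a b S S' = fdet ((transport f a b S * S'⁻¹ : OprU Γ B) : Opr Γ B) := by
  change fdet (toep m (pos m Γ B a) * bc (f : A →+* B) (S : Opr Γ A) * toep m (neg m Γ B b⁻¹) *
    ((S'⁻¹ : OprU Γ B) : Opr Γ B)) = _
  rw [← toepPos_val, ← toepNeg_val, map_inv]
  rfl

theorem toT_Bun (Γ Z : Gps N) (m : ℕ) [NeZero m] (s : ℂ) :
    (Bun Γ Z m).toT s = BunG Γ Z m s := by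
  have h : (fun {X Y : BunObj Γ Z m} (φ : X ⟶ Y) => ((BunHom.dl φ : (Y.A.R)ˣ) : Y.A.R)) =
      fun {X Y : BunObj Γ Z m} (φ : X ⟶ Y) =>
        delta m (BunHom.f φ) (BunHom.a φ) (BunHom.b φ) X.S Y.S := by
    funext X Y φ
    exact (delta_eq _ _ _ _ _).symm
  unfold Site.toT BunG
  change (⟨BunObj Γ Z m, BunObj.A, BunHom.f, fun {X Y} φ => ((BunHom.dl φ : (Y.A.R)ˣ) : Y.A.R),
    _, s⟩ : St.TSite) = _
  rw [h]

end

end Vale.Agent.P286.Gen
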