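import Vale.Agent.P286.Gen.Rot

/-!
# The adjoint representation of a connected semisimple group has determinant `1`
-/

namespace Vale.Agent.P286.Gen

open Matrix

noncomputable section

variable {N : ℕ} {Γ : Gps N} {A : Type} [CommRing A] [Algebra ℂ A]

theorem Adm_mul_adj {x : Matrix (Fin N) (Fin N) A} (hx : IsPt Γ x) :
    Adm Γ x * Adm Γ x.adjugate = 1 := by
  rw [← Adm_mul hx hx.adjugate, hx.mul_adj, Adm_one]

theorem kil_Adm {x : Matrix (Fin N) (Fin N) A} (hx : IsPt Γ x) (v w : Fin (dm Γ) → A) :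
    kil Γ (Adm Γ x *ᵥ v) (Adm Γ x *ᵥ w) = kil Γ v w := by
  have h : ∀ v, adG Γ (Adm Γ x *ᵥ v) = Adm Γ x * adG Γ v * Adm Γ x.adjugate := by
    intro v
    rw [← Adm_adG hx, Matrix.mul_assoc, Adm_mul_adj hx, Matrix.mul_one]
  have h' : Adm Γ x.adjugate * Adm Γ x = 1 := mul_eq_one_comm.1 (Adm_mul_adj hx)
  rw [kil, h, h, kil]
  calc Matrix.trace (Adm Γ x * adG Γ v * Adm Γ x.adjugate * (Adm Γ x * adG Γ w * Adm Γ x.adjugate)) =
      Matrix.trace (Adm Γ x * (adG Γ v * (Adm Γ x.adjugate * Adm Γ x) * adG Γ w) *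
        Adm Γ x.adjugate) := by simp only [Matrix.mul_assoc]
    _ = _ := by
      rw [h', Matrix.mul_one, Matrix.trace_mul_comm, ← Matrix.mul_assoc, h', Matrix.one_mul]

theorem Adm_kmA {x : Matrix (Fin N) (Fin N) A} (hx : IsPt Γ x) :
    (Adm Γ x)ᵀ * kmA Γ A * Adm Γ x = kmA Γ A := by
  ext i j
  have h := kil_Adm hx (Pi.single i (1 : A)) (Pi.single j (1 : A))
  rw [kil_eq, kil_eq] at h
  have e1 : ∀ M : Matrix (Fin (dm Γ)) (Fin (dm Γ)) A,
      (Pi.single i (1 : A)) ⬝ᵥ (M *ᵥ (Pi.single j (1 : A))) = M i j := by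
    intro M
    rw [Matrix.mulVec_single_one, single_dotProduct, one_mul]
    rfl
  rw [e1] at h
  rw [← h, ← e1 ((Adm Γ x)ᵀ * kmA Γ A * Adm Γ x), ← Matrix.mulVec_mulVec, ← Matrix.mulVec_mulVec,
    Matrix.dotProduct_mulVec _ (Adm Γ x)ᵀ, Matrix.vecMul_transpose]

theorem det_Adm_sq (hK : KilDet Γ) {x : Matrix (Fin N) (Fin N) A} (hx : IsPt Γ x) :
    (Adm Γ x).det * (Adm Γ x).det = 1 := by
  have h := congrArg Matrix.det (Adm_kmA hx)
  rw [Matrix.det_mul, Matrix.det_mul, Matrix.det_transpose] at h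
  have h2 := hK.isUnit A
  apply h2.mul_left_cancel
  linear_combination h

/-- The determinant of the adjoint representation, as a polynomial function. -/
def adq (Γ : Gps N) : Pl N := (Adm Γ (gen N ℂ)).det

theorem ev_adq (x : Matrix (Fin N) (Fin N) A) : ev x (adq Γ) = (Adm Γ x).det := by
  have h := (ev x : Pl N →+* A).map_det (Adm Γ (gen N ℂ))
  refine h.trans ?_
  have h2 : (ev x : Pl N →+* A).mapMatrix (Adm Γ (gen N ℂ)) = Adm Γ x := by
    refine (Adm_map (ev x) (gen N ℂ)).symm.trans ?_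
    congr 1
    ext i j
    exact MvPolynomial.aeval_X _ _
  rw [h2]

theorem adDet_of_prime (hP : (vanI Γ).IsPrime) (hK : KilDet Γ) : AdDet Γ := by
  have h1 : (adq Γ - 1) * (adq Γ + 1) ∈ vanI Γ := by
    intro γ hγ
    have h := det_Adm_sq hK (x := γ.1) (fun _ hP' => hP' γ hγ)
    rw [map_mul, map_sub, map_add, map_one, ev_adq]
    linear_combination h
  have h2 : adq Γ - 1 ∈ vanI Γ := by
    refine (hP.mem_or_mem h1).resolve_right fun h3 => ?_
    have h4 := h3 1 Γ.one_mem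
    have h5 : ev ((1 : SpecialLinearGroup (Fin N) ℂ).1) (adq Γ) = 1 := by
      rw [ev_adq]
      change (Adm Γ (1 : Matrix (Fin N) (Fin N) ℂ)).det = 1
      rw [Adm_one, Matrix.det_one]
    rw [map_add, map_one, h5] at h4
    norm_num at h4
  intro A _ _ x hx
  have h3 := hx _ h2
  rw [map_sub, map_one, ev_adq, sub_eq_zero] at h3
  exact h3

end

end Vale.Agent.P286.Gen
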