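import Vale.Agent.P286.Gen.Pull

/-!
# The two natural transformations
-/

namespace Vale.Agent.P286.Gen

open CategoryTheory LaurentPolynomial

noncomputable section

set_option linter.unusedSectionVars false

variable {N : ℕ} {Γ Z : Gps N} {ν : ℕ} [NeZero ν]

/-- The bundles whose Toeplitz operator is invertible are trivial. -/
def HFact (Γ Z : Gps N) (ν : ℕ) [NeZero ν] : Prop :=
  ∀ (B : Type) [CommRing B] [Algebra ℂ B] (g : Gr Γ B[T;T⁻¹]), (∃ ζ ∈ Z, IsTw ν ζ g) →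
    IsUnit (toep ν g) → ∃ a b : Gr Γ (Polynomial B), g = pos ν Γ B a * neg ν Γ B b ∧
      ev0 Γ B a = 1

theorem poly_of_evP {A : Type} [CommRing A] [Algebra ℂ A] {p q : Polynomial A}
    (h : evP A ν p = evP A (-(ν : ℤ)) q) : p = CA A (ccA A p) ∧ q = p := by
  rw [evP_eq_ex, evP_neg_eq_ex] at h
  replace h := ex_injective h
  have h1 : GE 0 (evP A 1 p) := evP_GE p
  have h2 : LE 0 (evP A 1 p) := by
    rw [h]
    exact evP_LE q
  have hp : ∀ n : ℕ, (evP A 1 p).coeff (n : ℤ) = p.coeff n := by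
    intro n
    rw [evP_one, LaurentPolynomial.coeff_toLaurent]
    exact Finsupp.mapDomain_apply Nat.cast_injective _ _
  have hq : ∀ n : ℕ, (evP A (-1) q).coeff (-(n : ℤ)) = q.coeff n := by
    intro n
    rw [evP_neg_one, invert_apply, neg_neg, LaurentPolynomial.coeff_toLaurent]
    exact Finsupp.mapDomain_apply Nat.cast_injective _ _
  have e1 : ∀ n : ℕ, n ≠ 0 → p.coeff n = 0 := by
    intro n hn
    rw [← hp]
    exact h2 n (by omega)
  have e2 : ∀ n : ℕ, n ≠ 0 → q.coeff n = 0 := by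
    intro n hn
    rw [← hq, ← h]
    exact h1 _ (by omega)
  have e3 : p.coeff 0 = q.coeff 0 := by
    rw [← hp 0, ← hq 0, h]
    rfl
  constructor
  · ext n
    rw [CA_apply, Polynomial.coeff_C]
    split_ifs with hn
    · rw [hn]
      rfl
    · exact e1 n hn
  · ext n
    by_cases hn : n = 0
    · rw [hn, e3]
    · rw [e1 n hn, e2 n hn]

/-- A matrix which is polynomial both in `z` and in `z⁻¹` is constant. -/
theorem eq_const_of_pos_eq_neg {A : Type} [CommRing A] [Algebra ℂ A]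
    {a b : Gr Γ (Polynomial A)} (h : pos ν Γ A a = neg ν Γ A b) :
    a = cst Γ A (ev0 Γ A a) ∧ b = a := by
  have h' : ∀ i j, mx a i j = CA A (ccA A (mx a i j)) ∧ mx b i j = mx a i j := fun i j =>
    poly_of_evP (ν := ν) (congrFun (congrFun (congrArg mx h) i) j)
  constructor
  · apply Gr.ext'
    ext1 i j
    exact (h' i j).1
  · apply Gr.ext'
    ext1 i j
    exact (h' i j).2

theorem eq_of_triv {B : Type} [CommRing B] [Algebra ℂ B]
    {a b a' b' : Gr Γ (Polynomial B)}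
    {G : Gr Γ B[T;T⁻¹]} (e : 1 * neg ν Γ B b = pos ν Γ B a * G)
    (e' : 1 * neg ν Γ B b' = pos ν Γ B a' * G) (h0 : ev0 Γ B a = ev0 Γ B a') :
    a = a' ∧ b = b' := by
  have h : pos ν Γ B (a * a'⁻¹) = neg ν Γ B (b * b'⁻¹) := by
    rw [one_mul] at e e'
    rw [map_mul, map_mul, map_inv, map_inv, e, e']
    group
  obtain ⟨h1, h2⟩ := eq_const_of_pos_eq_neg h
  have h3 : ev0 Γ B (a * a'⁻¹) = 1 := by
    rw [map_mul, map_inv, h0, mul_inv_cancel]
  rw [h3, map_one] at h1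
  rw [h1] at h2
  exact ⟨mul_inv_eq_one.1 h1, mul_inv_eq_one.1 h2⟩

/-- Two morphisms to a trivial bundle are equal if they agree at `z = 0`. -/
theorem hom_triv_ext {X : BunObj Γ Z ν} {Y : BGObj Γ} {φ ψ : X ⟶ triv Z ν Y}
    (hf : BunHom.f φ = BunHom.f ψ)
    (h0 : ev0 Γ Y.A.R (BunHom.a φ) = ev0 Γ Y.A.R (BunHom.a ψ)) : φ = ψ := by
  have e1 := BunHom.eq φ
  have e2 := BunHom.eq ψ
  rw [← hf] at e2
  obtain ⟨h1, h2⟩ := eq_of_triv e1 e2 h0
  exact BunHom.ext hf h1 h2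

theorem isUnit_toep {A B : Type} [CommRing A] [Algebra ℂ A] [CommRing B] [Algebra ℂ B] (f : A →ₐ[ℂ] B)
    (g : Gr Γ A[T;T⁻¹]) (S : OprU Γ A)
    (h : IsFraming ν g S) (hu : IsUnit (f (theta ν g S))) :
    IsUnit (toep ν (gm (lmA f) g)) := by
  have h1 := theta_finRank h
  have h2 := FinRank.bc_sub_one (f : A →+* B) h1
  have h3 := fdet_bc (f : A →+* B) h1
  have h4 : IsUnit (bc (f : A →+* B) (toep ν g * ((S⁻¹ : OprU Γ A) :
      Opr Γ A))) := by
    apply isUnit_of_isUnit_fdet h2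
    rw [h3]
    exact hu
  rw [bc_mul, bc_toep] at h4
  have h5 : bc (f : A →+* B) ((S⁻¹ : OprU Γ A) : Opr Γ A) =
      ((bcU Γ f S⁻¹ : OprU Γ B) : Opr Γ B) := rfl
  rw [h5] at h4
  exact (Units.isUnit_mul_units _ _).1 h4

theorem exists_split (hF : HFact Γ Z ν) (X : BunObj Γ Z ν) :
    ∃ a b : Gr Γ (Polynomial (Lo X.th)),
      1 * neg ν Γ (Lo X.th) b = pos ν Γ (Lo X.th) a *
        gm (lmA (loA X.th)) X.g ∧
      ev0 Γ (Lo X.th) a = 1 := by
  obtain ⟨ζ, hζ, htw⟩ := X.tw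
  obtain ⟨a, b, hab, ha⟩ := hF (Lo X.th) (gm (lmA (loA X.th)) X.g) ⟨ζ, hζ, htw.map' _⟩
    (isUnit_toep _ X.g X.S X.framing (IsLocalization.Away.algebraMap_isUnit X.th))
  refine ⟨a⁻¹, b, ?_, ?_⟩
  · rw [one_mul, map_inv, hab, inv_mul_cancel_left]
  · rw [map_inv, ha, inv_one]

/-- the trivialization of the bundle over the locus `θ ≠ 0` -/
def phi (hF : HFact Γ Z ν) (X : BunObj Γ Z ν) :
    X ⟶ triv Z ν X.lo :=
  ({ f := IsScalarTower.toAlgHom ℂ X.A.R (Lo X.th)
     a := (exists_split hF X).choose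
     b := (exists_split hF X).choose_spec.choose
     glue := Glue.mk (exists_split hF X).choose_spec.choose_spec.1 } :
      BunHom X (triv Z ν X.lo))

theorem ev0_phi (hF : HFact Γ Z ν) (X : BunObj Γ Z ν) :
    ev0 Γ (Lo X.th) (BunHom.a (phi hF X)) = 1 :=
  (exists_split hF X).choose_spec.choose_spec.2

theorem phi_f (hF : HFact Γ Z ν) (X : BunObj Γ Z ν) :
    BunHom.f (phi hF X) = IsScalarTower.toAlgHom ℂ X.A.R (Lo X.th) := rfl

theorem phi_dl (hF : HFact Γ Z ν) (X : BunObj Γ Z ν) :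
    (BunHom.dl (phi hF X) : Lo X.th) * algebraMap X.A.R (Lo X.th) X.th = 1 := by
  have h := BunObj.th_map (phi hF X)
  rw [triv_th] at h
  exact h.symm

theorem phi_dl_inv (hF : HFact Γ Z ν) (X : BunObj Γ Z ν) :
    (((BunHom.dl (phi hF X))⁻¹ : (Lo X.th)ˣ) : Lo X.th) = algebraMap X.A.R (Lo X.th) X.th := by
  have h := phi_dl hF X
  rw [Units.inv_eq_of_mul_eq_one_right h]

theorem phi_dl_val (hF : HFact Γ Z ν) (X : BunObj Γ Z ν) :
    (BunHom.dl (phi hF X) : Lo X.th) = IsLocalization.Away.invSelf X.th := by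
  have h := phi_dl hF X
  have h2 := mul_invSelf X
  linear_combination (IsLocalization.Away.invSelf X.th) * h -
    (BunHom.dl (phi hF X) : Lo X.th) * h2

theorem phi_nat (hF : HFact Γ Z ν) {X Y : BunObj Γ Z ν} (φ : X ⟶ Y) :
    φ ≫ phi hF Y = phi hF X ≫ jmap Z ν (Lmap φ) := by
  apply hom_triv_ext
  · apply AlgHom.ext
    intro a
    exact (locMap_algebraMap (BunHom.f φ) (BunObj.isUnit_map φ) a).symm
  · change ev0 Γ (Lo Y.th) (BunHom.a (phi hF Y) *
      gm (pmA (loA Y.th)) (BunHom.a φ)) =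
      ev0 Γ (Lo Y.th) (cst Γ (Lo Y.th)
        (gm (loA Y.th) (ev0 Γ Y.A.R (BunHom.a φ))) *
        gm (pmA (locMap (BunHom.f φ) (BunObj.isUnit_map φ)))
          (BunHom.a (phi hF X)))
    rw [map_mul, map_mul, ev0_phi, ev0_constSL, ev0_slm, ev0_slm, ev0_phi, gm_one, one_mul,
      mul_one]

instance modTrivLo {s : ℂ} (F : TDMod (Bun Γ Z ν) s) (X : BunObj Γ Z ν) :
    Module (Lo X.th) (F.M (triv Z ν X.lo)) :=
  F.mod (triv Z ν X.lo)

instance modLoTriv {s : ℂ} (G : TDMod (BG Γ Z) s) (X : BGObj Γ) :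
    Module (Lo (triv Z ν X).th) (G.M (triv Z ν X).lo) :=
  G.mod (triv Z ν X).lo

theorem phi_act (hF : HFact Γ Z ν) {s : ℂ} (F : TDMod (Bun Γ Z ν) s) (X : BunObj Γ Z ν)
    (v : Derivation ℂ X.A.R X.A.R) (m : F.M X) :
    F.map (phi hF X) (F.act X v m) =
      F.act (triv Z ν X.lo) (locDer X.th v) (F.map (phi hF X) m) -
        tw X s v • F.map (phi hF X) m := by
  have h := F.map_act (phi hF X) (locDer X.th v) 1 ![1] ![v] (by
    intro a
    rw [Fin.sum_univ_one]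
    change locDer X.th v (algebraMap X.A.R (Lo X.th) a) = 1 * algebraMap X.A.R (Lo X.th) (v a)
    rw [one_mul, locDer_algebraMap]) m
  rw [Fin.sum_univ_one] at h
  have h1 : (algebraMap ℂ (Lo X.th) s * (((BunHom.dl (phi hF X))⁻¹ : (Lo X.th)ˣ) : Lo X.th) *
      locDer X.th v (BunHom.dl (phi hF X) : Lo X.th)) = - tw X s v := by
    rw [phi_dl_inv, phi_dl_val, der_invSelf, tw]
    have h2 := mul_invSelf X
    linear_combination (-(algebraMap ℂ (Lo X.th) s * IsLocalization.Away.invSelf X.th *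
      algebraMap X.A.R (Lo X.th) (v X.th))) * h2
  have h3 : F.act (triv Z ν X.lo) (locDer X.th v)
      (F.map (phi hF X) m) = (1 : Lo X.th) • F.map (phi hF X) (F.act X v m) -
        (algebraMap ℂ (Lo X.th) s * (((BunHom.dl (phi hF X))⁻¹ : (Lo X.th)ˣ) : Lo X.th) *
      locDer X.th v (BunHom.dl (phi hF X) : Lo X.th)) • F.map (phi hF X) m := h
  rw [h1, one_smul, neg_smul, sub_neg_eq_add] at h3
  rw [h3, add_sub_cancel_right]

/-- The unit `𝟭 ⟶ J ⋙ B`. -/
def eps1 (hF : HFact Γ Z ν) (s : ℂ) :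
    𝟭 (TDMod (Bun Γ Z ν) s) ⟶ Jfun Γ Z ν s ⋙ Bfun Γ Z ν s where
  app F :=
    { app := fun X =>
        { toFun := F.map (phi hF X)
          map_add' := map_add (F.map (phi hF X))
          map_smul' := fun (a : X.A.R) (m : F.M X) => F.map_smul (phi hF X) a m }
      act := fun X v (m : F.M X) => phi_act hF F X v m
      nat := fun {X Y} φ (m : F.M X) => by
        change F.map (phi hF Y) (F.map φ m) =
          F.map (jmap Z ν (Lmap φ)) (F.map (phi hF X) m)
        rw [← F.map_comp, ← F.map_comp, phi_nat] }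
  naturality F F' f := by
    apply TDMod.hom_ext
    intro X m
    exact (TDMod.Hom.nat f (phi hF X) m).symm

/-- `X ⟶ (triv Z ν X).lo` -/
def psi (Z : Gps N) (ν : ℕ) [NeZero ν] (X : BGObj Γ) : X ⟶ (triv Z ν X).lo :=
  (⟨IsScalarTower.toAlgHom ℂ X.A.R (Lo (triv Z ν X).th), 1⟩ : BGHom X (triv Z ν X).lo)

theorem psi_nat {X Y : BGObj Γ} (φ : X ⟶ Y) :
    φ ≫ psi Z ν Y = psi Z ν X ≫ Lmap (jmap Z ν φ) := by
  apply BGHom.ext
  · apply AlgHom.ext
    intro a
    exact (locMap_algebraMap (BunHom.f (jmap Z ν φ)) (BunObj.isUnit_map (jmap Z ν φ)) a).symm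
  · change 1 * gm (loA (triv Z ν Y).th) (BGHom.h φ) =
      gm (loA (triv Z ν Y).th)
        (ev0 Γ Y.A.R (cst Γ Y.A.R (BGHom.h φ))) * gm _ (1 : Gr Γ _)
    rw [ev0_constSL, gm_one, one_mul, mul_one]

theorem triv_unit (X : BGObj Γ) : IsUnit (triv Z ν X).th := by
  rw [triv_th]
  exact isUnit_one

/-- the inverse of `psi` -/
def psi' (Z : Gps N) (ν : ℕ) [NeZero ν] (X : BGObj Γ) : (triv Z ν X).lo ⟶ X :=
  (⟨IsLocalization.liftAlgHom (M := Submonoid.powers (triv Z ν X).th) (f := AlgHom.id ℂ X.A.R) (by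
      rintro ⟨_, k, rfl⟩
      exact (triv_unit X).pow k), 1⟩ : BGHom (triv Z ν X).lo X)

theorem psi_psi' (X : BGObj Γ) : psi Z ν X ≫ psi' Z ν X = 𝟙 X := by
  apply BGHom.ext
  · apply AlgHom.ext
    intro a
    change IsLocalization.liftAlgHom (M := Submonoid.powers (triv Z ν X).th) (f := AlgHom.id ℂ X.A.R)
      _ (algebraMap X.A.R (Lo (triv Z ν X).th) a) = a
    simp
  · change 1 * gm _ (1 : Gr Γ _) = 1
    rw [gm_one, mul_one]

theorem psi'_psi (X : BGObj Γ) : psi' Z ν X ≫ psi Z ν X = 𝟙 _ := by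
  apply BGHom.ext
  · apply lo_hom_ext
    intro a
    change algebraMap X.A.R (Lo (triv Z ν X).th) (IsLocalization.liftAlgHom
      (M := Submonoid.powers (triv Z ν X).th) (f := AlgHom.id ℂ X.A.R)
      _ (algebraMap X.A.R (Lo (triv Z ν X).th) a)) = algebraMap X.A.R (Lo (triv Z ν X).th) a
    simp
  · change 1 * gm _ (1 : Gr Γ _) = 1
    rw [gm_one, mul_one]

theorem tw_triv (X : BGObj Γ) (s : ℂ) (v : Derivation ℂ X.A.R X.A.R) :
    tw (triv Z ν X) s v = 0 := by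
  have h : v (triv Z ν X).th = 0 := by
    rw [triv_th]
    exact Derivation.map_one_eq_zero v
  rw [tw, h, map_zero, mul_zero, mul_zero]

theorem psi_act (s : ℂ) (G : TDMod (BG Γ Z) 0) (X : BGObj Γ)
    (v : Derivation ℂ X.A.R X.A.R) (m : G.M X) :
    G.map (psi Z ν X) (G.act X v m) =
      G.act (triv Z ν X).lo (locDer (triv Z ν X).th v) (G.map (psi Z ν X) m) -
        tw (triv Z ν X) s v • G.map (psi Z ν X) m := by
  have h := G.map_act (psi Z ν X) (locDer (triv Z ν X).th v) 1 ![1] ![v] (by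
    intro a
    rw [Fin.sum_univ_one]
    change locDer (triv Z ν X).th v (algebraMap X.A.R (Lo (triv Z ν X).th) a) =
      1 * algebraMap X.A.R (Lo (triv Z ν X).th) (v a)
    rw [one_mul, locDer_algebraMap]) m
  rw [Fin.sum_univ_one, map_zero, zero_mul, zero_mul, zero_smul, sub_zero] at h
  have h3 : G.act (triv Z ν X).lo (locDer (triv Z ν X).th v)
      (G.map (psi Z ν X) m) = (1 : Lo (triv Z ν X).th) • G.map (psi Z ν X) (G.act X v m) := h
  rw [one_smul] at h3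
  rw [h3, tw_triv, zero_smul, sub_zero]

/-- The unit `𝟭 ⟶ B ⋙ J`. -/
def eps2 (Γ Z : Gps N) (ν : ℕ) [NeZero ν] (s : ℂ) :
    𝟭 (TDMod (BG Γ Z) 0) ⟶ Bfun Γ Z ν s ⋙ Jfun Γ Z ν s where
  app G :=
    { app := fun X =>
        { toFun := G.map (psi Z ν X)
          map_add' := map_add (G.map (psi Z ν X))
          map_smul' := fun (a : X.A.R) (m : G.M X) => G.map_smul (psi Z ν X) a m }
      act := fun X v (m : G.M X) => psi_act s G X v m
      nat := fun {X Y} φ (m : G.M X) => by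
        change G.map (psi Z ν Y) (G.map φ m) =
          G.map (Lmap (jmap Z ν φ)) (G.map (psi Z ν X) m)
        rw [← G.map_comp, ← G.map_comp, psi_nat] }
  naturality G G' f := by
    apply TDMod.hom_ext
    intro X m
    exact (TDMod.Hom.nat f (psi Z ν X) m).symm

theorem eps2_qis (Γ Z : Gps N) (ν : ℕ) [NeZero ν] (s : ℂ) (K : TCx (BG Γ Z) 0) :
    qis (BG Γ Z) 0 ((unitCx (Bfun Γ Z ν s) (Jfun Γ Z ν s) (eps2 Γ Z ν s)).app K) := by
  have e1 : ∀ (X : BGObj Γ) (i : ℤ) (x : K.obj i X),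
      K.map (psi' Z ν X) i (K.map (psi Z ν X) i x) = x := by
    intro X i x
    rw [← K.map_comp, psi_psi', K.map_id]
  have e2 : ∀ (X : BGObj Γ) (i : ℤ) (x : K.obj i (triv Z ν X).lo),
      K.map (psi Z ν X) i (K.map (psi' Z ν X) i x) = x := by
    intro X i x
    rw [← K.map_comp, psi'_psi, K.map_id]
  intro X i j k _ _
  constructor
  · rintro x hx ⟨y, hy⟩
    refine ⟨K.map (psi' Z ν X) i y, ?_⟩
    have hy' : K.d (triv Z ν X).lo i j y = K.map (psi Z ν X) j x := hy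
    exact (K.d_map (psi' Z ν X) i j y).trans ((congrArg (K.map (psi' Z ν X) j) hy').trans (e1 X j x))
  · intro y hy
    have hy' : K.d (triv Z ν X).lo j k y = 0 := hy
    refine ⟨K.map (psi' Z ν X) j y, ?_, 0, ?_⟩
    · exact (K.d_map (psi' Z ν X) j k y).trans
        ((congrArg (K.map (psi' Z ν X) k) hy').trans (map_zero _))
    · rw [map_zero, eq_comm, sub_eq_zero]
      exact (e2 X j y).symm

end

end Vale.Agent.P286.Gen
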