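import Vale.Agent.P286.Gen.Conn
import Vale.Agent.P286.Gen.Eps

/-!
# Bundles with trivial adjoint bundle are trivial
-/

namespace Vale.Agent.P286.Gen

open Matrix LaurentPolynomial

noncomputable section

set_option linter.unusedSectionVars false

variable {N : ℕ} {B : Type} [CommRing B] [Algebra ℂ B] {Γ Z : Gps N} {m : ℕ}

section Gauge

variable {d : ℕ} {A : Type} [CommRing A] [Algebra ℂ A]

/-- The gauge transformation of a connection. -/
def gau (δ : Derivation ℂ A A) (x xi c : Matrix (Fin d) (Fin d) A) : Matrix (Fin d) (Fin d) A :=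
  x.map δ * xi + x * c * xi

theorem gau_mul (δ : Derivation ℂ A A) {x xi y yi c : Matrix (Fin d) (Fin d) A} (hy : y * yi = 1) :
    gau δ (x * y) (yi * xi) c = gau δ x xi (gau δ y yi c) := by
  unfold gau
  rw [mapd_mul, Matrix.add_mul, Matrix.mul_add, Matrix.add_mul]
  have h1 : x.map δ * y * (yi * xi) = x.map δ * xi := by
    rw [Matrix.mul_assoc, ← Matrix.mul_assoc y, hy, Matrix.one_mul]
  rw [h1]
  simp only [Matrix.mul_assoc]
  abel

end Gauge

section Field

theorem gau_MGE {d : ℕ} {x xi c : Matrix (Fin d) (Fin d) B[T;T⁻¹]} (hx : MGE 0 x) (hxi : MGE 0 xi)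
    (hc : MGE 1 c) : MGE 1 (gau (eulerD B) x xi c) := by
  have h1 := (euler_MGE hx).mul hxi
  have h2 := (hx.mul hc).mul hxi
  rw [add_zero] at h1
  rw [zero_add, add_zero] at h2
  exact h1.add h2

theorem gau_MLE {d : ℕ} {x xi c : Matrix (Fin d) (Fin d) B[T;T⁻¹]} (hx : MLE 0 x) (hxi : MLE 0 xi)
    (hc : MLE (-1) c) : MLE (-1) (gau (eulerD B) x xi c) := by
  have h1 := (euler_MLE hx).mul hxi
  have h2 := (hx.mul hc).mul hxi
  rw [add_zero] at h1
  rw [zero_add, add_zero] at h2
  exact h1.add h2

theorem gau_mono_diag {d : ℕ} (l : Fin d → ℤ) (c : Matrix (Fin d) (Fin d) B[T;T⁻¹]) (i : Fin d) :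
    gau (eulerD B) (mono l) (mono (-l)) c i i = (l i : B[T;T⁻¹]) + c i i := by
  have h1 : (T (l i) : B[T;T⁻¹]) * T (-l i) = 1 := by rw [← T_add, add_neg_cancel, T_zero]
  rw [gau, Matrix.add_apply, mono, mono, Matrix.mul_diagonal, Matrix.mul_diagonal,
    Matrix.diagonal_mul, Matrix.map_apply, Matrix.diagonal_apply_eq, eulerD_T, Pi.neg_apply]
  linear_combination (l i : B[T;T⁻¹]) * h1 + c i i * h1

theorem field_l_zero {F : Type} [Field F] [Algebra ℂ F] {d : ℕ}
    {g c c' : Matrix (Fin d) (Fin d) F[T;T⁻¹]} (hg : g.det = 1) (hc : MGE 1 c) (hc' : MLE (-1) c')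
    (h : c = gau (eulerD F) g g.adjugate c') :
    ∀ y, ∃ x, ltoep g x = y := by
  have hgg : g * g.adjugate = 1 := self_mul_adjugate hg
  have hgg' : g.adjugate * g = 1 := adjugate_mul_self hg
  obtain ⟨a, b, l, ha, ha1, hb, hb1, hab, -⟩ := birkhoff g g.adjugate hgg (k := 0)
    (by rw [hg, T_zero])
  have haa := adjugate_mul_self ha1
  have haa' := self_mul_adjugate ha1
  have hbb := adjugate_mul_self hb1
  have hbb' := self_mul_adjugate hb1
  have hP : g.adjugate * a.adjugate * (a * g) = 1 := by
    rw [Matrix.mul_assoc, ← Matrix.mul_assoc a.adjugate, haa, Matrix.one_mul, hgg']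
  have hQ : a * g * (b.adjugate * mono (-l)) = 1 := by
    rw [hab, Matrix.mul_assoc, ← Matrix.mul_assoc b, hbb', Matrix.one_mul, mono_mul_neg]
  have hinv : g.adjugate * a.adjugate = b.adjugate * mono (-l) := left_inv_eq_right_inv hP hQ
  have hkey : gau (eulerD F) a a.adjugate c =
      gau (eulerD F) (mono l) (mono (-l)) (gau (eulerD F) b b.adjugate c') := by
    rw [h, ← gau_mul _ hgg, ← gau_mul _ hbb', hab, hinv]
  have hl : l = 0 := by
    funext i
    have h1 := congrFun (congrFun hkey i) i
    rw [gau_mono_diag] at h1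
    have h2 := congrArg (fun u : F[T;T⁻¹] => u.coeff 0) h1
    have h3 : (gau (eulerD F) a a.adjugate c i i).coeff 0 = 0 :=
      gau_MGE ha ha.adjugate hc i i 0 (by norm_num)
    have h4 : (gau (eulerD F) b b.adjugate c' i i).coeff 0 = 0 :=
      gau_MLE hb hb.adjugate hc' i i 0 (by norm_num)
    simp only [AddMonoidAlgebra.coeff_add, Finsupp.add_apply] at h2
    rw [h3, h4, add_zero] at h2
    have h5 : ((l i : F[T;T⁻¹])).coeff 0 = (l i : F) := by
      have : (l i : F[T;T⁻¹]) = LaurentPolynomial.C (l i : F) := by rw [map_intCast]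
      rw [this, ← mul_one (LaurentPolynomial.C (l i : F)), ← T_zero, ← single_eq_C_mul_T,
        AddMonoidAlgebra.coeff_single, Finsupp.single_eq_same]
    rw [h5] at h2
    have h6 : CharZero F := charZero_of_injective_algebraMap (algebraMap ℂ F).injective
    exact_mod_cast h2.symm
  intro y
  rw [hl, mono_zero, Matrix.one_mul] at hab
  refine ⟨npart d F (b.adjugate * toMat d F (npart d F (a * toMat d F y))), ?_⟩
  have h1 : MLE 0 (b.adjugate * toMat d F (npart d F (a * toMat d F y))) := by
    have := hb.adjugate.mul (toMat_MLE (npart d F (a * toMat d F y)))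
    simpa using this
  rw [ltoep_apply, toMat_npart h1]
  have h2 : g * b.adjugate = a.adjugate := by
    calc g * b.adjugate = a.adjugate * a * g * b.adjugate := by rw [haa, Matrix.one_mul]
      _ = a.adjugate * (b * b.adjugate) := by rw [← hab]; simp only [Matrix.mul_assoc]
      _ = _ := by rw [hbb', Matrix.mul_one]
  have h3 := sub_toMat_npart (a * toMat d F y)
  have h4 : g * (b.adjugate * toMat d F (npart d F (a * toMat d F y))) =
      toMat d F y - a.adjugate * (a * toMat d F y - toMat d F (npart d F (a * toMat d F y))) := by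
    rw [← Matrix.mul_assoc, h2, Matrix.mul_sub, ← Matrix.mul_assoc a.adjugate a, haa,
      Matrix.one_mul]
    abel
  have h5 := ha.adjugate.mul h3
  rw [zero_add] at h5
  rw [h4, map_sub, npart_toMat, npart_eq_zero h5, sub_zero]

end Field

section Ring

theorem gau_map {A A' : Type} [CommRing A] [Algebra ℂ A] [CommRing A'] [Algebra ℂ A'] {d : ℕ}
    {δ : Derivation ℂ A A} {δ' : Derivation ℂ A' A'} (f : A →+* A')
    (hδ : ∀ a, f (δ a) = δ' (f a)) (x xi c : Matrix (Fin d) (Fin d) A) :
    (gau δ x xi c).map f = gau δ' (x.map f) (xi.map f) (c.map f) := by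
  unfold gau
  rw [Matrix.map_add f (map_add f), Matrix.map_mul, Matrix.map_mul, Matrix.map_mul]
  congr 2
  ext i j
  exact hδ _

theorem lmap_euler {A A' : Type} [CommRing A] [Algebra ℂ A] [CommRing A'] [Algebra ℂ A']
    (f : A →+* A') (u : A[T;T⁻¹]) : lmap f (eulerD A u) = eulerD A' (lmap f u) := by
  ext k
  rw [euler_coeff, lmap, AddMonoidAlgebra.coeff_mapRingHom, AddMonoidAlgebra.coeff_mapRingHom,
    euler_coeff, map_mul, map_intCast]

/-- The canonical factorisation of the transition matrix, from the connection. -/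
theorem exists_XY {d : ℕ} {g c c' : Matrix (Fin d) (Fin d) B[T;T⁻¹]} (hg : g.det = 1)
    (hc : MGE 1 c) (hc' : MLE (-1) c') (h : c = gau (eulerD B) g g.adjugate c') :
    ∃ X Y : Matrix (Fin d) (Fin d) B[T;T⁻¹], X = g * Y ∧ MGE 0 X ∧ cf 0 X = 1 ∧ MLE 0 Y ∧
      X.det = 1 ∧ Y.det = 1 ∧ X.map (eulerD B) = c * X := by
  have hgg : g * g.adjugate = 1 := self_mul_adjugate hg
  have hgg' : g.adjugate * g = 1 := adjugate_mul_self hg
  have hsur : ∀ y, ∃ x, ltoep g x = y := by
    let gG : Matrix.GeneralLinearGroup (Fin d) B[T;T⁻¹] := ⟨g, g.adjugate, hgg, hgg'⟩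
    refine surj_ltoep gG ?_
    intro F _ π _
    let _ : Algebra ℂ F := (π.comp (algebraMap ℂ B)).toAlgebra
    have hdet : (mp π g).det = 1 := by rw [det_mp, hg, map_one]
    have hadj : (mp π g).adjugate = mp π g.adjugate := (mp_adjugate π g).symm
    refine field_l_zero (c := mp π c) (c' := mp π c') hdet (fun i j => (hc i j).map π)
      (fun i j => (hc' i j).map π) ?_
    rw [hadj]
    have h1 := congrArg (fun M : Matrix (Fin d) (Fin d) B[T;T⁻¹] => M.map (lmap π)) h
    refine h1.trans ?_
    exact gau_map (lmap π) (lmap_euler π) g g.adjugate c'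
  obtain ⟨x, hx⟩ := hsur (npart d B 1)
  rw [ltoep_apply] at hx
  set Y := toMat d B x with hY
  set X := g * Y with hX
  have hYL : MLE 0 Y := toMat_MLE x
  have h1 : MGE 1 (X - 1) := by
    have := sub_toMat_npart X
    rwa [hx, toMat_npart MLE.one] at this
  have hXG : MGE 0 X := by
    have := (h1.mono (show (0 : ℤ) ≤ 1 by norm_num)).add MGE.one
    simpa using this
  have hX0 : cf 0 X = 1 := by
    have := h1.cf_eq (show (0 : ℤ) < 1 by norm_num)
    rw [cf_sub, cf_one, sub_eq_zero] at this
    exact this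
  have hdet : X.det = Y.det := by rw [hX, Matrix.det_mul, hg, one_mul]
  have hdX : X.det = 1 := by
    have h2 : LE 0 X.det := by rw [hdet]; exact hYL.det.1
    rw [eq_C_of_LE_GE h2 hXG.det.1, hXG.det.2, hX0, Matrix.det_one, map_one]
  have hdY : Y.det = 1 := by rw [← hdet, hdX]
  have hXa := adjugate_mul_self hdX
  have hXa' := self_mul_adjugate hdX
  have hYa := adjugate_mul_self hdY
  have hYa' := self_mul_adjugate hdY
  refine ⟨X, Y, rfl, hXG, hX0, hYL, hdX, hdY, ?_⟩
  set E := X.adjugate * (c * X) - X.adjugate * X.map (eulerD B) with hE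
  have hXadj : X.adjugate = Y.adjugate * g.adjugate := by rw [hX, Matrix.adjugate_mul_distrib]
  have hE' : E = Y.adjugate * (c' * Y) - Y.adjugate * Y.map (eulerD B) := by
    have e1 : X.adjugate * (c * X) = Y.adjugate * (g.adjugate * (g.map (eulerD B) * Y)) +
        Y.adjugate * (c' * Y) := by
      calc X.adjugate * (c * X) = Y.adjugate * g.adjugate *
            ((g.map (eulerD B) * g.adjugate + g * c' * g.adjugate) * (g * Y)) := by
            rw [hXadj, hX]
            conv_lhs => rw [h]
            rfl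
        _ = Y.adjugate * (g.adjugate * (g.map (eulerD B) * ((g.adjugate * g) * Y))) +
            Y.adjugate * ((g.adjugate * g) * (c' * ((g.adjugate * g) * Y))) := by
            simp only [Matrix.add_mul, Matrix.mul_add, Matrix.mul_assoc]
        _ = _ := by rw [hgg', Matrix.one_mul, Matrix.one_mul]
    have e2 : X.adjugate * X.map (eulerD B) =
        Y.adjugate * (g.adjugate * (g.map (eulerD B) * Y)) + Y.adjugate * Y.map (eulerD B) := by
      calc X.adjugate * X.map (eulerD B) = Y.adjugate * g.adjugate *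
            (g.map (eulerD B) * Y + g * Y.map (eulerD B)) := by
            rw [hXadj, hX, mapd_mul]
        _ = Y.adjugate * (g.adjugate * (g.map (eulerD B) * Y)) +
            Y.adjugate * ((g.adjugate * g) * Y.map (eulerD B)) := by
            simp only [Matrix.mul_add, Matrix.mul_assoc]
        _ = _ := by rw [hgg', Matrix.one_mul]
    rw [hE, e1, e2]
    abel
  have hE0 : E = 0 := by
    have h2 : MGE 1 E := by
      have h3 := hXG.adjugate.mul (hc.mul hXG)
      have h4 := hXG.adjugate.mul (euler_MGE hXG)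
      rw [add_zero, zero_add] at h3
      rw [zero_add] at h4
      exact h3.sub h4
    have h3 : MLE (-1) E := by
      rw [hE']
      have h3 := hYL.adjugate.mul (hc'.mul hYL)
      have h4 := hYL.adjugate.mul (euler_MLE hYL)
      rw [add_zero, zero_add] at h3
      rw [zero_add] at h4
      exact h3.sub h4
    ext1 i j
    exact eq_zero_of_LE_GE (h3 i j) (h2 i j) (by norm_num)
  have h4 := congrArg (X * ·) hE0
  simp only [hE, Matrix.mul_sub, Matrix.mul_zero] at h4
  rw [← Matrix.mul_assoc X X.adjugate (c * X), ← Matrix.mul_assoc X X.adjugate, hXa',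
    Matrix.one_mul, Matrix.one_mul, sub_eq_zero] at h4
  exact h4.symm

end Ring

end

end Vale.Agent.P286.Gen
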