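import Vale.Agent.P286.Gen.Fact

/-!
# Bundles with trivial adjoint bundle are trivial, II
-/

namespace Vale.Agent.P286.Gen

open Matrix LaurentPolynomial

noncomputable section

set_option linter.unusedSectionVars false

variable {N : ℕ} {B : Type} [CommRing B] [Algebra ℂ B] {Γ Z : Gps N} {m : ℕ}

theorem exists_poly {a b : Type*} {X : Matrix a b B[T;T⁻¹]} (h : MGE 0 X) :
    ∃ x : Matrix a b (Polynomial B), x.map (evP B 1) = X := by
  choose x hx using fun i j => exists_toLaurent (X i j) (h i j)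
  refine ⟨Matrix.of x, ?_⟩
  ext1 i j
  rw [Matrix.map_apply, evP_one]
  exact hx i j

theorem exists_polyn {a b : Type*} {X : Matrix a b B[T;T⁻¹]} (h : MLE 0 X) :
    ∃ x : Matrix a b (Polynomial B), x.map (evP B (-1)) = X := by
  choose x hx using fun i j => exists_invert_toLaurent (X i j) (h i j)
  refine ⟨Matrix.of x, ?_⟩
  ext1 i j
  rw [Matrix.map_apply, evP_neg_one]
  exact hx i j

theorem evP_one_injective : Function.Injective (evP B 1) := by
  intro p q h
  rw [evP_one, evP_one] at h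
  exact Polynomial.toLaurent_injective h

theorem evP_neg_one_injective : Function.Injective (evP B (-1)) := by
  intro p q h
  rw [evP_neg_one, evP_neg_one] at h
  exact Polynomial.toLaurent_injective ((invert (R := B)).injective h)

theorem evP_xder (p : Polynomial B) : evP B 1 (xder B p) = eulerD B (evP B 1 p) := by
  induction p using Polynomial.induction_on' with
  | add p q hp hq => rw [map_add, map_add, hp, hq, map_add, map_add]
  | monomial n a =>
    have h : (Polynomial.monomial n a : Polynomial B) =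
        Polynomial.C a * Polynomial.X ^ n := (Polynomial.C_mul_X_pow_eq_monomial).symm
    have h1 : xder B (Polynomial.monomial n a) = Polynomial.C a * ((n : Polynomial B) *
        Polynomial.X ^ n) := by
      rw [h]
      ext k
      rw [xder_coeff, Polynomial.coeff_C_mul, Polynomial.coeff_C_mul, Polynomial.coeff_X_pow,
        ← Polynomial.C_eq_natCast, Polynomial.coeff_C_mul, Polynomial.coeff_X_pow]
      split_ifs with hk
      · rw [hk]; ring
      · ring
    rw [h1, h, map_mul, map_mul, map_mul, map_pow, evP_C, evP_X, Derivation.leibniz, eulerD_C,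
      smul_zero, add_zero, smul_eq_mul, map_natCast, T_pow, eulerD_T]
    push_cast
    ring_nf

theorem isPt_of_conn {X c : Matrix (Fin N) (Fin N) B[T;T⁻¹]} (hX : MGE 0 X) (hX0 : cf 0 X = 1)
    (hc : MGE 1 c) (hcL : IsLi Γ c) (h : X.map (eulerD B) = c * X) : IsPt Γ X := by
  obtain ⟨x, rfl⟩ := exists_poly hX
  have hc2 : MGE 0 ((T (-1) : B[T;T⁻¹]) • c) := by
    intro i j
    rw [Matrix.smul_apply, smul_eq_mul]
    have := (GE.T (R := B) (-1)).mul (hc i j)
    simpa using this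
  obtain ⟨C, hC⟩ := exists_poly hc2
  have hCL : IsLi Γ C := by
    apply IsLi.of_injective (evP B 1) evP_one_injective
    rw [hC]
    exact hcL.smul _
  have hTT : (T 1 : B[T;T⁻¹]) * T (-1) = 1 := by rw [← T_add, add_neg_cancel, T_zero]
  have hcc : c = (T 1 : B[T;T⁻¹]) • C.map (evP B 1) := by
    rw [hC, smul_smul, hTT, one_smul]
  apply IsPt.map
  refine isPt_of_ode hCL ?_ ?_
  · ext i j
    have h1 := congrFun (congrFun hX0 i) j
    rw [cf_apply, Matrix.map_apply, evP_one, LaurentPolynomial.coeff_toLaurent] at h1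
    have h2 : (Finsupp.mapDomain (fun n : ℕ => (n : ℤ)) (x i j).toFinsupp.coeff) 0 =
        (x i j).coeff 0 :=
      Finsupp.mapDomain_apply Nat.cast_injective _ 0
    rw [Matrix.map_apply, ← Polynomial.coeff_zero_eq_eval_zero, ← h2]
    exact h1
  · ext1 i j
    apply evP_one_injective
    have h1 := congrFun (congrFun h i) j
    rw [Matrix.map_apply, Matrix.map_apply, ← evP_xder] at h1
    rw [Matrix.map_apply, h1, hcc, Matrix.smul_mul, Matrix.smul_apply, Matrix.smul_apply,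
      smul_eq_mul, smul_eq_mul, map_mul, evP_X, ← Matrix.map_mul, Matrix.map_apply]

section Tw

variable [NeZero m]

theorem rot_GE {k : ℤ} {u : B[T;T⁻¹]} (h : GE k u) : GE k (rot m B u) := by
  intro j hj
  rw [rot_coeff, h j hj, mul_zero]

theorem rot_LE {k : ℤ} {u : B[T;T⁻¹]} (h : LE k u) : LE k (rot m B u) := by
  intro j hj
  rw [rot_coeff, h j hj, mul_zero]

theorem cf_rot {a b : Type*} (X : Matrix a b B[T;T⁻¹]) : cf 0 (X.map (rot m B)) = cf 0 X := by
  ext i j
  rw [cf_apply, Matrix.map_apply, rot_coeff, omk, zpow_zero, Units.val_one, map_one, one_mul]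
  rfl

theorem cm_mul (A : Type) [CommRing A] [Algebra ℂ A] (X Y : Matrix (Fin N) (Fin N) ℂ) :
    cm A (X * Y) = cm A X * cm A Y := Matrix.map_mul

theorem cm_cf0 (X : Matrix (Fin N) (Fin N) ℂ) : cf 0 (cm B[T;T⁻¹] X) = cm B X := by
  ext i j
  have h : cm B[T;T⁻¹] X i j = LaurentPolynomial.C (algebraMap ℂ B (X i j)) * T 0 := by
    rw [T_zero, mul_one]; rfl
  rw [cf_apply, h, ← single_eq_C_mul_T, AddMonoidAlgebra.coeff_single, Finsupp.single_eq_same]
  rfl

theorem cm_MGE (X : Matrix (Fin N) (Fin N) ℂ) : MGE 0 (cm B[T;T⁻¹] X) := fun i j => GE.C _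

theorem cm_MLE (X : Matrix (Fin N) (Fin N) ℂ) : MLE 0 (cm B[T;T⁻¹] X) := fun i j => LE.C _

/-- The bundle given by `g` has no twist, if its adjoint bundle is trivial. -/
theorem rot_fixed {ζ : SpecialLinearGroup (Fin N) ℂ} {g X Y : Matrix (Fin N) (Fin N) B[T;T⁻¹]}
    (hg : g.det = 1) (htw : g.map (rot m B) = cm B[T;T⁻¹] ζ.1 * g) (hXY : X = g * Y)
    (hX : MGE 0 X) (hX0 : cf 0 X = 1) (hY : MLE 0 Y) (hX1 : X.det = 1) (hY1 : Y.det = 1) :
    X.map (rot m B) = X ∧ Y.map (rot m B) = Y := by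
  have hgg' : g.adjugate * g = 1 := adjugate_mul_self hg
  have hXa := adjugate_mul_self hX1
  have hXa' := self_mul_adjugate hX1
  have hYa := adjugate_mul_self hY1
  have hYa' := self_mul_adjugate hY1
  have hXadj : X.adjugate = Y.adjugate * g.adjugate := by rw [hXY, Matrix.adjugate_mul_distrib]
  have hX' : X.map (rot m B) = cm B[T;T⁻¹] ζ.1 * g * Y.map (rot m B) := by
    rw [hXY, Matrix.map_mul, htw]
  have hζ : cm B[T;T⁻¹] (ζ⁻¹).1 * cm B[T;T⁻¹] ζ.1 = 1 := by
    rw [← cm_mul]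
    have h1 : (ζ⁻¹).1 * ζ.1 = ((ζ⁻¹ * ζ : SpecialLinearGroup (Fin N) ℂ)).1 := rfl
    rw [h1, inv_mul_cancel]
    exact cm_one _
  set W := X.adjugate * (cm B[T;T⁻¹] (ζ⁻¹).1 * X.map (rot m B)) with hW
  have hW' : W = Y.adjugate * Y.map (rot m B) := by
    rw [hW, hX', hXadj]
    calc Y.adjugate * g.adjugate * (cm B[T;T⁻¹] (ζ⁻¹).1 * (cm B[T;T⁻¹] ζ.1 * g *
          Y.map (rot m B))) = Y.adjugate * (g.adjugate * ((cm B[T;T⁻¹] (ζ⁻¹).1 *
          cm B[T;T⁻¹] ζ.1) * (g * Y.map (rot m B)))) := by simp only [Matrix.mul_assoc]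
      _ = Y.adjugate * (g.adjugate * g * Y.map (rot m B)) := by
          rw [hζ, Matrix.one_mul, Matrix.mul_assoc]
      _ = _ := by rw [hgg', Matrix.one_mul]
  have hXr : MGE 0 (X.map (rot m B)) := fun i j => rot_GE (hX i j)
  have hYr : MLE 0 (Y.map (rot m B)) := fun i j => rot_LE (hY i j)
  have hWG : MGE 0 W := mge3 hX.adjugate (cm_MGE _) hXr
  have hWL : MLE 0 W := by
    rw [hW']
    have := hY.adjugate.mul hYr
    rwa [add_zero] at this
  have hX0' : cf 0 X.adjugate = 1 := by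
    have h1 := MGE.cf_mul hX.adjugate hX
    rw [hXa, add_zero, cf_one, hX0, Matrix.mul_one] at h1
    exact h1.symm
  have hW0 : cf 0 W = cm B (ζ⁻¹).1 := by
    rw [hW, cf3 hX.adjugate (cm_MGE _) hXr, hX0', cf_rot, hX0, Matrix.mul_one, Matrix.one_mul,
      cm_cf0]
  have hWc : W = cm B[T;T⁻¹] (ζ⁻¹).1 := by
    ext1 a b
    rw [eq_C_of_LE_GE (hWL a b) (hWG a b)]
    have h1 : (W a b).coeff 0 = cf 0 W a b := rfl
    rw [h1, hW0]
    rfl
  have hYrot : Y.map (rot m B) = Y * cm B[T;T⁻¹] (ζ⁻¹).1 := by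
    rw [← hWc, hW', ← Matrix.mul_assoc, hYa', Matrix.one_mul]
  have hYc : cf 0 Y = cf 0 Y * cm B (ζ⁻¹).1 := by
    have h1 := congrArg (cf 0) hYrot
    have h2 := MLE.cf_mul hY (cm_MLE (B := B) (ζ⁻¹).1)
    rw [add_zero] at h2
    rw [cf_rot, h2, cm_cf0] at h1
    exact h1
  have hYc1 : cf 0 Y.adjugate * cf 0 Y = 1 := by
    have h1 := MLE.cf_mul hY.adjugate hY
    rw [hYa, add_zero, cf_one] at h1
    exact h1.symm
  have hz : cm B (ζ⁻¹).1 = 1 := by
    calc cm B (ζ⁻¹).1 = cf 0 Y.adjugate * (cf 0 Y * cm B (ζ⁻¹).1) := by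
          rw [← Matrix.mul_assoc, hYc1, Matrix.one_mul]
      _ = 1 := by rw [← hYc, hYc1]
  have hz2 : cm B[T;T⁻¹] (ζ⁻¹).1 = 1 := by
    have h1 : cm B[T;T⁻¹] (ζ⁻¹).1 = (cm B (ζ⁻¹).1).map (cA B) := (cm_map (cA B) _).symm
    rw [h1, hz]
    exact Matrix.map_one _ (map_zero _) (map_one _)
  rw [hz2, Matrix.mul_one] at hYrot
  rw [hz2, Matrix.one_mul] at hζ
  exact ⟨by rw [hX', hYrot, hζ, Matrix.one_mul, hXY], hYrot⟩

/-- **Bundles with trivial adjoint bundle are trivial**, canonically so. -/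
theorem hFact (hK : KilDet Γ) (hZ : Cen Γ Z) (hd : AdDet Γ) : HFact Γ Z m := by
  intro B _ _ g hg hu
  obtain ⟨c, c', hcL, hc, hc', h⟩ := exists_pot hK hZ hd hg hu
  have hgd : (mx g).det = 1 := (isPt g).det
  obtain ⟨X, Y, hXY, hX, hX0, hY, hX1, hY1, hXc⟩ := exists_XY hgd hc hc' h
  have hXp : IsPt Γ X := isPt_of_conn hX hX0 hc hcL hXc
  have hYp : IsPt Γ Y := by
    have h1 : Y = (mx g).adjugate * X := by
      rw [hXY, ← Matrix.mul_assoc, adjugate_mul_self hgd, Matrix.one_mul]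
    rw [h1]
    exact (isPt g).adjugate.mul hXp
  obtain ⟨ζ, hζ, htw⟩ := hg
  rw [isTw_iff] at htw
  obtain ⟨hXr, hYr⟩ := rot_fixed hgd htw hXY hX hX0 hY hX1 hY1
  have hXe : (X.map (ct m)).map (ex m B) = X := by
    ext1 i j
    exact ex_ct (congrFun (congrFun hXr i) j)
  have hYe : (Y.map (ct m)).map (ex m B) = Y := by
    ext1 i j
    exact ex_ct (congrFun (congrFun hYr i) j)
  have hm0 : 0 < (m : ℤ) := by exact_mod_cast Nat.pos_of_neZero m
  have hXG : MGE 0 (X.map (ct m)) := by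
    intro i j k hk
    rw [Matrix.map_apply, ct_coeff]
    exact hX i j _ (by nlinarith)
  have hYL : MLE 0 (Y.map (ct m)) := by
    intro i j k hk
    rw [Matrix.map_apply, ct_coeff]
    exact hY i j _ (by nlinarith)
  obtain ⟨x, hx⟩ := exists_poly hXG
  obtain ⟨y, hy⟩ := exists_polyn hYL
  have hxp : IsPt Γ x := by
    apply IsPt.of_injective ((ex m B).comp (evP B 1))
      (ex_injective.comp evP_one_injective)
    have : x.map ((ex m B).comp (evP B 1)) = X := by
      rw [← hXe, ← hx]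
      rfl
    rw [this]
    exact hXp
  have hyp : IsPt Γ y := by
    apply IsPt.of_injective ((ex m B).comp (evP B (-1)))
      (ex_injective.comp evP_neg_one_injective)
    have : y.map ((ex m B).comp (evP B (-1))) = Y := by
      rw [← hYe, ← hy]
      rfl
    rw [this]
    exact hYp
  have hpos : mx (pos m Γ B (Gr.mk' x hxp)) = X := by
    rw [← hXe, ← hx]
    ext1 i j
    exact evP_eq_ex m _
  have hneg : mx (neg m Γ B (Gr.mk' y hyp)) = Y := by
    rw [← hYe, ← hy]
    ext1 i j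
    exact evP_neg_eq_ex m _
  refine ⟨Gr.mk' x hxp, (Gr.mk' y hyp)⁻¹, ?_, ?_⟩
  · rw [map_inv, eq_mul_inv_iff_mul_eq]
    apply Gr.ext'
    rw [mx_mul, hpos, hneg, hXY]
  · apply Gr.ext'
    ext i j
    change Polynomial.constantCoeff (x i j) = _
    have h1 := congrFun (congrFun hX0 i) j
    rw [mx_one, ← h1, cf_apply]
    have h2 : (X i j).coeff 0 = ((x.map (evP B 1)) i j).coeff 0 := by
      rw [hx, Matrix.map_apply, ct_coeff, mul_zero]
    rw [h2, Matrix.map_apply, evP_one, LaurentPolynomial.coeff_toLaurent]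
    exact (Finsupp.mapDomain_apply Nat.cast_injective _ 0).symm

end Tw

end

end Vale.Agent.P286.Gen
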