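import Vale.Agent.P286.Gen.Toep

/-!
# Toeplitz operators of loops
-/

namespace Vale.Agent.P286.Gen

open Matrix LaurentPolynomial CategoryTheory

noncomputable section

set_option linter.unusedSectionVars false

variable {N : ℕ} {A B D : Type} [CommRing A] [Algebra ℂ A] [CommRing B] [Algebra ℂ B]
  [CommRing D] [Algebra ℂ D] {Γ Z : Gps N}

theorem evP_eq_ex (m : ℕ) (p : Polynomial A) : evP A m p = ex m A (evP A 1 p) := by
  have := AlgHom.congr_fun (ex_evP (A := A) m 1) p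
  rw [mul_one] at this
  exact this.symm

theorem evP_neg_eq_ex (m : ℕ) (p : Polynomial A) :
    evP A (-(m : ℤ)) p = ex m A (evP A (-1) p) := by
  have := AlgHom.congr_fun (ex_evP (A := A) m (-1)) p
  rw [mul_neg, mul_one] at this
  exact this.symm

theorem Adm_pos (m : ℕ) (a : Gr Γ (Polynomial A)) :
    Adm Γ (mx (pos m Γ A a)) = (Adm Γ (mx (pos 1 Γ A a))).map (ex m A) := by
  rw [← Adm_map]
  congr 1
  ext1 i j
  exact evP_eq_ex m _

theorem Adm_neg (m : ℕ) (a : Gr Γ (Polynomial A)) :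
    Adm Γ (mx (neg m Γ A a)) = (Adm Γ (mx (neg 1 Γ A a))).map (ex m A) := by
  rw [← Adm_map]
  congr 1
  ext1 i j
  exact evP_neg_eq_ex m _

theorem evP_GE (p : Polynomial A) : GE 0 (evP A 1 p) := by
  intro m hm
  rw [evP_one, LaurentPolynomial.coeff_toLaurent]
  apply Finsupp.mapDomain_of_notMem_range
  rintro ⟨l, hl⟩
  have hl' : (l : ℤ) = _ := hl
  omega

theorem evP_LE (p : Polynomial A) : LE 0 (evP A (-1) p) := by
  intro m hm
  rw [evP_neg_one, invert_apply, LaurentPolynomial.coeff_toLaurent]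
  apply Finsupp.mapDomain_of_notMem_range
  rintro ⟨l, hl⟩
  have hl' : (l : ℤ) = _ := hl
  omega

/-- The matrix of `Ad a`, for `a ∈ G(A[z])`. -/
def Adp (Γ : Gps N) (A : Type) [CommRing A] [Algebra ℂ A] (a : Gr Γ (Polynomial A)) :
    Matrix (Fin (dm Γ)) (Fin (dm Γ)) A[T;T⁻¹] := Adm Γ (mx (pos 1 Γ A a))

/-- The matrix of `Ad b`, for `b ∈ G(A[z⁻¹])`. -/
def Adn (Γ : Gps N) (A : Type) [CommRing A] [Algebra ℂ A] (b : Gr Γ (Polynomial A)) :
    Matrix (Fin (dm Γ)) (Fin (dm Γ)) A[T;T⁻¹] := Adm Γ (mx (neg 1 Γ A b))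

theorem Adp_eq (a : Gr Γ (Polynomial A)) : Adp Γ A a = (Adm Γ (mx a)).map (evP A 1) := by
  rw [← Adm_map]
  rfl

theorem Adn_eq (a : Gr Γ (Polynomial A)) : Adn Γ A a = (Adm Γ (mx a)).map (evP A (-1)) := by
  rw [← Adm_map]
  rfl

theorem Adp_MGE (a : Gr Γ (Polynomial A)) : MGE 0 (Adp Γ A a) := by
  rw [Adp_eq]
  intro i j
  exact evP_GE _

theorem Adn_MLE (a : Gr Γ (Polynomial A)) : MLE 0 (Adn Γ A a) := by
  rw [Adn_eq]
  intro i j
  exact evP_LE _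

theorem Adm_mul' (x y : Gr Γ A) : Adm Γ (mx (x * y)) = Adm Γ (mx x) * Adm Γ (mx y) :=
  Adm_mul (isPt x) (isPt y)

theorem Adm_gm (f : A →ₐ[ℂ] B) (x : Gr Γ A) : Adm Γ (mx (gm f x)) = (Adm Γ (mx x)).map f :=
  Adm_map f _

theorem Adp_mul (a b : Gr Γ (Polynomial A)) : Adp Γ A (a * b) = Adp Γ A a * Adp Γ A b := by
  rw [Adp, map_mul, Adm_mul']
  rfl

theorem Adn_mul (a b : Gr Γ (Polynomial A)) : Adn Γ A (a * b) = Adn Γ A a * Adn Γ A b := by
  rw [Adn, map_mul, Adm_mul']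
  rfl

theorem Adp_one : Adp Γ A 1 = 1 := by
  rw [Adp, map_one]
  exact Adm_one

theorem Adn_one : Adn Γ A 1 = 1 := by
  rw [Adn, map_one]
  exact Adm_one

variable {m : ℕ} [NeZero m]

theorem toep_def (g : Gr Γ A[T;T⁻¹]) : toep m g = vtoep ((Adm Γ (mx g)).map (ct m)) :=
  toepM_eq _

theorem ct_Adm_pos_mul (a : Gr Γ (Polynomial A)) (g : Gr Γ A[T;T⁻¹]) :
    (Adm Γ (mx (pos m Γ A a * g))).map (ct m) = Adp Γ A a * (Adm Γ (mx g)).map (ct m) := by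
  rw [Adm_mul', Adm_pos, map_ct_mul]
  rfl

theorem ct_Adm_mul_neg (g : Gr Γ A[T;T⁻¹]) (b : Gr Γ (Polynomial A)) :
    (Adm Γ (mx (g * neg m Γ A b))).map (ct m) = (Adm Γ (mx g)).map (ct m) * Adn Γ A b := by
  rw [Adm_mul', Adm_neg, map_mul_ct]
  rfl

theorem map_ct_one {d : ℕ} : (1 : Matrix (Fin d) (Fin d) A[T;T⁻¹]).map (ct m) = 1 := by
  ext1 i j
  rw [Matrix.map_apply, Matrix.one_apply]
  split_ifs
  · exact ct_one
  · exact ct_zero

theorem ct_Adm_one : (Adm Γ (mx (1 : Gr Γ A[T;T⁻¹]))).map (ct m) = 1 := by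
  rw [mx_one, Adm_one, map_ct_one]

theorem ct_Adm_pos (a : Gr Γ (Polynomial A)) :
    (Adm Γ (mx (pos m Γ A a))).map (ct m) = Adp Γ A a := by
  have := ct_Adm_pos_mul (m := m) a 1
  rwa [mul_one, ct_Adm_one, Matrix.mul_one] at this

theorem ct_Adm_neg (a : Gr Γ (Polynomial A)) :
    (Adm Γ (mx (neg m Γ A a))).map (ct m) = Adn Γ A a := by
  have := ct_Adm_mul_neg (m := m) 1 a
  rwa [one_mul, ct_Adm_one, Matrix.one_mul] at this

theorem toep_pos (a : Gr Γ (Polynomial A)) : toep m (pos m Γ A a) = vtoep (Adp Γ A a) := by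
  rw [toep_def, ct_Adm_pos]

theorem toep_neg (a : Gr Γ (Polynomial A)) : toep m (neg m Γ A a) = vtoep (Adn Γ A a) := by
  rw [toep_def, ct_Adm_neg]

theorem toep_one : toep m (1 : Gr Γ A[T;T⁻¹]) = 1 := by
  rw [toep_def, ct_Adm_one, vtoep_one]

theorem toep_pos_mul (a : Gr Γ (Polynomial A)) (g : Gr Γ A[T;T⁻¹]) :
    toep m (pos m Γ A a * g) = toep m (pos m Γ A a) * toep m g := by
  rw [toep_pos, toep_def, ct_Adm_pos_mul, toep_def, vtoep_pos_mul (Adp_MGE a)]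

theorem toep_mul_neg (g : Gr Γ A[T;T⁻¹]) (b : Gr Γ (Polynomial A)) :
    toep m (g * neg m Γ A b) = toep m g * toep m (neg m Γ A b) := by
  rw [toep_neg, toep_def, ct_Adm_mul_neg, toep_def, vtoep_mul_neg _ (Adn_MLE b)]

theorem lmA_apply (f : A →ₐ[ℂ] B) (u : A[T;T⁻¹]) : lmA f u = lmap (f : A →+* B) u := rfl

theorem ct_Adm_gm (f : A →ₐ[ℂ] B) (g : Gr Γ A[T;T⁻¹]) :
    (Adm Γ (mx (gm (lmA f) g))).map (ct m) = mp (f : A →+* B) ((Adm Γ (mx g)).map (ct m)) := by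
  rw [Adm_gm]
  ext1 i j
  exact ct_lmA f _

theorem bc_toep (f : A →ₐ[ℂ] B) (g : Gr Γ A[T;T⁻¹]) :
    bc (f : A →+* B) (toep m g) = toep m (gm (lmA f) g) := by
  rw [toep_def, toep_def, bc_vtoep, ct_Adm_gm]

omit [NeZero m] in
theorem map_pos (f : A →ₐ[ℂ] B) (a : Gr Γ (Polynomial A)) :
    gm (lmA f) (pos m Γ A a) = pos m Γ B (gm (pmA f) a) := by
  change gm (lmA f) (gm (evP A m) a) = gm (evP B m) (gm (pmA f) a)
  rw [gm_gm, gm_gm, lmA_evP]

omit [NeZero m] in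
theorem map_neg (f : A →ₐ[ℂ] B) (a : Gr Γ (Polynomial A)) :
    gm (lmA f) (neg m Γ A a) = neg m Γ B (gm (pmA f) a) := by
  change gm (lmA f) (gm (evP A _) a) = gm (evP B _) (gm (pmA f) a)
  rw [gm_gm, gm_gm, lmA_evP]

end

end Vale.Agent.P286.Gen
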