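import Mathlib

/-!
# The functor of points of a linear algebraic group and its Lie algebra

`Γ` is a subgroup of `SL_N(ℂ)` and `G` its Zariski closure, a linear algebraic group:
`G(A) = {x ∈ SL_N(A) : P(x) = 0 for all polynomials P in the entries which vanish on Γ}`.
-/

namespace Vale.Agent.P286.Gen

open Matrix

noncomputable section

attribute [local instance 100] LieRing.ofAssociativeRing LieAlgebra.ofAssociativeAlgebra

/-- A group of complex matrices. -/
abbrev Gps (N : ℕ) : Type := Subgroup (SpecialLinearGroup (Fin N) ℂ)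

/-- Polynomials in the entries of an `N × N` matrix. -/
abbrev Pl (N : ℕ) : Type := MvPolynomial (Fin N × Fin N) ℂ

/-- Matrices. -/
abbrev Mt (N : ℕ) (A : Type) : Type := Matrix (Fin N) (Fin N) A

variable {N : ℕ} {A : Type} [CommRing A] [Algebra ℂ A]

/-- The value of a polynomial at a matrix. -/
def ev (x : Mt N A) : Pl N →ₐ[ℂ] A := MvPolynomial.aeval fun p => x p.1 p.2

/-- The polynomials which vanish on `Γ`. -/
def van (Γ : Gps N) : Set (Pl N) := {P | ∀ γ ∈ Γ, ev γ.1 P = 0}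

/-- The matrix `x` satisfies the equations of `G`. -/
def IsPt (Γ : Gps N) (x : Mt N A) : Prop := ∀ P ∈ van Γ, ev x P = 0

/-- The points of `G` over `A` form a subgroup of `SL_N(A)`; see `mem_GrS`. -/
def GrS (Γ : Gps N) (A : Type) [CommRing A] [Algebra ℂ A] : Subgroup (SpecialLinearGroup (Fin N) A) :=
  Subgroup.closure {x | IsPt Γ x.1}

/-- The group `G(A)`. -/
def Gr (Γ : Gps N) (A : Type) [CommRing A] [Algebra ℂ A] : Type := GrS Γ A

instance (Γ : Gps N) : Group (Gr Γ A) := Subgroup.toGroup (GrS Γ A)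

/-- The matrix `x + ε y`. -/
def du (x y : Mt N A) : Mt N (DualNumber A) :=
  Matrix.of fun i j => TrivSqZeroExt.inl (x i j) + TrivSqZeroExt.inr (y i j)

/-- The elements of `𝔤 ⊗ A`: the matrices `Y` with `1 + ε Y ∈ G(A[ε])`. -/
def IsLi (Γ : Gps N) (Y : Mt N A) : Prop := IsPt Γ (du 1 Y)

/-- The Lie algebra of `G`, the set of the matrices `Y` with `1 + ε Y ∈ G(ℂ[ε])`; see
`mem_lieAlg`. -/
def lieAlg (Γ : Gps N) : LieSubalgebra ℂ (Mt N ℂ) := LieSubalgebra.lieSpan ℂ _ {Y | IsLi Γ Y}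

/-- The dimension of `G`. -/
def dm (Γ : Gps N) : ℕ := Module.finrank ℂ (lieAlg Γ)

/-- The constant matrix `γ`. -/
def cm (A : Type) [CommRing A] [Algebra ℂ A] (γ : Mt N ℂ) : Mt N A := γ.map (algebraMap ℂ A)

/-- The matrices `b i` are a basis of the Lie algebra, and the `i`-th coordinate of `Y` is
`tr (c i * Y)`. -/
def IsBs (Γ : Gps N) (b c : Fin (dm Γ) → Mt N ℂ) : Prop :=
  ∀ i, IsLi Γ (b i) ∧ ∀ j, trace (c i * b j) = if i = j then 1 else 0

/-- A basis of the Lie algebra, with the coordinates. -/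
def bsc (Γ : Gps N) : (Fin (dm Γ) → Mt N ℂ) × (Fin (dm Γ) → Mt N ℂ) :=
  Classical.epsilon fun b => IsBs Γ b.1 b.2

/-- The matrix of the adjoint action of `x` on `𝔤 ⊗ A`. -/
def Adm (Γ : Gps N) (x : Mt N A) : Matrix (Fin (dm Γ)) (Fin (dm Γ)) A :=
  Matrix.of fun i j => trace (cm A ((bsc Γ).2 i) * (x * cm A ((bsc Γ).1 j) * x.adjugate))

end

end Vale.Agent.P286.Gen
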