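import Vale.Agent.P286.Gen.Conn

/-!
# The grading element of a nontrivial bundle
-/

namespace Vale.Agent.P286.Gen

open Matrix LaurentPolynomial

noncomputable section

set_option linter.unusedSectionVars false

variable {N : ℕ} {B : Type} [CommRing B] {Γ Z : Gps N} {d : ℕ}

/-- Polynomials in `z` of degree at most `n`. -/
def Fl (n : ℤ) (u : B[T;T⁻¹]) : Prop := GE 0 u ∧ LE n u

/-- The part of degree zero. -/
def rho (n : ℤ) (u : B[T;T⁻¹]) : B := if n = 0 then u.coeff 0 else 0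

theorem Fl.zero (n : ℤ) : Fl n (0 : B[T;T⁻¹]) := ⟨GE.zero 0, LE.zero n⟩

theorem Fl.add {n : ℤ} {u v : B[T;T⁻¹]} (hu : Fl n u) (hv : Fl n v) : Fl n (u + v) :=
  ⟨hu.1.add hv.1, hu.2.add hv.2⟩

theorem Fl.sum {ι : Type*} (s : Finset ι) {n : ℤ} {u : ι → B[T;T⁻¹]} (h : ∀ i ∈ s, Fl n (u i)) :
    Fl n (∑ i ∈ s, u i) :=
  ⟨GE.sum s fun i hi => (h i hi).1, LE.sum s fun i hi => (h i hi).2⟩

theorem Fl.mul {n k : ℤ} {u v : B[T;T⁻¹]} (hu : Fl n u) (hv : Fl k v) : Fl (n + k) (u * v) := by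
  refine ⟨?_, hu.2.mul hv.2⟩
  have := hu.1.mul hv.1
  rwa [add_zero] at this

theorem Fl.eq_zero {n : ℤ} {u : B[T;T⁻¹]} (hu : Fl n u) (hn : n < 0) : u = 0 :=
  eq_zero_of_LE_GE hu.2 hu.1 hn

theorem rho_add (n : ℤ) (u v : B[T;T⁻¹]) : rho n (u + v) = rho n u + rho n v := by
  unfold rho
  split_ifs
  · rw [AddMonoidAlgebra.coeff_add, Finsupp.add_apply]
  · rw [add_zero]

theorem rho_zero (n : ℤ) : rho n (0 : B[T;T⁻¹]) = 0 := by
  unfold rho
  split_ifs
  · rw [AddMonoidAlgebra.coeff_zero, Finsupp.zero_apply]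
  · rfl

theorem rho_sum {ι : Type*} (s : Finset ι) (n : ℤ) (u : ι → B[T;T⁻¹]) :
    rho n (∑ i ∈ s, u i) = ∑ i ∈ s, rho n (u i) := by
  classical
  induction s using Finset.induction_on with
  | empty => rw [Finset.sum_empty, Finset.sum_empty, rho_zero]
  | insert a s ha ih => rw [Finset.sum_insert ha, Finset.sum_insert ha, rho_add, ih]

theorem rho_mul {n k : ℤ} {u v : B[T;T⁻¹]} (hu : Fl n u) (hv : Fl k v) :
    rho (n + k) (u * v) = rho n u * rho k v := by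
  rcases lt_trichotomy n 0 with h | h | h
  · rw [hu.eq_zero h, zero_mul, rho_zero, rho_zero, zero_mul]
  · subst h
    rcases lt_trichotomy k 0 with h' | h' | h'
    · rw [hv.eq_zero h', mul_zero, rho_zero, rho_zero, mul_zero]
    · subst h'
      unfold rho
      rw [if_pos (by norm_num), if_pos rfl, if_pos rfl]
      have := GE.coeff_mul hu.1 hv.1
      rwa [add_zero] at this
    · unfold rho
      rw [if_neg (by omega), if_neg (show ¬ k = 0 by omega), mul_zero]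
  · rcases lt_or_ge k 0 with h' | h'
    · rw [hv.eq_zero h', mul_zero, rho_zero, rho_zero, mul_zero]
    · unfold rho
      rw [if_neg (by omega), if_neg (show ¬ n = 0 by omega), zero_mul]

theorem Fl.one : Fl 0 (1 : B[T;T⁻¹]) := ⟨GE.one, LE.one⟩

theorem rho_one : rho 0 (1 : B[T;T⁻¹]) = 1 := by
  unfold rho
  rw [if_pos rfl, ← T_zero, T_apply, if_pos rfl]

theorem Fl.C (b : B) : Fl 0 (LaurentPolynomial.C b) := ⟨GE.C b, LE.C b⟩

theorem rho_C (b : B) : rho 0 (LaurentPolynomial.C b) = b := by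
  unfold rho
  rw [if_pos rfl, ← mul_one (LaurentPolynomial.C b), ← T_zero, ← single_eq_C_mul_T,
    AddMonoidAlgebra.coeff_single, Finsupp.single_eq_same]

theorem Fl.prod {ι : Type*} (s : Finset ι) (n : ι → ℤ) {u : ι → B[T;T⁻¹]}
    (h : ∀ i ∈ s, Fl (n i) (u i)) :
    Fl (∑ i ∈ s, n i) (∏ i ∈ s, u i) ∧ rho (∑ i ∈ s, n i) (∏ i ∈ s, u i) =
      ∏ i ∈ s, rho (n i) (u i) := by
  classical
  induction s using Finset.induction_on with
  | empty =>
    rw [Finset.sum_empty, Finset.prod_empty, Finset.prod_empty]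
    exact ⟨Fl.one, rho_one⟩
  | insert a s ha ih =>
    have h1 := ih fun i hi => h i (Finset.mem_insert_of_mem hi)
    have h2 := h a (Finset.mem_insert_self a s)
    rw [Finset.sum_insert ha, Finset.prod_insert ha, Finset.prod_insert ha]
    exact ⟨h2.mul h1.1, by rw [rho_mul h2 h1.1, h1.2]⟩

/-- `M` is a filtered map. -/
def Wt (μ ν : Fin d → ℤ) (M : Matrix (Fin d) (Fin d) B[T;T⁻¹]) : Prop :=
  ∀ k j, Fl (μ k - ν j) (M k j)

/-- The associated graded map. -/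
def rm (μ ν : Fin d → ℤ) (M : Matrix (Fin d) (Fin d) B[T;T⁻¹]) : Matrix (Fin d) (Fin d) B :=
  Matrix.of fun k j => rho (μ k - ν j) (M k j)

theorem rm_apply (μ ν : Fin d → ℤ) (M : Matrix (Fin d) (Fin d) B[T;T⁻¹]) (k j : Fin d) :
    rm μ ν M k j = rho (μ k - ν j) (M k j) := rfl

theorem Wt.mul_term {μ ν π : Fin d → ℤ} {M M' : Matrix (Fin d) (Fin d) B[T;T⁻¹]}
    (h : Wt μ ν M) (h' : Wt ν π M') (k i j : Fin d) : Fl (μ k - π j) (M k i * M' i j) := by
  have := (h k i).mul (h' i j)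
  rwa [sub_add_sub_cancel] at this

theorem Wt.mul {μ ν π : Fin d → ℤ} {M M' : Matrix (Fin d) (Fin d) B[T;T⁻¹]}
    (h : Wt μ ν M) (h' : Wt ν π M') : Wt μ π (M * M') := fun k j => by
  rw [Matrix.mul_apply]
  exact Fl.sum _ fun i _ => h.mul_term h' k i j

theorem rm_mul {μ ν π : Fin d → ℤ} {M M' : Matrix (Fin d) (Fin d) B[T;T⁻¹]}
    (h : Wt μ ν M) (h' : Wt ν π M') : rm μ π (M * M') = rm μ ν M * rm ν π M' := by
  ext k j
  rw [rm_apply, Matrix.mul_apply, Matrix.mul_apply, rho_sum]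
  refine Finset.sum_congr rfl fun i _ => ?_
  have := rho_mul (h k i) (h' i j)
  rw [sub_add_sub_cancel] at this
  exact this

theorem Wt.shift {μ ν : Fin d → ℤ} {M : Matrix (Fin d) (Fin d) B[T;T⁻¹]} (h : Wt μ ν M) (c : ℤ) :
    Wt (fun k => μ k - c) (fun k => ν k - c) M := fun k j => by
  rw [sub_sub_sub_cancel_right]
  exact h k j

theorem rm_shift (μ ν : Fin d → ℤ) (M : Matrix (Fin d) (Fin d) B[T;T⁻¹]) (c : ℤ) :
    rm (fun k => μ k - c) (fun k => ν k - c) M = rm μ ν M := by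
  ext k j
  rw [rm_apply, rm_apply, sub_sub_sub_cancel_right]

theorem Wt.sub {μ ν : Fin d → ℤ} {M M' : Matrix (Fin d) (Fin d) B[T;T⁻¹]}
    (h : Wt μ ν M) (h' : Wt μ ν M') : Wt μ ν (M - M') := fun k j =>
  ⟨(h k j).1.sub (h' k j).1, (h k j).2.sub (h' k j).2⟩

theorem rm_sub (μ ν : Fin d → ℤ) (M M' : Matrix (Fin d) (Fin d) B[T;T⁻¹]) :
    rm μ ν (M - M') = rm μ ν M - rm μ ν M' := by
  ext k j
  rw [Matrix.sub_apply, rm_apply, rm_apply, rm_apply, eq_sub_iff_add_eq, ← rho_add,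
    Matrix.sub_apply, sub_add_cancel]

theorem rm_det {μ ν : Fin d → ℤ} {M : Matrix (Fin d) (Fin d) B[T;T⁻¹]} (h : Wt μ ν M) :
    (rm μ ν M).det = rho (∑ i, μ i - ∑ i, ν i) M.det := by
  rw [Matrix.det_apply, Matrix.det_apply, rho_sum]
  refine Finset.sum_congr rfl fun σ _ => ?_
  have h1 : ∑ i, μ i - ∑ i, ν i = ∑ i, (μ (σ i) - ν i) := by
    rw [Finset.sum_sub_distrib, Equiv.sum_comp σ μ]
  have h2 := (Fl.prod Finset.univ (fun i => μ (σ i) - ν i) fun i _ => h (σ i) i).2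
  have h3 : ∀ (c : ℤˣ) (n : ℤ) (u : B[T;T⁻¹]), rho n (c • u) = c • rho n u := by
    intro c n u
    rcases Int.units_eq_one_or c with rfl | rfl
    · rw [one_smul, one_smul]
    · rw [Units.neg_smul, one_smul, Units.neg_smul, one_smul, eq_neg_iff_add_eq_zero, ← rho_add,
        neg_add_cancel, rho_zero]
  rw [h3, h1, h2]
  rfl

theorem rho_trace {μ : Fin d → ℤ} {c : ℤ} (M : Matrix (Fin d) (Fin d) B[T;T⁻¹]) :
    rho (-c) (Matrix.trace M) = Matrix.trace (rm (fun k => μ k - c) μ M) := by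
  rw [Matrix.trace, Matrix.trace, rho_sum]
  refine Finset.sum_congr rfl fun k _ => ?_
  rw [Matrix.diag_apply, Matrix.diag_apply, rm_apply]
  congr 1
  ring

theorem Wt_of {l : Fin d → ℤ} {M : Matrix (Fin d) (Fin d) B[T;T⁻¹]} {c : ℤ} (h1 : MGE 0 M)
    (h2 : MLE (-c) (mono (-l) * M * mono l)) : Wt (fun k => l k - c) l M := by
  intro k j
  refine ⟨h1 k j, ?_⟩
  have h3 := h2 k j
  rw [mono, mono, Matrix.mul_diagonal, Matrix.diagonal_mul] at h3
  have h4 := (h3.mul (LE.T (R := B) (l k - l j)))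
  have h5 : T ((-l) k) * M k j * T (l j) * T (l k - l j) = M k j := by
    have h6 : (T ((-l) k) : B[T;T⁻¹]) * T (l j) * T (l k - l j) = 1 := by
      rw [← T_add, ← T_add, Pi.neg_apply]
      have : -l k + l j + (l k - l j) = 0 := by ring
      rw [this, T_zero]
    linear_combination M k j * h6
  rw [h5] at h4
  have h6 : -c + (l k - l j) = l k - c - l j := by ring
  rwa [h6] at h4

end

end Vale.Agent.P286.Gen
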