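import Vale.Agent.P286.Gen.Grad

/-!
# The grading element of a nontrivial bundle, II
-/

namespace Vale.Agent.P286.Gen

open Matrix LaurentPolynomial

noncomputable section

set_option linter.unusedSectionVars false

variable {N : ℕ} {Γ Z : Gps N}

section Frame

variable {A : Type} [CommRing A] [Algebra ℂ A] {X : Matrix (Fin (dm Γ)) (Fin (dm Γ)) A}

/-- The matrix of `ad v` in the frame `X`. -/
def fr (X : Matrix (Fin (dm Γ)) (Fin (dm Γ)) A) (v : Fin (dm Γ) → A) :
    Matrix (Fin (dm Γ)) (Fin (dm Γ)) A := X.adjugate * (adG Γ v * X)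

/-- The structure constants in the frame `X`. -/
def gam (X : Matrix (Fin (dm Γ)) (Fin (dm Γ)) A) (i : Fin (dm Γ)) :
    Matrix (Fin (dm Γ)) (Fin (dm Γ)) A := fr X (X *ᵥ Pi.single i 1)

theorem mul_fr (hX : X.det = 1) (v : Fin (dm Γ) → A) : X * fr X v = adG Γ v * X := by
  rw [fr, ← Matrix.mul_assoc, self_mul_adjugate hX, Matrix.one_mul]

theorem fr_mul_fr (hX : X.det = 1) (u v : Fin (dm Γ) → A) :
    fr X u * fr X v = X.adjugate * (adG Γ u * adG Γ v * X) := by
  rw [fr, Matrix.mul_assoc, Matrix.mul_assoc, mul_fr hX, ← Matrix.mul_assoc (adG Γ u)]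

theorem trace_fr_mul_fr (hX : X.det = 1) (u v : Fin (dm Γ) → A) :
    Matrix.trace (fr X u * fr X v) = kil Γ u v := by
  rw [fr_mul_fr hX, Matrix.trace_mul_comm, Matrix.mul_assoc, self_mul_adjugate hX, Matrix.mul_one]
  rfl

theorem fr_add (u v : Fin (dm Γ) → A) : fr X (u + v) = fr X u + fr X v := by
  rw [fr, adG_add, Matrix.add_mul, Matrix.mul_add]
  rfl

theorem fr_smul (a : A) (v : Fin (dm Γ) → A) : fr X (a • v) = a • fr X v := by
  rw [fr, adG_smul, Matrix.smul_mul, Matrix.mul_smul]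
  rfl

theorem fr_sum {ι : Type*} (s : Finset ι) (v : ι → Fin (dm Γ) → A) :
    fr X (∑ i ∈ s, v i) = ∑ i ∈ s, fr X (v i) := by
  rw [fr, adG_sum, Finset.sum_mul, Finset.mul_sum]
  rfl

theorem fr_mulVec (u : Fin (dm Γ) → A) : fr X (X *ᵥ u) = ∑ p, u p • gam X p := by
  conv_lhs => rw [pi_eq_sum u]
  rw [Matrix.mulVec_sum, fr_sum]
  refine Finset.sum_congr rfl fun p _ => ?_
  rw [Matrix.mulVec_smul, fr_smul]
  rfl

theorem fr_lie (hX : X.det = 1) (u v : Fin (dm Γ) → A) :
    fr X (adG Γ u *ᵥ v) = fr X u * fr X v - fr X v * fr X u := by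
  rw [fr_mul_fr hX, fr_mul_fr hX, ← Matrix.mul_sub, ← Matrix.sub_mul, ← adG_lie]
  rfl

/-- The derivation property of `ad w` in the frame `X`. -/
theorem fr_gam (hX : X.det = 1) (w : Fin (dm Γ) → A) (i : Fin (dm Γ)) :
    ∑ p, fr X w p i • gam X p = fr X w * gam X i - gam X i * fr X w := by
  rw [gam, ← fr_lie hX, Matrix.mulVec_mulVec, ← mul_fr hX, ← Matrix.mulVec_mulVec, fr_mulVec]
  refine Finset.sum_congr rfl fun p _ => ?_
  rw [Matrix.mulVec_single_one]
  rfl

theorem frame_conj {H X Y D Di : Matrix (Fin (dm Γ)) (Fin (dm Γ)) A} (hX : X.det = 1)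
    (hY : Y.det = 1) (hD' : Di * D = 1) (hHY : H * Y = X * D)
    {a a' : Matrix (Fin (dm Γ)) (Fin (dm Γ)) A} (h : a * H = H * a') :
    Di * (X.adjugate * (a * X)) * D = Y.adjugate * (a' * Y) := by
  have h1 : X.adjugate * (a * X) * D = D * (Y.adjugate * (a' * Y)) := by
    have h2 : X * D * Y.adjugate = H := by
      rw [← hHY, Matrix.mul_assoc, self_mul_adjugate hY, Matrix.mul_one]
    calc X.adjugate * (a * X) * D = X.adjugate * (a * (X * D)) := by
          simp only [Matrix.mul_assoc]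
      _ = X.adjugate * (a * H * Y) := by rw [← hHY]; simp only [Matrix.mul_assoc]
      _ = X.adjugate * (X * D * Y.adjugate * a' * Y) := by rw [h, h2]
      _ = X.adjugate * X * (D * (Y.adjugate * (a' * Y))) := by simp only [Matrix.mul_assoc]
      _ = _ := by rw [adjugate_mul_self hX, Matrix.one_mul]
  rw [Matrix.mul_assoc, h1, ← Matrix.mul_assoc, hD', Matrix.one_mul]

end Frame

section Kill

variable {B : Type} [CommRing B] [Algebra ℂ B]

theorem GE_of_kil (hK : KilDet Γ) {w : Fin (dm Γ) → B[T;T⁻¹]} {n : ℤ}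
    (h : ∀ i, GE n (kil Γ w (Pi.single i 1))) : ∀ i, GE n (w i) := by
  have h1 : (fun i => kil Γ w (Pi.single i 1)) = w ᵥ* kmA Γ B[T;T⁻¹] := by
    ext1 i
    rw [kil_eq, Matrix.dotProduct_mulVec, dotProduct_single, mul_one]
  have h2 : w = (fun i => kil Γ w (Pi.single i 1)) ᵥ* (kmat Γ)⁻¹.map (algebraMap ℂ B[T;T⁻¹]) := by
    rw [h1, Matrix.vecMul_vecMul, ← Matrix.map_mul, Matrix.mul_nonsing_inv _
      (isUnit_iff_ne_zero.2 hK), Matrix.map_one _ (map_zero _) (map_one _), Matrix.vecMul_one]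
  intro i
  rw [h2, Matrix.vecMul, dotProduct]
  refine GE.sum _ fun j _ => ?_
  have := (h j).mul (GE.C (algebraMap ℂ B ((kmat Γ)⁻¹ j i)))
  rwa [add_zero] at this

theorem LE_of_kil (hK : KilDet Γ) {w : Fin (dm Γ) → B[T;T⁻¹]} {n : ℤ}
    (h : ∀ i, LE n (kil Γ w (Pi.single i 1))) : ∀ i, LE n (w i) := by
  have h1 : (fun i => kil Γ w (Pi.single i 1)) = w ᵥ* kmA Γ B[T;T⁻¹] := by
    ext1 i
    rw [kil_eq, Matrix.dotProduct_mulVec, dotProduct_single, mul_one]
  have h2 : w = (fun i => kil Γ w (Pi.single i 1)) ᵥ* (kmat Γ)⁻¹.map (algebraMap ℂ B[T;T⁻¹]) := by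
    rw [h1, Matrix.vecMul_vecMul, ← Matrix.map_mul, Matrix.mul_nonsing_inv _
      (isUnit_iff_ne_zero.2 hK), Matrix.map_one _ (map_zero _) (map_one _), Matrix.vecMul_one]
  intro i
  rw [h2, Matrix.vecMul, dotProduct]
  refine LE.sum _ fun j _ => ?_
  have := (h j).mul (LE.C (algebraMap ℂ B ((kmat Γ)⁻¹ j i)))
  rwa [add_zero] at this

theorem GE.trace {n : ℤ} {d : ℕ} {M : Matrix (Fin d) (Fin d) B[T;T⁻¹]} (h : MGE n M) :
    GE n (Matrix.trace M) := GE.sum _ fun i _ => h i i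

theorem LE.trace {n : ℤ} {d : ℕ} {M : Matrix (Fin d) (Fin d) B[T;T⁻¹]} (h : MLE n M) :
    LE n (Matrix.trace M) := LE.sum _ fun i _ => h i i

theorem single_GE {d : ℕ} (i k : Fin d) :
    GE 0 ((Pi.single i (1 : B[T;T⁻¹]) : Fin d → B[T;T⁻¹]) k) := by
  by_cases hk : k = i
  · subst hk; rw [Pi.single_eq_same]; exact GE.one
  · rw [Pi.single_eq_of_ne hk]; exact GE.zero _

theorem single_LE {d : ℕ} (i k : Fin d) :
    LE 0 ((Pi.single i (1 : B[T;T⁻¹]) : Fin d → B[T;T⁻¹]) k) := by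
  by_cases hk : k = i
  · subst hk; rw [Pi.single_eq_same]; exact LE.one
  · rw [Pi.single_eq_of_ne hk]; exact LE.zero _

/-- The diagonal matrix with integral entries `l`. -/
def dgl {d : ℕ} (A : Type) [CommRing A] (l : Fin d → ℤ) : Matrix (Fin d) (Fin d) A :=
  Matrix.diagonal fun i => (l i : A)

theorem int_GE (n : ℤ) : GE 0 (n : B[T;T⁻¹]) := by
  have := GE.C (n : B)
  rwa [map_intCast] at this

theorem int_LE (n : ℤ) : LE 0 (n : B[T;T⁻¹]) := by
  have := LE.C (n : B)
  rwa [map_intCast] at this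

theorem dgl_GE {d : ℕ} (l : Fin d → ℤ) : MGE 0 (dgl B[T;T⁻¹] l) := by
  intro i j
  rw [dgl, Matrix.diagonal_apply]
  split_ifs
  · exact int_GE _
  · exact GE.zero _

theorem dgl_LE {d : ℕ} (l : Fin d → ℤ) : MLE 0 (dgl B[T;T⁻¹] l) := by
  intro i j
  rw [dgl, Matrix.diagonal_apply]
  split_ifs
  · exact int_LE _
  · exact LE.zero _

theorem dgl_mono {d : ℕ} (l : Fin d → ℤ) :
    dgl B[T;T⁻¹] l * mono l = mono l * dgl B[T;T⁻¹] l := by
  rw [dgl, mono, Matrix.diagonal_mul_diagonal, Matrix.diagonal_mul_diagonal]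
  congr 1
  funext i
  ring

/-- The Killing form is invariant. -/
theorem kil_conj {H : Matrix (Fin (dm Γ)) (Fin (dm Γ)) B[T;T⁻¹]} (hH : H.det = 1)
    (hHa : ∀ v, adG Γ (H *ᵥ v) * H = H * adG Γ v) (v : Fin (dm Γ) → B[T;T⁻¹]) :
    adG Γ (H *ᵥ v) = H * adG Γ v * H.adjugate := by
  rw [← hHa, Matrix.mul_assoc, self_mul_adjugate hH, Matrix.mul_one]

end Kill

section Main

variable {B : Type} [CommRing B] [Algebra ℂ B]
  {H X Y : Matrix (Fin (dm Γ)) (Fin (dm Γ)) B[T;T⁻¹]} {l : Fin (dm Γ) → ℤ}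

/-- Existence of the section `H₊` dual to the trace against the grading. -/
theorem exists_dual_sec (hK : KilDet Γ) (hH : H.det = 1)
    (hHa : ∀ v, adG Γ (H *ᵥ v) * H = H * adG Γ v) (hX : MGE 0 X) (hX1 : X.det = 1)
    (hY : MLE 0 Y) (hY1 : Y.det = 1) (hHY : H * Y = X * mono l) :
    ∃ w w' : Fin (dm Γ) → B[T;T⁻¹], w = H *ᵥ w' ∧ (∀ i, GE 0 (w i)) ∧ (∀ i, LE 0 (w' i)) ∧
      ∀ u, kil Γ w u = Matrix.trace (dgl B[T;T⁻¹] l * fr X u) := by
  obtain ⟨w', hw'⟩ := hK.exists_dual (A := B[T;T⁻¹])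
    (fun i => Matrix.trace (dgl B[T;T⁻¹] l * fr Y (Pi.single i 1)))
  have hw'2 : ∀ u, kil Γ w' u = Matrix.trace (dgl B[T;T⁻¹] l * fr Y u) := by
    intro u
    rw [hw']
    conv_rhs => rw [pi_eq_sum u, fr_sum, Finset.mul_sum, Matrix.trace_sum]
    simp only [dotProduct]
    refine Finset.sum_congr rfl fun i _ => ?_
    rw [fr_smul, Matrix.mul_smul, Matrix.trace_smul, smul_eq_mul, mul_comm]
  have hHa1 := adjugate_mul_self hH
  have hHa2 := self_mul_adjugate hH
  have hw2 : ∀ u, kil Γ (H *ᵥ w') u = Matrix.trace (dgl B[T;T⁻¹] l * fr X u) := by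
    intro u
    have h1 : kil Γ (H *ᵥ w') u = kil Γ w' (H.adjugate *ᵥ u) := by
      have h2 : adG Γ u = H * adG Γ (H.adjugate *ᵥ u) * H.adjugate := by
        rw [← kil_conj hH hHa, Matrix.mulVec_mulVec, hHa2, Matrix.one_mulVec]
      rw [kil, kil, kil_conj hH hHa w', h2]
      have h3 : H * adG Γ w' * H.adjugate * (H * adG Γ (H.adjugate *ᵥ u) * H.adjugate) =
          H * (adG Γ w' * adG Γ (H.adjugate *ᵥ u) * H.adjugate) := by
        calc _ = H * adG Γ w' * (H.adjugate * H) * adG Γ (H.adjugate *ᵥ u) * H.adjugate := by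
              simp only [Matrix.mul_assoc]
          _ = _ := by rw [hHa1, Matrix.mul_one]; simp only [Matrix.mul_assoc]
      rw [h3, Matrix.trace_mul_comm, Matrix.mul_assoc, hHa1, Matrix.mul_one]
    rw [h1, hw'2]
    have h4 : adG Γ u * H = H * adG Γ (H.adjugate *ᵥ u) := by
      rw [← hHa, Matrix.mulVec_mulVec, hHa2, Matrix.one_mulVec]
    have h5 := frame_conj (Γ := Γ) hX1 hY1 (mono_neg_mul l) hHY h4
    change Matrix.trace (_ * (Y.adjugate * (adG Γ (H.adjugate *ᵥ u) * Y))) =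
      Matrix.trace (_ * (X.adjugate * (adG Γ u * X)))
    rw [← h5, ← Matrix.mul_assoc, Matrix.trace_mul_comm, ← Matrix.mul_assoc, ← Matrix.mul_assoc,
      ← dgl_mono, Matrix.mul_assoc (dgl _ l), mono_mul_neg, Matrix.mul_one]
  refine ⟨H *ᵥ w', w', rfl, GE_of_kil hK fun i => ?_, LE_of_kil hK fun i => ?_, hw2⟩
  · rw [hw2]
    have h6 : MGE 0 (fr X (Pi.single i 1)) := mge3 hX.adjugate (adG_GE (single_GE i)) hX
    have := (dgl_GE (B := B) l).mul h6
    rw [add_zero] at this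
    exact GE.trace this
  · rw [hw'2]
    have h6 : MLE 0 (fr Y (Pi.single i 1)) := mle3 hY.adjugate (adG_LE (single_LE i)) hY
    have := (dgl_LE (B := B) l).mul h6
    rw [add_zero] at this
    exact LE.trace this

theorem gam_Wt (hHa : ∀ v, adG Γ (H *ᵥ v) * H = H * adG Γ v) (hX : MGE 0 X) (hX1 : X.det = 1)
    (hY : MLE 0 Y) (hY1 : Y.det = 1) (hHY : H * Y = X * mono l) (i : Fin (dm Γ)) :
    Wt (fun k => l k - l i) l (gam X i) := by
  apply Wt_of
  · refine mge3 hX.adjugate (adG_GE fun k => ?_) hX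
    have := mulVec_GE hX (single_GE (B := B) i) k
    rwa [add_zero] at this
  · have h1 : X *ᵥ Pi.single i 1 =
        (T (-l i) : B[T;T⁻¹]) • (H *ᵥ (Y *ᵥ Pi.single i (1 : B[T;T⁻¹]))) := by
      rw [Matrix.mulVec_mulVec, hHY, ← Matrix.mulVec_mulVec]
      have h2 : (mono l : Matrix _ _ B[T;T⁻¹]) *ᵥ Pi.single i 1 =
          (T (l i) : B[T;T⁻¹]) • Pi.single i 1 := by
        ext1 k
        rw [mono, Matrix.mulVec_single_one, Pi.smul_apply, smul_eq_mul]
        change Matrix.diagonal (fun i => (T (l i) : B[T;T⁻¹])) k i = _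
        by_cases hk : k = i
        · subst hk; rw [Matrix.diagonal_apply_eq, Pi.single_eq_same, mul_one]
        · rw [Matrix.diagonal_apply_ne _ hk, Pi.single_eq_of_ne hk, mul_zero]
      rw [h2, Matrix.mulVec_smul, smul_smul, ← T_add, neg_add_cancel, T_zero, one_smul]
    have h3 : adG Γ (X *ᵥ Pi.single i (1 : B[T;T⁻¹])) * H =
        H * ((T (-l i) : B[T;T⁻¹]) • adG Γ (Y *ᵥ Pi.single i (1 : B[T;T⁻¹]))) := by
      rw [h1, adG_smul, Matrix.smul_mul, hHa, Matrix.mul_smul]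
    have h4 := frame_conj (Γ := Γ) hX1 hY1 (mono_neg_mul l) hHY h3
    have h5 : mono (-l) * gam X i * mono l = mono (-l) * (X.adjugate *
      (adG Γ (X *ᵥ Pi.single i (1 : B[T;T⁻¹])) * X)) * mono l := rfl
    rw [h5, h4, Matrix.smul_mul, Matrix.mul_smul]
    have h6 : MLE 0 (Y.adjugate * (adG Γ (Y *ᵥ Pi.single i (1 : B[T;T⁻¹])) * Y)) := by
      refine mle3 hY.adjugate (adG_LE fun k => ?_) hY
      have := mulVec_LE hY (single_LE (B := B) i) k
      rwa [add_zero] at this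
    intro a b
    rw [Matrix.smul_apply, smul_eq_mul]
    have := (LE.T (R := B) (-l i)).mul (h6 a b)
    rwa [add_zero] at this

theorem fr_Wt {w w' : Fin (dm Γ) → B[T;T⁻¹]} (hw : w = H *ᵥ w') (hwG : ∀ i, GE 0 (w i))
    (hwL : ∀ i, LE 0 (w' i)) (hHa : ∀ v, adG Γ (H *ᵥ v) * H = H * adG Γ v) (hX : MGE 0 X)
    (hX1 : X.det = 1) (hY : MLE 0 Y) (hY1 : Y.det = 1) (hHY : H * Y = X * mono l) :
    Wt l l (fr X w) := by
  have h0 : Wt (fun k => l k - 0) l (fr X w) := by
    apply Wt_of (mge3 hX.adjugate (adG_GE hwG) hX)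
    have h3 : adG Γ w * H = H * adG Γ w' := by rw [hw, hHa]
    have h4 := frame_conj (Γ := Γ) hX1 hY1 (mono_neg_mul l) hHY h3
    rw [h4, neg_zero]
    exact mle3 hY.adjugate (adG_LE hwL) hY
  have h1 : (fun k => l k - 0) = l := by
    funext k
    rw [sub_zero]
  rwa [h1] at h0

/-- **The grading element.** -/
theorem exists_grading (hK : KilDet Γ) (hH : H.det = 1)
    (hHa : ∀ v, adG Γ (H *ᵥ v) * H = H * adG Γ v) (hX : MGE 0 X) (hX1 : X.det = 1)
    (hY : MLE 0 Y) (hY1 : Y.det = 1) (hHY : H * Y = X * mono l) (hl : ∑ i, l i = 0) :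
    ∃ w w' : Fin (dm Γ) → B[T;T⁻¹], w = H *ᵥ w' ∧ (∀ i, GE 0 (w i)) ∧ (∀ i, LE 0 (w' i)) ∧
      Wt l l (fr X w) ∧ rm l l (fr X w) = dgl B l := by
  obtain ⟨w, w', hw, hwG, hwL, hwu⟩ := exists_dual_sec hK hH hHa hX hX1 hY hY1 hHY
  refine ⟨w, w', hw, hwG, hwL, fr_Wt hw hwG hwL hHa hX hX1 hY hY1 hHY, ?_⟩
  have hT := fr_Wt hw hwG hwL hHa hX hX1 hY hY1 hHY
  have hg := gam_Wt hHa hX hX1 hY hY1 hHY
  set T₀ := fr X w with hT₀
  have hD : Wt l l (dgl B[T;T⁻¹] l) := by
    intro k j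
    by_cases hkj : k = j
    · subst hkj
      rw [sub_self]
      exact ⟨dgl_GE l k k, dgl_LE l k k⟩
    · rw [dgl, Matrix.diagonal_apply_ne _ hkj]
      exact Fl.zero _
  have hDr : rm l l (dgl B[T;T⁻¹] l) = dgl B l := by
    ext k j
    rw [rm_apply]
    by_cases hkj : k = j
    · subst hkj
      rw [sub_self, dgl, dgl, Matrix.diagonal_apply_eq, Matrix.diagonal_apply_eq]
      have : ((l k : ℤ) : B[T;T⁻¹]) = LaurentPolynomial.C (l k : B) := by rw [map_intCast]
      rw [this, rho_C]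
    · rw [dgl, dgl, Matrix.diagonal_apply_ne _ hkj, Matrix.diagonal_apply_ne _ hkj, rho_zero]
  -- the graded structure constants
  let γ : Fin (dm Γ) → Matrix (Fin (dm Γ)) (Fin (dm Γ)) B := fun i =>
    rm (fun k => l k - l i) l (gam X i)
  let E := rm l l T₀ - dgl B l
  have hE : E = rm l l (T₀ - dgl B[T;T⁻¹] l) := by rw [rm_sub, hDr]
  -- products with filtered endomorphisms
  have hmulL : ∀ (M : Matrix (Fin (dm Γ)) (Fin (dm Γ)) B[T;T⁻¹]) (i : Fin (dm Γ)), Wt l l M →
      Wt (fun k => l k - l i) l (M * gam X i) ∧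
      rm (fun k => l k - l i) l (M * gam X i) = rm l l M * γ i := by
    intro M i hM
    have h1 := hM.shift (l i)
    refine ⟨h1.mul (hg i), ?_⟩
    rw [rm_mul h1 (hg i), rm_shift]
  have hmulR : ∀ (M : Matrix (Fin (dm Γ)) (Fin (dm Γ)) B[T;T⁻¹]) (i : Fin (dm Γ)), Wt l l M →
      rm (fun k => l k - l i) l (gam X i * M) = γ i * rm l l M := by
    intro M i hM
    rw [rm_mul (hg i) hM]
  have hsumM : ∀ (M : Matrix (Fin (dm Γ)) (Fin (dm Γ)) B[T;T⁻¹]) (i : Fin (dm Γ)), Wt l l M →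
      rm (fun k => l k - l i) l (∑ p, M p i • gam X p) = ∑ p, rm l l M p i • γ p := by
    intro M i hM
    ext k j
    rw [rm_apply, Matrix.sum_apply, Matrix.sum_apply, rho_sum]
    refine Finset.sum_congr rfl fun p _ => ?_
    rw [Matrix.smul_apply, Matrix.smul_apply, smul_eq_mul, smul_eq_mul]
    have h1 := rho_mul (hM p i) (hg p k j)
    have h2 : l p - l i + (l k - l p - l j) = l k - l i - l j := by ring
    rw [h2] at h1
    exact h1
  -- `E` is a derivation of the graded algebra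
  have hder1 : ∀ i, ∑ p, rm l l T₀ p i • γ p = rm l l T₀ * γ i - γ i * rm l l T₀ := by
    intro i
    rw [← hsumM _ i hT, fr_gam hX1 w i, rm_sub, (hmulL _ i hT).2, hmulR _ i hT]
  have hder2 : ∀ i, ∑ p, dgl B l p i • γ p = dgl B l * γ i - γ i * dgl B l := by
    intro i
    ext k j
    rw [Matrix.sum_apply, Finset.sum_eq_single i, Matrix.smul_apply, Matrix.sub_apply, dgl,
      Matrix.diagonal_mul, Matrix.mul_diagonal, Matrix.diagonal_apply_eq, smul_eq_mul]
    · change _ * rho (l k - l i - l j) (gam X i k j) = _ * rho (l k - l i - l j) (gam X i k j) -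
        rho (l k - l i - l j) (gam X i k j) * _
      by_cases h0 : l k - l i - l j = 0
      · have h1 : (l i : B) = (l k : B) - (l j : B) := by
          have : l i = l k - l j := by omega
          rw [this]; push_cast; ring
        rw [h1]; ring
      · have h1 : rho (l k - l i - l j) (gam X i k j) = 0 := by
          unfold rho
          rw [if_neg h0]
        rw [h1]; ring
    · intro p _ hp
      rw [Matrix.smul_apply, dgl, Matrix.diagonal_apply_ne _ hp, zero_smul]
    · intro h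
      exact absurd (Finset.mem_univ _) h
  have hder : ∀ i, ∑ p, E p i • γ p = E * γ i - γ i * E := by
    intro i
    have h1 : ∑ p, E p i • γ p = ∑ p, rm l l T₀ p i • γ p - ∑ p, dgl B l p i • γ p := by
      rw [← Finset.sum_sub_distrib]
      refine Finset.sum_congr rfl fun p _ => ?_
      rw [← sub_smul]
      rfl
    rw [h1, hder1, hder2, Matrix.sub_mul, Matrix.mul_sub]
    abel
  -- the traces
  have htr : ∀ i, Matrix.trace (E * γ i) = 0 := by
    intro i
    have h1 : Matrix.trace ((T₀ - dgl B[T;T⁻¹] l) * gam X i) = 0 := by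
      rw [Matrix.sub_mul, Matrix.trace_sub, gam, ← hwu, hT₀, trace_fr_mul_fr hX1, sub_self]
    rw [hE, ← (hmulL _ i (hT.sub hD)).2, ← rho_trace (μ := l), h1, rho_zero]
  -- the bracket
  have hbr : ∀ i j, ∑ p, γ i p j • γ p = γ i * γ j - γ j * γ i := by
    intro i j
    have h1 := fr_gam (Γ := Γ) hX1 (X *ᵥ Pi.single i 1) j
    have h2 : fr X (X *ᵥ Pi.single i 1) = gam X i := rfl
    rw [h2] at h1
    have h3 := congrArg (rm (fun k => l k - l i - l j) l) h1
    have h4 : ∀ a b : Fin (dm Γ), rm (fun k => l k - l a - l b) l (gam X a * gam X b) =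
        γ a * γ b := by
      intro a b
      have h5 := (hg a).shift (l b)
      rw [rm_mul h5 (hg b)]
      congr 1
      exact rm_shift (fun k => l k - l a) l (gam X a) (l b)
    have h5 : (fun k => l k - l i - l j) = fun k => l k - l j - l i := by
      funext k
      ring
    rw [rm_sub, h4] at h3
    conv_rhs at h3 => rw [h5]
    rw [h4] at h3
    rw [← h3]
    ext k q
    rw [rm_apply, Matrix.sum_apply, Matrix.sum_apply, rho_sum]
    refine Finset.sum_congr rfl fun p _ => ?_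
    rw [Matrix.smul_apply, Matrix.smul_apply, smul_eq_mul, smul_eq_mul]
    have h6 := rho_mul (hg i p j) (hg p k q)
    have h7 : l p - l i - l j + (l k - l p - l q) = l k - l i - l j - l q := by ring
    rw [h7] at h6
    exact h6.symm
  -- the Killing form
  let κ : Matrix (Fin (dm Γ)) (Fin (dm Γ)) B := Matrix.of fun i j => Matrix.trace (γ i * γ j)
  have hEκ : E.transpose * κ = 0 := by
    ext i j
    rw [Matrix.mul_apply]
    have h1 : ∑ p, E.transpose i p * κ p j = Matrix.trace ((∑ p, E p i • γ p) * γ j) := by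
      rw [Finset.sum_mul, Matrix.trace_sum]
      refine Finset.sum_congr rfl fun p _ => ?_
      rw [Matrix.smul_mul, Matrix.trace_smul, smul_eq_mul]
      rfl
    rw [h1, hder, Matrix.sub_mul, Matrix.trace_sub, Matrix.mul_assoc, Matrix.mul_assoc (γ i),
      Matrix.trace_mul_comm (γ i), Matrix.mul_assoc, ← Matrix.trace_sub, ← Matrix.mul_sub, ← hbr,
      Finset.mul_sum, Matrix.trace_sum]
    refine Finset.sum_eq_zero fun p _ => ?_
    rw [Matrix.mul_smul, Matrix.trace_smul, htr, smul_zero]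
  have hκ : IsUnit κ.det := by
    let K : Matrix (Fin (dm Γ)) (Fin (dm Γ)) B[T;T⁻¹] := X.transpose * kmA Γ B[T;T⁻¹] * X
    have hKt : ∀ i j, K i j = Matrix.trace (gam X i * gam X j) := by
      intro i j
      rw [gam, gam, trace_fr_mul_fr hX1, kil_eq, Matrix.mulVec_mulVec, Matrix.mulVec_single_one,
        Matrix.mulVec_single_one]
      change (X.transpose * kmA Γ B[T;T⁻¹] * X) i j = _
      rw [Matrix.mul_assoc, Matrix.mul_apply]
      rfl
    have hgg : ∀ i j, Wt (fun k => l k - l i - l j) l (gam X i * gam X j) := fun i j =>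
      ((hg i).shift (l j)).mul (hg j)
    have hKW : Wt (-l) l K := by
      intro i j
      rw [hKt, Pi.neg_apply]
      refine Fl.sum _ fun k _ => ?_
      have h1 := hgg i j k k
      have h2 : l k - l i - l j - l k = -l i - l j := by ring
      rwa [h2] at h1
    have hKκ : rm (-l) l K = κ := by
      ext i j
      rw [rm_apply, hKt, Pi.neg_apply]
      change rho (-l i - l j) (Matrix.trace (gam X i * gam X j)) = Matrix.trace (γ i * γ j)
      have h4 : rm (fun k => l k - (l i + l j)) l (gam X i * gam X j) = γ i * γ j := by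
        have h5 := (hg i).shift (l j)
        have h6 := rm_mul h5 (hg j)
        have h7 : (fun k => l k - (l i + l j)) = fun k => l k - l i - l j := by
          funext k
          ring
        rw [h7, h6]
        congr 1
        exact rm_shift (fun k => l k - l i) l (gam X i) (l j)
      rw [← h4, ← rho_trace]
      congr 1
      ring
    have hdet : K.det = LaurentPolynomial.C (algebraMap ℂ B (kmat Γ).det) := by
      rw [Matrix.det_mul, Matrix.det_mul, Matrix.det_transpose, hX1, one_mul, mul_one]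
      have h1 := (algebraMap ℂ B[T;T⁻¹]).map_det (kmat Γ)
      exact h1.symm
    have h1 := rm_det hKW
    have h2 : ∑ i, (-l) i - ∑ i, l i = 0 := by
      simp only [Pi.neg_apply, Finset.sum_neg_distrib, hl]
      norm_num
    rw [hKκ, h2, hdet, rho_C] at h1
    rw [h1]
    exact (isUnit_iff_ne_zero.2 hK).map _
  have hE0 : E = 0 := by
    have h1 : E.transpose = 0 := by
      calc E.transpose = E.transpose * (κ * κ⁻¹) := by
            rw [Matrix.mul_nonsing_inv _ hκ, Matrix.mul_one]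
        _ = 0 := by rw [← Matrix.mul_assoc, hEκ, Matrix.zero_mul]
    rw [← Matrix.transpose_transpose E, h1, Matrix.transpose_zero]
  exact sub_eq_zero.1 hE0

end Main

end

end Vale.Agent.P286.Gen
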