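import Vale.Agent.P286.Gen.GpD

/-!
# The functor of points of a linear algebraic group
-/

namespace Vale.Agent.P286.Gen

open Matrix

noncomputable section

variable {N : ℕ} {A B D : Type} [CommRing A] [Algebra ℂ A] [CommRing B] [Algebra ℂ B]
  [CommRing D] [Algebra ℂ D]

theorem map_ev (f : A →ₐ[ℂ] B) (x : Matrix (Fin N) (Fin N) A) (P : Pl N) :
    f (ev x P) = ev (x.map f) P := by
  have h : f.comp (ev x) = ev (x.map f) := by
    apply MvPolynomial.algHom_ext
    intro p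
    simp [ev]
  exact AlgHom.congr_fun h P

/-- The generic matrix. -/
def gen (N : ℕ) (A : Type) [CommRing A] :
    Matrix (Fin N) (Fin N) (MvPolynomial (Fin N × Fin N) A) :=
  Matrix.of fun i j => MvPolynomial.X (i, j)

/-- A constant matrix. -/
def cs (x : Matrix (Fin N) (Fin N) A) : Matrix (Fin N) (Fin N) (MvPolynomial (Fin N × Fin N) A) :=
  x.map MvPolynomial.C

/-- The value at a matrix of a polynomial with coefficients in `A`. -/
def evl (f : A →ₐ[ℂ] B) (x : Matrix (Fin N) (Fin N) B) :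
    MvPolynomial (Fin N × Fin N) A →ₐ[ℂ] B where
  toRingHom := MvPolynomial.eval₂Hom (f : A →+* B) fun p => x p.1 p.2
  commutes' c := by
    change MvPolynomial.eval₂ (f : A →+* B) _ (algebraMap ℂ (MvPolynomial (Fin N × Fin N) A) c) = _
    rw [IsScalarTower.algebraMap_apply ℂ A, MvPolynomial.algebraMap_eq, MvPolynomial.eval₂_C]
    exact f.commutes c

theorem evl_C (f : A →ₐ[ℂ] B) (x : Matrix (Fin N) (Fin N) B) (a : A) :
    evl f x (MvPolynomial.C a) = f a := by
  change MvPolynomial.eval₂ (f : A →+* B) _ (MvPolynomial.C a) = _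
  rw [MvPolynomial.eval₂_C]
  rfl

theorem evl_X (f : A →ₐ[ℂ] B) (x : Matrix (Fin N) (Fin N) B) (p : Fin N × Fin N) :
    evl f x (MvPolynomial.X p) = x p.1 p.2 := by
  change MvPolynomial.eval₂ (f : A →+* B) _ (MvPolynomial.X p) = _
  rw [MvPolynomial.eval₂_X]

theorem gen_map (f : A →ₐ[ℂ] B) (x : Matrix (Fin N) (Fin N) B) : (gen N A).map (evl f x) = x := by
  ext i j
  exact evl_X f x (i, j)

theorem cs_map (f : A →ₐ[ℂ] B) (x : Matrix (Fin N) (Fin N) B) (y : Matrix (Fin N) (Fin N) A) :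
    (cs y).map (evl f x) = y.map f := by
  ext i j
  exact evl_C f x (y i j)

theorem evl_ev (f : A →ₐ[ℂ] B) (x : Matrix (Fin N) (Fin N) B)
    (y : Matrix (Fin N) (Fin N) (MvPolynomial (Fin N × Fin N) A)) (P : Pl N) :
    evl f x (ev y P) = ev (y.map (evl f x)) P := map_ev _ _ _

/-- The base change of a polynomial. -/
def pmap (A : Type) [CommRing A] [Algebra ℂ A] : Pl N →ₐ[ℂ] MvPolynomial (Fin N × Fin N) A :=
  ev (gen N A)

theorem evl_pmap (f : A →ₐ[ℂ] B) (x : Matrix (Fin N) (Fin N) B) (P : Pl N) :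
    evl f x (pmap A P) = ev x P := by
  rw [pmap, evl_ev, gen_map]

/-- The ideal of the polynomials which vanish on `Γ`. -/
def vanI (Γ : Gps N) : Ideal (Pl N) where
  carrier := van Γ
  add_mem' {P Q} hP hQ γ hγ := by rw [map_add, hP γ hγ, hQ γ hγ, add_zero]
  zero_mem' γ _ := map_zero _
  smul_mem' P Q hQ γ hγ := by rw [smul_eq_mul, map_mul, hQ γ hγ, mul_zero]

theorem span_van (Γ : Gps N) : Ideal.span (van Γ) = vanI Γ := Ideal.span_eq (vanI Γ)

section Coeff

variable (Γ : Subgroup (SpecialLinearGroup (Fin N) ℂ))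

/-- The ideal generated by the equations of `G`, over `A`. -/
def vanA (A : Type) [CommRing A] [Algebra ℂ A] : Ideal (MvPolynomial (Fin N × Fin N) A) :=
  Ideal.map (pmap A : Pl N →ₐ[ℂ] _) (vanI Γ)

/-- Polynomials over `A` as linear combinations of polynomials over `ℂ`. -/
def comb (A : Type) [CommRing A] [Algebra ℂ A] (q : Module.Basis.ofVectorSpaceIndex ℂ A →₀ Pl N) :
    MvPolynomial (Fin N × Fin N) A :=
  q.sum fun β P => MvPolynomial.C (Module.Basis.ofVectorSpace ℂ A β) * pmap A P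

theorem comb_add (q q' : Module.Basis.ofVectorSpaceIndex ℂ A →₀ Pl N) :
    comb A (q + q') = comb A q + comb A q' := by
  unfold comb
  rw [Finsupp.sum_add_index']
  · intro β; rw [map_zero, mul_zero]
  · intro β P P'; rw [map_add, mul_add]

theorem exists_comb (Q : MvPolynomial (Fin N × Fin N) A) : ∃ q, comb A q = Q := by
  induction Q using MvPolynomial.induction_on with
  | C a =>
    refine ⟨((Module.Basis.ofVectorSpace ℂ A).repr a).mapRange MvPolynomial.C (map_zero _), ?_⟩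
    unfold comb
    rw [Finsupp.sum_mapRange_index (fun β => by rw [map_zero, mul_zero])]
    have h := (Module.Basis.ofVectorSpace ℂ A).linearCombination_repr a
    rw [Finsupp.linearCombination_apply] at h
    conv_rhs => rw [← h]
    unfold Finsupp.sum
    rw [map_sum]
    refine Finset.sum_congr rfl fun β _ => ?_
    have h2 : (pmap A : Pl N →ₐ[ℂ] _) (MvPolynomial.C ((Module.Basis.ofVectorSpace ℂ A).repr a β)) =
        algebraMap ℂ (MvPolynomial (Fin N × Fin N) A) ((Module.Basis.ofVectorSpace ℂ A).repr a β) :=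
      AlgHom.commutes _ _
    change MvPolynomial.C _ * (pmap A : Pl N →ₐ[ℂ] _) (MvPolynomial.C _) =
      MvPolynomial.C (((Module.Basis.ofVectorSpace ℂ A).repr a β) •
        (Module.Basis.ofVectorSpace ℂ A) β)
    rw [h2, Algebra.smul_def, map_mul, mul_comm, IsScalarTower.algebraMap_apply ℂ A,
      MvPolynomial.algebraMap_eq]
  | add p q hp hq =>
    obtain ⟨a, ha⟩ := hp
    obtain ⟨b, hb⟩ := hq
    exact ⟨a + b, by rw [comb_add, ha, hb]⟩
  | mul_X p i hp =>
    obtain ⟨a, ha⟩ := hp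
    refine ⟨a.mapRange (· * MvPolynomial.X i) (zero_mul _), ?_⟩
    unfold comb at *
    rw [Finsupp.sum_mapRange_index (fun β => by rw [map_zero, mul_zero]), ← ha, Finsupp.sum,
      Finsupp.sum, Finset.sum_mul]
    refine Finset.sum_congr rfl fun β _ => ?_
    rw [map_mul, mul_assoc]
    congr 2
    exact MvPolynomial.aeval_X _ _

theorem evl_comb (f : A →ₐ[ℂ] B) (x : Matrix (Fin N) (Fin N) B)
    (q : Module.Basis.ofVectorSpaceIndex ℂ A →₀ Pl N) :
    evl f x (comb A q) = q.sum fun β P => f (Module.Basis.ofVectorSpace ℂ A β) * ev x P := by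
  unfold comb Finsupp.sum
  rw [map_sum]
  refine Finset.sum_congr rfl fun β _ => ?_
  rw [map_mul, evl_C, evl_pmap]

theorem ev_cm (γ : Matrix (Fin N) (Fin N) ℂ) (P : Pl N) :
    ev (cm A γ) P = algebraMap ℂ A (ev γ P) := (map_ev (Algebra.ofId ℂ A) γ P).symm

/-- A polynomial over `A` is in the ideal generated by the equations of `G` if and only if it
vanishes on `Γ`. -/
theorem mem_vanA (Q : MvPolynomial (Fin N × Fin N) A)
    (h : ∀ γ ∈ Γ, evl (AlgHom.id ℂ A) (cm A γ.1) Q = 0) : Q ∈ vanA Γ A := by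
  obtain ⟨q, rfl⟩ := exists_comb Q
  have hq : ∀ β, q β ∈ van Γ := by
    intro β γ hγ
    have h1 := h γ hγ
    rw [evl_comb, Finsupp.sum] at h1
    have h2 : ∑ β ∈ q.support, ev γ.1 (q β) • (Module.Basis.ofVectorSpace ℂ A β) = 0 := by
      rw [← h1]
      refine Finset.sum_congr rfl fun β _ => ?_
      rw [ev_cm, Algebra.smul_def, mul_comm]
      rfl
    by_cases hβ : β ∈ q.support
    · exact linearIndependent_iff'.1 (Module.Basis.ofVectorSpace ℂ A).linearIndependent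
        q.support (fun β => ev γ.1 (q β)) h2 β hβ
    · rw [Finsupp.notMem_support_iff.1 hβ, map_zero]
  unfold comb Finsupp.sum
  exact Ideal.sum_mem _ fun β _ => Ideal.mul_mem_left _ _ (Ideal.mem_map_of_mem _ (hq β))

theorem evl_of_mem {Q : MvPolynomial (Fin N × Fin N) A} (hQ : Q ∈ vanA Γ A) (f : A →ₐ[ℂ] B)
    {x : Matrix (Fin N) (Fin N) B} (hx : ∀ P ∈ van Γ, ev x P = 0) : evl f x Q = 0 := by
  have h : vanA Γ A ≤ RingHom.ker (evl f x : MvPolynomial (Fin N × Fin N) A →ₐ[ℂ] B) := by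
    unfold vanA
    rw [Ideal.map_le_iff_le_comap]
    intro P hP
    rw [Ideal.mem_comap, RingHom.mem_ker, evl_pmap]
    exact hx P hP
  exact h hQ

end Coeff

section Group

variable {Γ : Subgroup (SpecialLinearGroup (Fin N) ℂ)}

theorem IsPt.map {x : Matrix (Fin N) (Fin N) A} (h : IsPt Γ x) (f : A →ₐ[ℂ] B) :
    IsPt Γ (x.map f) := fun P hP => by rw [← map_ev, h P hP, map_zero]

theorem IsPt.of_injective {x : Matrix (Fin N) (Fin N) A} (f : A →ₐ[ℂ] B)
    (hf : Function.Injective f) (h : IsPt Γ (x.map f)) : IsPt Γ x := fun P hP => by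
  apply hf
  rw [map_ev, h P hP, map_zero]

theorem isPt_cm {γ : SpecialLinearGroup (Fin N) ℂ} (hγ : γ ∈ Γ) : IsPt Γ (cm A γ.1) :=
  fun P hP => by rw [ev_cm, hP γ hγ, map_zero]

theorem evl_cs_mul_gen (f : A →ₐ[ℂ] B) (x : Matrix (Fin N) (Fin N) B)
    (y : Matrix (Fin N) (Fin N) A) (P : Pl N) :
    evl f x (ev (cs y * gen N A) P) = ev (y.map f * x) P := by
  rw [evl_ev, Matrix.map_mul, cs_map, gen_map]

theorem evl_gen_mul_cs (f : A →ₐ[ℂ] B) (x : Matrix (Fin N) (Fin N) B)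
    (y : Matrix (Fin N) (Fin N) A) (P : Pl N) :
    evl f x (ev (gen N A * cs y) P) = ev (x * y.map f) P := by
  rw [evl_ev, Matrix.map_mul, cs_map, gen_map]

theorem map_id' (x : Matrix (Fin N) (Fin N) A) : x.map (AlgHom.id ℂ A) = x := by
  ext i j
  rfl

/-- The translates of the equations by a point of `Γ`. -/
theorem IsPt.cm_mul {γ : SpecialLinearGroup (Fin N) ℂ} (hγ : γ ∈ Γ)
    {y : Matrix (Fin N) (Fin N) A} (hy : IsPt Γ y) : IsPt Γ (cm A γ.1 * y) := by
  intro P hP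
  have h1 : ev (cs γ.1 * gen N ℂ) P ∈ vanA Γ ℂ := by
    apply mem_vanA
    intro δ hδ
    rw [evl_cs_mul_gen, map_id']
    have h2 : cm ℂ δ.1 = δ.1 := by ext i j; rfl
    rw [h2]
    exact hP (γ * δ) (Γ.mul_mem hγ hδ)
  have h3 := evl_of_mem Γ h1 (Algebra.ofId ℂ A) hy
  rw [evl_cs_mul_gen] at h3
  exact h3

theorem IsPt.mul {x y : Matrix (Fin N) (Fin N) A} (hx : IsPt Γ x) (hy : IsPt Γ y) :
    IsPt Γ (x * y) := by
  intro P hP
  have h1 : ev (gen N A * cs y) P ∈ vanA Γ A := by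
    apply mem_vanA
    intro δ hδ
    rw [evl_gen_mul_cs, map_id']
    exact hy.cm_mul hδ P hP
  have h3 := evl_of_mem Γ h1 (AlgHom.id ℂ A) hx
  rw [evl_gen_mul_cs, map_id'] at h3
  exact h3

theorem isPt_one : IsPt Γ (1 : Matrix (Fin N) (Fin N) A) := by
  have h := isPt_cm (A := A) Γ.one_mem
  have h2 : cm A (1 : SpecialLinearGroup (Fin N) ℂ).1 = 1 := by
    change (1 : Matrix (Fin N) (Fin N) ℂ).map (algebraMap ℂ A) = 1
    exact Matrix.map_one _ (map_zero _) (map_one _)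
  rwa [h2] at h

theorem IsPt.adjugate {x : Matrix (Fin N) (Fin N) A} (hx : IsPt Γ x) : IsPt Γ x.adjugate := by
  intro P hP
  have h1 : ev (gen N ℂ).adjugate P ∈ vanA Γ ℂ := by
    apply mem_vanA
    intro δ hδ
    have h2 : cm ℂ δ.1 = δ.1 := by ext i j; rfl
    rw [h2, evl_ev]
    have h3 : (gen N ℂ).adjugate.map (evl (AlgHom.id ℂ ℂ) δ.1) = (δ⁻¹).1 := by
      have h4 := AlgHom.map_adjugate (evl (AlgHom.id ℂ ℂ) δ.1) (gen N ℂ)
      rw [AlgHom.mapMatrix_apply, AlgHom.mapMatrix_apply, gen_map] at h4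
      rw [h4]
      rfl
    rw [h3]
    exact hP (δ⁻¹) (Γ.inv_mem hδ)
  have h3 := evl_of_mem Γ h1 (Algebra.ofId ℂ A) hx
  rw [evl_ev] at h3
  have h4 := AlgHom.map_adjugate (evl (Algebra.ofId ℂ A) x) (gen N ℂ)
  rw [AlgHom.mapMatrix_apply, AlgHom.mapMatrix_apply, gen_map] at h4
  rwa [h4] at h3

theorem IsPt.det {x : Matrix (Fin N) (Fin N) A} (hx : IsPt Γ x) : x.det = 1 := by
  have h1 : (gen N ℂ).det - 1 ∈ van Γ := by
    intro γ _
    have h2 := AlgHom.map_det (ev (γ : Matrix (Fin N) (Fin N) ℂ)) (gen N ℂ)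
    have h3 : (ev (γ : Matrix (Fin N) (Fin N) ℂ)).mapMatrix (gen N ℂ) = γ.1 := by
      ext i j
      exact MvPolynomial.aeval_X _ _
    rw [map_sub, h2, h3, map_one, γ.2, sub_self]
  have h2 := hx _ h1
  have h4 := AlgHom.map_det (ev x) (gen N ℂ)
  have h3 : (ev x).mapMatrix (gen N ℂ) = x := by
    ext i j
    exact MvPolynomial.aeval_X _ _
  rw [map_sub, map_one, h4, h3, sub_eq_zero] at h2
  exact h2

/-- The points of `G` over `A`, as a subgroup. -/
def GrS' (Γ : Gps N) (A : Type) [CommRing A] [Algebra ℂ A] :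
    Subgroup (SpecialLinearGroup (Fin N) A) where
  carrier := {x | IsPt Γ x.1}
  one_mem' := isPt_one
  mul_mem' {x y} hx hy := IsPt.mul (Γ := Γ) (x := x.1) (y := y.1) hx hy
  inv_mem' {x} hx := IsPt.adjugate (Γ := Γ) (x := x.1) hx

theorem mem_GrS {x : SpecialLinearGroup (Fin N) A} : x ∈ GrS Γ A ↔ IsPt Γ x.1 := by
  have h : GrS Γ A = GrS' Γ A := Subgroup.closure_eq (GrS' Γ A)
  rw [h]
  exact Iff.rfl

end Group

end

end Vale.Agent.P286.Gen
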