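import Vale.Agent.P286.Gen.Kil
import Vale.Agent.P286.Gen.Spec

/-!
# Rationality of the eigenvalues on the standard representation
-/

namespace Vale.Agent.P286.Gen

open Matrix Polynomial

noncomputable section

set_option linter.unusedSectionVars false

variable {N : ℕ} {Γ : Subgroup (SpecialLinearGroup (Fin N) ℂ)}

section Fld

variable {F : Type} [Field F]

theorem trace_idem {n : ℕ} {M : Matrix (Fin n) (Fin n) F} (h : M * M = M) :
    ∃ r : ℕ, r ≤ n ∧ Matrix.trace M = (r : F) ∧ (r = 0 → M = 0) := by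
  let f := Matrix.toLinAlgEquiv' M
  have hf : IsIdempotentElem f := by
    change f * f = f
    rw [← map_mul, h]
  have h1 := ((LinearMap.isProj_range_iff_isIdempotentElem f).2 hf).trace
  refine ⟨Module.finrank F (LinearMap.range f), ?_, ?_, ?_⟩
  · have := Submodule.finrank_le (LinearMap.range f)
    rwa [Module.finrank_fin_fun] at this
  · rw [← h1]
    exact (Matrix.trace_toLin'_eq M).symm
  · intro h0
    have h2 : LinearMap.range f = ⊥ := Submodule.finrank_eq_zero.1 h0
    have h3 : f = 0 := LinearMap.range_eq_bot.1 h2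
    exact (map_eq_zero_iff _ (Matrix.toLinAlgEquiv' (R := F) (n := Fin n)).injective).1 h3

theorem aeval_mulVec {n : ℕ} {C : Matrix (Fin n) (Fin n) F} {a : F} {y : Fin n → F}
    (h : C *ᵥ y = a • y) (Q : F[X]) : aeval C Q *ᵥ y = Q.eval a • y := by
  have h1 := Module.End.aeval_apply_of_mem_apply_eq_smul (f := Matrix.toLinAlgEquiv' C) (p := Q)
    (x := y) (μ := a) h
  rw [Polynomial.aeval_algHom_apply] at h1
  exact h1

theorem charpoly_dvd [IsAlgClosed F] {n : ℕ} [DecidableEq F] (C : Matrix (Fin n) (Fin n) F) :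
    C.charpoly ∣ spp C.charpoly.roots.toFinset (id : F → F) n := by
  have h1 := (IsAlgClosed.splits C.charpoly).eq_prod_roots_of_monic (charpoly_monic C)
  rw [prod_multiset_root_eq_finset_root] at h1
  conv_lhs => rw [h1]
  refine Finset.prod_dvd_prod_of_dvd _ _ fun a _ => ?_
  refine pow_dvd_pow _ ?_
  have h2 : rootMultiplicity a C.charpoly ≤ C.charpoly.natDegree := by
    rw [← count_roots]
    exact (Multiset.count_le_card _ _).trans (card_roots' _)
  rwa [charpoly_natDegree_eq_dim, Fintype.card_fin] at h2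

theorem trace_mul_of_nilp {n k : ℕ} {C q : Matrix (Fin n) (Fin n) F} {b : F}
    (hc : Commute q C) (h : (C - algebraMap F _ b) ^ k * q = 0) :
    Matrix.trace (q * C) = b * Matrix.trace q := by
  have h1 : q * C = q * (C - algebraMap F _ b) + b • q := by
    rw [mul_sub, ← Algebra.commutes b q, ← Algebra.smul_def]
    abel
  have hc' : Commute q (C - algebraMap F (Matrix (Fin n) (Fin n) F) b) :=
    hc.sub_right (Algebra.commute_algebraMap_right b q)
  have h2 : IsNilpotent (q * (C - algebraMap F (Matrix (Fin n) (Fin n) F) b)) := by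
    refine ⟨k + 1, ?_⟩
    rw [hc'.mul_pow, (hc'.pow_pow (k + 1) (k + 1)).eq, pow_succ', pow_succ' q, mul_assoc, ← mul_assoc (_ ^ k), h, zero_mul,
      mul_zero]
  rw [h1, Matrix.trace_add, Matrix.trace_smul, smul_eq_mul,
    (Matrix.isNilpotent_trace_of_isNilpotent h2).eq_zero, zero_add]

end Fld

section Adl

variable {R : Type} [CommRing R] [Algebra ℂ R] {k : Type} [Field k] [Algebra k R]

theorem adl_toG (w u : Fin (dm Γ) → R) (a : k) :
    adl (toG Γ w) a (toG Γ u) =
      toG Γ ((adG Γ w - algebraMap k (Matrix (Fin (dm Γ)) (Fin (dm Γ)) R) a) *ᵥ u) := by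
  rw [Matrix.sub_mulVec, toG_sub, toG_adG, adl]
  congr 1
  have h1 : (algebraMap k (Matrix (Fin (dm Γ)) (Fin (dm Γ)) R) a) *ᵥ u = algebraMap k R a • u := by
    rw [Algebra.algebraMap_eq_smul_one, ← algebraMap_smul R a (1 : Matrix (Fin (dm Γ)) (Fin (dm Γ)) R),
      Matrix.smul_mulVec, Matrix.one_mulVec]
  rw [h1, toG_smul, algebraMap_smul]

theorem adl_toG_iterate (w u : Fin (dm Γ) → R) (a : k) (n : ℕ) :
    (adl (toG Γ w) a)^[n] (toG Γ u) =
      toG Γ ((adG Γ w - algebraMap k (Matrix (Fin (dm Γ)) (Fin (dm Γ)) R) a) ^ n *ᵥ u) := by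
  induction n generalizing u with
  | zero => rw [Function.iterate_zero, id, pow_zero, Matrix.one_mulVec]
  | succ n ih =>
    rw [Function.iterate_succ_apply, adl_toG, ih, Matrix.mulVec_mulVec, ← pow_succ]

/-- The components of an element of the Lie algebra are generalized eigenvectors. -/
theorem adl_proj {w : Fin (dm Γ) → R} {a : k} {n : ℕ} {Q : k[X]}
    (h : aeval (adG Γ w) ((X - C a) ^ n * Q) = 0) (u : Fin (dm Γ) → R) :
    (adl (toG Γ w) a)^[n] (toG Γ (aeval (adG Γ w) Q *ᵥ u)) = 0 := by
  rw [adl_toG_iterate, Matrix.mulVec_mulVec, ← aeval_pow_sub, ← map_mul, h, Matrix.zero_mulVec,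
    toG_zero]

end Adl

section Main

variable {F : Type} [Field F] [Algebra ℂ F]

/-- A functional which vanishes on commutators vanishes. -/
theorem trace_comm_zero (hK : KilDet Γ) {P : Matrix (Fin N) (Fin N) F}
    (hP : ∀ u : Fin (dm Γ) → F, P * toG Γ u = toG Γ u * P) (w : Fin (dm Γ) → F) :
    Matrix.trace (P * toG Γ w) = 0 := by
  obtain ⟨x, hx⟩ := hK.exists_dual (A := F)
    (fun i => Matrix.trace (P * toG Γ (Pi.single i (1 : F))))
  have hx2 : ∀ u, kil Γ x u = Matrix.trace (P * toG Γ u) := by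
    intro u
    rw [hx]
    have h1 : toG Γ u = ∑ i, u i • toG Γ (Pi.single i (1 : F)) := by
      conv_lhs => rw [pi_eq_sum u]
      have h2 : ∀ (s : Finset (Fin (dm Γ))), toG Γ (∑ i ∈ s, u i • (Pi.single i (1 : F) :
          Fin (dm Γ) → F)) = ∑ i ∈ s, u i • toG Γ (Pi.single i (1 : F)) := by
        intro s
        induction s using Finset.induction_on with
        | empty => rw [Finset.sum_empty, Finset.sum_empty, toG_zero]
        | insert a s ha ih => rw [Finset.sum_insert ha, Finset.sum_insert ha, toG_add, ih, toG_smul]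
      exact h2 _
    rw [h1, Finset.mul_sum, Matrix.trace_sum]
    simp only [dotProduct]
    refine Finset.sum_congr rfl fun i _ => ?_
    rw [Matrix.mul_smul, Matrix.trace_smul, smul_eq_mul, mul_comm]
  have hx3 : ∀ u v, kil Γ (adG Γ x *ᵥ u) v = 0 := by
    intro u v
    have h1 : kil Γ (adG Γ x *ᵥ u) v = kil Γ x (adG Γ u *ᵥ v) := by
      rw [kil, kil, adG_lie, adG_lie, Matrix.sub_mul, Matrix.mul_sub, Matrix.trace_sub,
        Matrix.trace_sub]
      congr 1
      · rw [Matrix.mul_assoc]
      · rw [Matrix.mul_assoc, Matrix.trace_mul_comm, Matrix.mul_assoc]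
    rw [h1, hx2, toG_adG, Matrix.mul_sub, Matrix.trace_sub, ← Matrix.mul_assoc, ← Matrix.mul_assoc,
      hP u, Matrix.mul_assoc (toG Γ u), Matrix.trace_mul_comm (toG Γ u)]
    rw [sub_self]
  have hx4 : adG Γ x = 0 := by
    apply Matrix.ext_of_mulVec_single
    intro j
    rw [Matrix.zero_mulVec]
    exact hK.eq_zero (hx3 _)
  have hx5 : x = 0 := by
    apply hK.adG_injective
    rw [hx4]
    have := adG_smul (Γ := Γ) (0 : F) (0 : Fin (dm Γ) → F)
    rw [zero_smul, zero_smul] at this
    exact this.symm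
  rw [← hx2, hx5, kil]
  have := adG_smul (Γ := Γ) (0 : F) (0 : Fin (dm Γ) → F)
  rw [zero_smul, zero_smul] at this
  rw [this, Matrix.zero_mul, Matrix.trace_zero]

/-- **The eigenvalues on the standard representation are rational**, if the eigenvalues on the
adjoint representation are integral. -/
theorem eig_rational [IsAlgClosed F] [CharZero F] (hK : KilDet Γ) {w : Fin (dm Γ) → F} {S : Finset ℤ}
    {n : ℕ} (h : aeval (adG Γ w) (spp S (fun j : ℤ => (j : F)) n) = 0) {α : F}
    (hα : (toG Γ w).charpoly.IsRoot α) :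
    ∃ r : ℕ, 1 ≤ r ∧ r ≤ N ∧ ∃ z : ℤ, (r : F) * α = z := by
  classical
  set C := toG Γ w with hC
  set V := C.charpoly.roots.toFinset with hV
  have hann : aeval C (spp V (id : F → F) N) = 0 :=
    aeval_dvd (charpoly_dvd C) (Matrix.aeval_self_charpoly C)
  obtain ⟨Q, hQ1, hQ2⟩ := crt V (Function.injective_id : Function.Injective (id : F → F)) N
  obtain ⟨Q', hQ1', hQ2'⟩ := crt S (Int.cast_injective : Function.Injective (fun j : ℤ => (j : F))) n
  have hαV : α ∈ V := by
    rw [hV, Multiset.mem_toFinset, mem_roots (charpoly_monic C).ne_zero]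
    exact hα
  -- the projections on the standard representation
  set q : F → Matrix (Fin N) (Fin N) F := fun b => aeval C (Q b) with hq
  have hqs : ∑ b ∈ V, q b = 1 := by
    have h1 := aeval_dvd (spp_dvd_sum Function.injective_id hQ1 hQ2) hann
    rw [map_sub, map_sum, map_one, sub_eq_zero] at h1
    exact h1
  have hqa : ∀ b ∈ V, aeval C ((X - Polynomial.C b) ^ N * Q b) = 0 := fun b hb =>
    aeval_dvd (spp_dvd_mul Function.injective_id hQ2 hb) hann
  have hqq : ∀ b ∈ V, ∀ c ∈ V, b ≠ c → q b * q c = 0 := by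
    intro b hb c hc hbc
    refine coprime_kill (isCoprime_pow_sub hbc N N) ?_ ?_
    · rw [hqa b hb, zero_mul]
    · rw [← map_mul, hqa c hc]
  have hqi : ∀ b ∈ V, q b * q b = q b := by
    intro b hb
    have h1 : q b * ∑ c ∈ V, q c = q b * q b := by
      rw [Finset.mul_sum]
      exact Finset.sum_eq_single b (fun c hc hcb => hqq b hb c hc (Ne.symm hcb))
        (fun hn => absurd hb hn)
    rw [hqs, mul_one] at h1
    exact h1.symm
  -- the projections on the adjoint representation
  have hps : ∑ j ∈ S, aeval (adG Γ w) (Q' j) = 1 := by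
    have h1 := aeval_dvd (spp_dvd_sum Int.cast_injective hQ1' hQ2') h
    rw [map_sub, map_sum, map_one, sub_eq_zero] at h1
    exact h1
  have hpa : ∀ j ∈ S, aeval (adG Γ w) ((X - Polynomial.C (j : F)) ^ n * Q' j) = 0 := fun j hj =>
    aeval_dvd (spp_dvd_mul Int.cast_injective hQ2' hj) h
  -- the projection
  set W := V.filter (fun b => ∃ z : ℤ, b = α + z) with hW
  set P := ∑ b ∈ W, q b with hP
  have hWV : W ⊆ V := Finset.filter_subset _ _
  have hzero : ∀ j ∈ S, ∀ u : Fin (dm Γ) → F, ∀ g ∈ V, ∀ b ∈ V, g ≠ b + (j : F) →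
      q g * (toG Γ (aeval (adG Γ w) (Q' j) *ᵥ u) * q b) = 0 := by
    intro j hj u g hg b hb hne
    exact proj_eig_mul (adl_proj (hpa j hj) u) (hqa b hb) (hqa g hg) hne
  have hcomm1 : ∀ j ∈ S, ∀ u : Fin (dm Γ) → F,
      P * toG Γ (aeval (adG Γ w) (Q' j) *ᵥ u) = toG Γ (aeval (adG Γ w) (Q' j) *ᵥ u) * P := by
    intro j hj u
    set y := toG Γ (aeval (adG Γ w) (Q' j) *ᵥ u) with hy
    have h1 : P * y = ∑ g ∈ W, ∑ b ∈ W, q g * (y * q b) := by
      calc P * y = P * (y * ∑ b ∈ V, q b) := by rw [hqs, mul_one]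
        _ = ∑ g ∈ W, ∑ b ∈ V, q g * (y * q b) := by
            rw [hP, Finset.sum_mul]
            refine Finset.sum_congr rfl fun g _ => ?_
            rw [Finset.mul_sum, Finset.mul_sum]
        _ = _ := by
            refine Finset.sum_congr rfl fun g hg => ?_
            symm
            refine Finset.sum_subset hWV fun b hb hbW => ?_
            apply hzero j hj u g (hWV hg) b hb
            rintro rfl
            apply hbW
            rw [hW, Finset.mem_filter] at hg ⊢
            obtain ⟨-, z, hz⟩ := hg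
            refine ⟨hb, z - j, ?_⟩
            push_cast
            linear_combination hz
    have h2 : y * P = ∑ g ∈ W, ∑ b ∈ W, q g * (y * q b) := by
      calc y * P = (∑ g ∈ V, q g) * (y * P) := by rw [hqs, one_mul]
        _ = ∑ g ∈ V, ∑ b ∈ W, q g * (y * q b) := by
            rw [hP, Finset.sum_mul]
            refine Finset.sum_congr rfl fun g _ => ?_
            rw [Finset.mul_sum, Finset.mul_sum]
        _ = _ := by
            symm
            refine Finset.sum_subset hWV fun g hg hgW => ?_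
            refine Finset.sum_eq_zero fun b hb => ?_
            apply hzero j hj u g hg b (hWV hb)
            rintro rfl
            apply hgW
            rw [hW, Finset.mem_filter] at hb ⊢
            obtain ⟨-, z, hz⟩ := hb
            refine ⟨hg, z + j, ?_⟩
            push_cast
            linear_combination hz
    rw [h1, h2]
  have hcomm : ∀ u : Fin (dm Γ) → F, P * toG Γ u = toG Γ u * P := by
    intro u
    have h1 : toG Γ u = ∑ j ∈ S, toG Γ (aeval (adG Γ w) (Q' j) *ᵥ u) := by
      have h2 : u = ∑ j ∈ S, aeval (adG Γ w) (Q' j) *ᵥ u := by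
        rw [← Matrix.sum_mulVec, hps, Matrix.one_mulVec]
      conv_lhs => rw [h2]
      have h3 : ∀ (s : Finset ℤ), toG Γ (∑ j ∈ s, aeval (adG Γ w) (Q' j) *ᵥ u) =
          ∑ j ∈ s, toG Γ (aeval (adG Γ w) (Q' j) *ᵥ u) := by
        intro s
        induction s using Finset.induction_on with
        | empty => rw [Finset.sum_empty, Finset.sum_empty, toG_zero]
        | insert a s ha ih => rw [Finset.sum_insert ha, Finset.sum_insert ha, toG_add, ih]
      exact h3 S
    rw [h1, Finset.mul_sum, Finset.sum_mul]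
    exact Finset.sum_congr rfl fun j hj => hcomm1 j hj u
  have htr : Matrix.trace (P * C) = 0 := trace_comm_zero hK hcomm w
  -- the traces
  have hPi : P * P = P := by
    rw [hP, Finset.sum_mul]
    refine Finset.sum_congr rfl fun b hb => ?_
    rw [Finset.mul_sum, Finset.sum_eq_single b (fun c hc hcb => hqq b (hWV hb) c (hWV hc)
      (Ne.symm hcb)) (fun hn => absurd hb hn), hqi b (hWV hb)]
  have hcom : ∀ b, Commute (q b) C := fun b => by
    have h1 := (Commute.all (Q b) (X : F[X])).map (aeval C)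
    rwa [aeval_X] at h1
  have hann2 : ∀ b ∈ V, (C - algebraMap F _ b) ^ N * q b = 0 := fun b hb => by
    rw [← aeval_pow_sub, ← map_mul]
    exact hqa b hb
  choose! r hr using fun (b : F) (hb : b ∈ V) => trace_idem (hqi b hb)
  choose! z hz using fun (b : F) (hb : b ∈ W) => (Finset.mem_filter.1 hb).2
  obtain ⟨R, hRN, hRt, hR0⟩ := trace_idem hPi
  have hsum : (R : F) * α = ((-∑ b ∈ W, z b * (r b : ℤ) : ℤ) : F) := by
    have h1 : Matrix.trace (P * C) = ∑ b ∈ W, b * (r b : F) := by
      rw [hP, Finset.sum_mul, Matrix.trace_sum]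
      refine Finset.sum_congr rfl fun b hb => ?_
      rw [trace_mul_of_nilp (hcom b) (hann2 b (hWV hb)), (hr b (hWV hb)).2.1]
    have h2 : (R : F) = ∑ b ∈ W, (r b : F) := by
      rw [← hRt, hP, Matrix.trace_sum]
      exact Finset.sum_congr rfl fun b hb => (hr b (hWV hb)).2.1
    rw [htr] at h1
    have h3 : ∑ b ∈ W, b * (r b : F) = ∑ b ∈ W, (α * (r b : F) + (z b : F) * (r b : F)) := by
      refine Finset.sum_congr rfl fun b hb => ?_
      have := hz b hb
      rw [← add_mul, ← this]
    rw [h3, Finset.sum_add_distrib, ← Finset.mul_sum, ← h2] at h1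
    push_cast
    linear_combination -h1
  refine ⟨R, ?_, hRN, _, hsum⟩
  by_contra hR
  have hR' : R = 0 := by omega
  have hP0 := hR0 hR'
  have hαW : α ∈ W := by
    rw [hW, Finset.mem_filter]
    exact ⟨hαV, 0, by rw [Int.cast_zero, add_zero]⟩
  have hqα : q α = 0 := by
    have h1 : P * q α = q α := by
      rw [hP, Finset.sum_mul, Finset.sum_eq_single α (fun c hc hcb => hqq c (hWV hc) α hαV hcb)
        (fun hn => absurd hαW hn), hqi α hαV]
    rw [← h1, hP0, zero_mul]
  -- an eigenvector
  have hN0 : N ≠ 0 := by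
    rintro rfl
    have h1 : C.charpoly = 1 := by
      rw [Matrix.charpoly, Matrix.det_isEmpty]
    rw [h1, IsRoot.def, eval_one] at hα
    exact one_ne_zero hα
  have hdet : (Matrix.scalar (Fin N) α - C).det = 0 := by
    rw [← Matrix.eval_charpoly]
    exact hα
  obtain ⟨y, hy0, hy⟩ := Matrix.exists_mulVec_eq_zero_iff.2 hdet
  have hCy : C *ᵥ y = α • y := by
    rw [Matrix.sub_mulVec, sub_eq_zero] at hy
    rw [← hy]
    ext i
    simp [Matrix.scalar_apply, Matrix.mulVec_diagonal]
  apply hy0
  have h1 : y = ∑ b ∈ V, q b *ᵥ y := by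
    rw [← Matrix.sum_mulVec, hqs, Matrix.one_mulVec]
  rw [h1]
  refine Finset.sum_eq_zero fun b hb => ?_
  by_cases hbα : b = α
  · rw [hbα, hqα, Matrix.zero_mulVec]
  · rw [hq, aeval_mulVec hCy]
    have h2 : (Q b).eval α = 0 := by
      obtain ⟨T, hT⟩ := hQ2 b hb α hαV (Ne.symm hbα)
      rw [hT, eval_mul, eval_pow, eval_sub, eval_X, eval_C, id, sub_self, zero_pow hN0, zero_mul]
    rw [h2, zero_smul]

end Main

end

end Vale.Agent.P286.Gen
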