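import Vale.Agent.P286.Gen.BFun
import Vale.Agent.P286.H211.QE
import Vale.Agent.P286.H211.Fact2
import Vale.Agent.P286.H211.Torus

/-!
# Restriction of twisted `D`-modules to the trivial bundle
-/

namespace Vale.Agent.P286.Gen

open CategoryTheory LaurentPolynomial

noncomputable section

set_option linter.unusedSectionVars false

variable {N : ℕ} {Γ Z : Gps N} {ν : ℕ} [NeZero ν]

/-- The constants. -/
def CA (A : Type) [CommRing A] [Algebra ℂ A] : A →ₐ[ℂ] Polynomial A :=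
  { (Polynomial.C : A →+* Polynomial A) with
    commutes' := fun _ => rfl }

theorem CA_apply {A : Type} [CommRing A] [Algebra ℂ A] (a : A) : CA A a = Polynomial.C a := rfl

/-- A constant matrix, as an element of `G(A[z])`. -/
def cst (Γ : Gps N) (A : Type) [CommRing A] [Algebra ℂ A] : Gr Γ A →* Gr Γ (Polynomial A) :=
  gmH Γ (CA A)

theorem slm_constSL {A B : Type} [CommRing A] [Algebra ℂ A] [CommRing B] [Algebra ℂ B]
    (f : A →ₐ[ℂ] B) (x : Gr Γ A) :
    gm (pmA f) (cst Γ A x) = cst Γ B (gm f x) := by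
  change gm (pmA f) (gm (CA A) x) = gm (CA B) (gm f x)
  rw [gm_gm, gm_gm]
  congr 1
  exact AlgHom.ext fun a => pmA_C f a

theorem ev0_constSL {A : Type} [CommRing A] [Algebra ℂ A] (x : Gr Γ A) :
    ev0 Γ A (cst Γ A x) = x := by
  change gm (ccA A) (gm (CA A) x) = x
  rw [gm_gm]
  have h : (ccA A).comp (CA A) = AlgHom.id ℂ A := AlgHom.ext fun a => Polynomial.coeff_C_zero
  rw [h, gm_id]

theorem neg_cst (A : Type) [CommRing A] [Algebra ℂ A] (x : Gr Γ A) :
    neg ν Γ A (cst Γ A x) = pos ν Γ A (cst Γ A x) := by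
  change gm (evP A _) (gm (CA A) x) = gm (evP A _) (gm (CA A) x)
  rw [gm_gm, gm_gm]
  congr 1
  exact AlgHom.ext fun a => (evP_C _ a).trans (evP_C _ a).symm

theorem isFraming_one (A : Type) [CommRing A] [Algebra ℂ A] :
    IsFraming ν (1 : Gr Γ A[T;T⁻¹]) 1 := by
  have h : ((1 : OprU Γ A) : Opr Γ A) -
      toep ν (1 : Gr Γ A[T;T⁻¹]) = 0 := by
    rw [toep_one]
    exact sub_self (1 : Opr Γ A)
  change FinRank (((1 : OprU Γ A) : Opr Γ A) - toep ν (1 : Gr Γ A[T;T⁻¹]))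
  rw [h]
  exact FinRank.zero

theorem theta_one (A : Type) [CommRing A] [Algebra ℂ A] :
    theta ν (1 : Gr Γ A[T;T⁻¹]) 1 = 1 := by
  unfold theta
  rw [toep_one, inv_one, Units.val_one, mul_one, fdet_one]

theorem neg_const_eq (A : Type) [CommRing A] [Algebra ℂ A] (x : Gr Γ A) :
    1 * neg ν Γ A (cst Γ A x) = pos ν Γ A (cst Γ A x) * 1 := by
  rw [one_mul, mul_one, neg_cst]

theorem transport_const {A B : Type} [CommRing A] [Algebra ℂ A] [CommRing B] [Algebra ℂ B] (f : A →ₐ[ℂ] B)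
    (x : Gr Γ B) :
    transport f (cst Γ B x) (cst Γ B x) 1 * 1⁻¹ = 1 := by
  have h : toepNeg Γ B (cst Γ B x) = toepPos Γ B (cst Γ B x) := by
    apply Units.ext
    rw [toepNeg_val (m := 1), toepPos_val (m := 1), neg_cst]
  rw [transport, map_one, mul_one, h, mul_inv_cancel, inv_one, mul_one]

theorem cm_one (A : Type) [CommRing A] [Algebra ℂ A] :
    cm A (1 : Matrix (Fin N) (Fin N) ℂ) = 1 :=
  Matrix.map_one _ (map_zero _) (map_one _)

theorem isTw_one (A : Type) [CommRing A] [Algebra ℂ A] :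
    IsTw ν (1 : Matrix.SpecialLinearGroup (Fin N) ℂ) (1 : Gr Γ A[T;T⁻¹]) := by
  rw [isTw_iff, mx_one]
  change _ = cm _ (1 : Matrix (Fin N) (Fin N) ℂ) * 1
  rw [cm_one, mul_one]
  exact Matrix.map_one _ (map_zero _) (map_one _)

/-- the trivial bundle with its canonical framing -/
abbrev triv (Z : Gps N) (ν : ℕ) [NeZero ν] (X : BGObj Γ) : BunObj Γ Z ν where
  A := X.A
  g := 1
  tw := ⟨1, Z.one_mem, isTw_one X.A.R⟩
  S := 1
  framing := isFraming_one X.A.R

theorem triv_th (X : BGObj Γ) : (triv Z ν X).th = 1 := theta_one X.A.R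

/-- a constant automorphism of the trivial bundle -/
def jmap (Z : Gps N) (ν : ℕ) [NeZero ν] {X Y : BGObj Γ} (φ : X ⟶ Y) : triv Z ν X ⟶ triv Z ν Y :=
  ({ f := BGHom.f φ
     a := cst Γ Y.A.R (BGHom.h φ)
     b := cst Γ Y.A.R (BGHom.h φ)
     glue := by
      apply Glue.mk
      rw [gm_one]
      exact neg_const_eq Y.A.R (BGHom.h φ) } : BunHom (triv Z ν X) (triv Z ν Y))

theorem jmap_dl {X Y : BGObj Γ} (φ : X ⟶ Y) : (Bun Γ Z ν).dl (jmap Z ν φ) = 1 := by
  apply Units.ext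
  change fdet ((transport (BGHom.f φ) (cst Γ Y.A.R (BGHom.h φ))
    (cst Γ Y.A.R (BGHom.h φ)) 1 * 1⁻¹ : OprU Γ Y.A.R) :
      Opr Γ Y.A.R) = 1
  rw [transport_const, Units.val_one, fdet_one]

theorem jmap_id (X : BGObj Γ) : jmap Z ν (𝟙 X) = 𝟙 (triv Z ν X) := by
  apply BunHom.ext
  · rfl
  · change cst Γ X.A.R 1 = 1
    rw [map_one]
  · change cst Γ X.A.R 1 = 1
    rw [map_one]

theorem jmap_comp {X Y Z' : BGObj Γ} (φ : X ⟶ Y) (ψ : Y ⟶ Z') :
    jmap Z ν (φ ≫ ψ) = jmap Z ν φ ≫ jmap Z ν ψ := by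
  have h : cst Γ Z'.A.R (BGHom.h ψ * gm
      (BGHom.f ψ) (BGHom.h φ)) =
      cst Γ Z'.A.R (BGHom.h ψ) * gm (pmA (BGHom.f ψ))
        (cst Γ Y.A.R (BGHom.h φ)) := by
    rw [map_mul, slm_constSL]
  apply BunHom.ext
  · rfl
  · exact h
  · exact h

instance modTriv {s : ℂ} (F : TDMod (Bun Γ Z ν) s) (X : BGObj Γ) :
    Module X.A.R (F.M (triv Z ν X)) :=
  F.mod (triv Z ν X)

/-- The restriction to the trivial bundle, on objects. -/
def Jobj {s : ℂ} (F : TDMod (Bun Γ Z ν) s) : TDMod (BG Γ Z) 0 where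
  M X := F.M (triv Z ν X)
  grp X := F.grp (triv Z ν X)
  mod X := F.mod (triv Z ν X)
  act X v m := F.act (triv Z ν X) v m
  act_add X v m m' := F.act_add (triv Z ν X) v m m'
  add_act X v w m := F.add_act (triv Z ν X) v w m
  smul_act X a v m := F.smul_act (triv Z ν X) a v m
  leibniz X v a m := F.leibniz (triv Z ν X) v a m
  lie_act X v w m := F.lie_act (triv Z ν X) v w m
  map φ := F.map (jmap Z ν φ)
  map_smul {X Y} φ a m := F.map_smul (jmap Z ν φ) a m
  map_id X m := by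
    rw [jmap_id]
    exact F.map_id _ m
  map_comp φ ψ m := by
    rw [jmap_comp]
    exact F.map_comp _ _ m
  map_act {X Y} φ w k c v h m := by
    have h1 := F.map_act (jmap Z ν φ) w k c v h m
    rw [jmap_dl] at h1
    rw [map_zero, zero_mul, zero_mul, zero_smul, sub_zero]
    refine h1.trans ?_
    have h2 : w ((1 : (Y.A.R)ˣ) : Y.A.R) = 0 := by
      rw [Units.val_one]
      exact Derivation.map_one_eq_zero w
    have h3 : (algebraMap ℂ Y.A.R s * ((1 : (Y.A.R)ˣ)⁻¹ : (Y.A.R)ˣ) *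
        w ((1 : (Y.A.R)ˣ) : Y.A.R)) • F.map (jmap Z ν φ) m = 0 := by
      rw [h2, mul_zero, zero_smul]
    exact (congrArg (_ - ·) h3).trans (sub_zero _)
  map_cen X φ h m := by
    obtain ⟨h1, ζ, hζ, hh⟩ := h
    apply F.map_cen
    have hc : IsCst ζ (cst Γ X.A.R (BGHom.h φ)) := IsCst.gm' hh (CA X.A.R)
    exact ⟨h1, ζ, hζ, hc, hc⟩

/-- The restriction to the trivial bundle. -/
def Jfun (Γ Z : Gps N) (ν : ℕ) [NeZero ν] (s : ℂ) : TDMod (Bun Γ Z ν) s ⥤ TDMod (BG Γ Z) 0 where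
  obj F := Jobj F
  map {F F'} f :=
    { app := fun X => TDMod.Hom.app f (triv Z ν X)
      act := fun X v m => TDMod.Hom.act f (triv Z ν X) v m
      nat := fun φ m => TDMod.Hom.nat f (jmap Z ν φ) m }
  map_id F := rfl
  map_comp f g := rfl

instance (Γ Z : Gps N) (ν : ℕ) [NeZero ν] (s : ℂ) : (Jfun Γ Z ν s).Additive where
  map_add {F F' f g} := by
    apply TDMod.hom_ext
    intro X m
    rfl

instance (Γ Z : Gps N) (ν : ℕ) [NeZero ν] (s : ℂ) : (Jfun Γ Z ν s).Linear ℂ where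
  map_smul f c := by
    apply TDMod.hom_ext
    intro X m
    rfl

theorem presCart_J (Γ Z : Gps N) (ν : ℕ) [NeZero ν] (s : ℂ) : PresCart (Jfun Γ Z ν s) where
  cart K hK X := by
    obtain ⟨P, hP, p, h1, h2, h3⟩ := hK (triv Z ν X)
    exact ⟨P, hP, p, h1, h2, fun Y φ i j k hi hj => h3 (triv Z ν Y) (jmap Z ν φ) i j k hi hj⟩
  qis K L u _ _ hu := fun X i j k hi hj => hu (triv Z ν X) i j k hi hj

end

end Vale.Agent.P286.Gen
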