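import Vale.Agent.P286.Gen.Grp

/-!
# The Lie algebra of `G` and the adjoint representation
-/

namespace Vale.Agent.P286.Gen

open Matrix

noncomputable section

set_option linter.unusedSectionVars false

attribute [local instance 100] LieRing.ofAssociativeRing LieAlgebra.ofAssociativeAlgebra

variable {N : ℕ} {A B D : Type} [CommRing A] [Algebra ℂ A] [CommRing B] [Algebra ℂ B]
  [CommRing D] [Algebra ℂ D]

theorem du_apply (x y : Matrix (Fin N) (Fin N) A) (i j : Fin N) :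
    du x y i j = TrivSqZeroExt.inl (x i j) + TrivSqZeroExt.inr (y i j) := rfl

theorem du_mul (x y x' y' : Matrix (Fin N) (Fin N) A) :
    du x y * du x' y' = du (x * x') (x * y' + y * x') := by
  ext i j
  · simp [Matrix.mul_apply, du_apply, TrivSqZeroExt.fst_sum]
  · simp [Matrix.mul_apply, du_apply, TrivSqZeroExt.snd_sum, Finset.sum_add_distrib, mul_comm]

/-- The coefficients of the differentials of the equations. -/
def dcf (x : Matrix (Fin N) (Fin N) A) (p : Fin N × Fin N) (P : Pl N) : A :=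
  ev x (MvPolynomial.pderiv p P)

theorem ev_du (x y : Matrix (Fin N) (Fin N) A) (P : Pl N) :
    ev (du x y) P = TrivSqZeroExt.inl (ev x P) +
      TrivSqZeroExt.inr (∑ p : Fin N × Fin N, y p.1 p.2 * dcf x p P) := by
  induction P using MvPolynomial.induction_on with
  | C a =>
    have h1 : ev (du x y) (MvPolynomial.C a) = algebraMap ℂ (DualNumber A) a := AlgHom.commutes _ _
    have h2 : ev x (MvPolynomial.C a) = algebraMap ℂ A a := AlgHom.commutes _ _
    rw [h1, h2]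
    have h3 : ∀ p : Fin N × Fin N, y p.1 p.2 * dcf x p (MvPolynomial.C a) = 0 := by
      intro p
      rw [dcf, MvPolynomial.pderiv_C, map_zero, mul_zero]
    rw [Finset.sum_eq_zero fun p _ => h3 p, TrivSqZeroExt.inr_zero, add_zero]
    rfl
  | add p q hp hq =>
    rw [map_add, map_add, hp, hq, TrivSqZeroExt.inl_add]
    have h3 : ∑ r : Fin N × Fin N, y r.1 r.2 * dcf x r (p + q) =
        ∑ r : Fin N × Fin N, y r.1 r.2 * dcf x r p + ∑ r : Fin N × Fin N, y r.1 r.2 * dcf x r q := by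
      rw [← Finset.sum_add_distrib]
      refine Finset.sum_congr rfl fun r _ => ?_
      rw [dcf, map_add, map_add, mul_add]
      rfl
    rw [h3, TrivSqZeroExt.inr_add]
    abel
  | mul_X p i hp =>
    have hX1 : ev (du x y) (MvPolynomial.X i) = du x y i.1 i.2 := MvPolynomial.aeval_X _ _
    have hX2 : ev x (MvPolynomial.X i) = x i.1 i.2 := MvPolynomial.aeval_X _ _
    have h3 : ∑ r : Fin N × Fin N, y r.1 r.2 * dcf x r (p * MvPolynomial.X i) =
        (∑ r : Fin N × Fin N, y r.1 r.2 * dcf x r p) * x i.1 i.2 + ev x p * y i.1 i.2 := by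
      have h4 : ∀ r : Fin N × Fin N, y r.1 r.2 * dcf x r (p * MvPolynomial.X i) =
          y r.1 r.2 * dcf x r p * x i.1 i.2 + (if r = i then ev x p * y r.1 r.2 else 0) := by
        intro r
        rw [dcf, Derivation.leibniz, smul_eq_mul, smul_eq_mul, map_add, map_mul, map_mul, hX2,
          MvPolynomial.pderiv_X]
        by_cases h : r = i
        · subst h
          rw [if_pos rfl, Pi.single_eq_same, map_one, dcf]
          ring
        · rw [if_neg h, Pi.single_eq_of_ne (Ne.symm h), map_zero, dcf]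
          ring
      rw [Finset.sum_congr rfl fun r _ => h4 r, Finset.sum_add_distrib, ← Finset.sum_mul,
        Finset.sum_ite_eq' Finset.univ i, if_pos (Finset.mem_univ i)]
    rw [map_mul, map_mul, hp, hX1, hX2, h3, du_apply]
    ext
    · simp
    · simp [mul_comm]

variable {Γ : Subgroup (SpecialLinearGroup (Fin N) ℂ)}

theorem dcf_one (A : Type) [CommRing A] [Algebra ℂ A] (p : Fin N × Fin N) (P : Pl N) :
    dcf (1 : Matrix (Fin N) (Fin N) A) p P = algebraMap ℂ A (dcf (1 : Matrix (Fin N) (Fin N) ℂ) p P) := by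
  have h2 : cm A (1 : Matrix (Fin N) (Fin N) ℂ) = 1 :=
    Matrix.map_one _ (map_zero _) (map_one _)
  rw [dcf, ← h2, ev_cm]
  rfl

theorem isLi_iff (Y : Matrix (Fin N) (Fin N) A) : IsLi Γ Y ↔ ∀ P ∈ van Γ,
    ∑ p : Fin N × Fin N, Y p.1 p.2 * algebraMap ℂ A (dcf (1 : Matrix (Fin N) (Fin N) ℂ) p P) = 0 := by
  unfold IsLi IsPt
  refine forall_congr' fun P => forall_congr' fun hP => ?_
  rw [ev_du, isPt_one P hP, TrivSqZeroExt.inl_zero, zero_add]
  constructor
  · intro h
    have := congrArg TrivSqZeroExt.snd h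
    rw [TrivSqZeroExt.snd_inr, TrivSqZeroExt.snd_zero] at this
    rw [← this]
    exact Finset.sum_congr rfl fun p _ => by rw [dcf_one A]
  · intro h
    have : ∑ p : Fin N × Fin N, Y p.1 p.2 * dcf 1 p P = 0 := by
      rw [← h]
      exact Finset.sum_congr rfl fun p _ => by rw [dcf_one A]
    rw [this, TrivSqZeroExt.inr_zero]

theorem IsLi.zero : IsLi Γ (0 : Matrix (Fin N) (Fin N) A) := by
  rw [isLi_iff]
  intro P _
  simp

theorem IsLi.add {X Y : Matrix (Fin N) (Fin N) A} (hX : IsLi Γ X) (hY : IsLi Γ Y) :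
    IsLi Γ (X + Y) := by
  rw [isLi_iff] at *
  intro P hP
  have h1 := hX P hP
  have h2 := hY P hP
  simp only [Matrix.add_apply, add_mul, Finset.sum_add_distrib, h1, h2, add_zero]

theorem IsLi.smul {X : Matrix (Fin N) (Fin N) A} (hX : IsLi Γ X) (a : A) : IsLi Γ (a • X) := by
  rw [isLi_iff] at *
  intro P hP
  have h1 := hX P hP
  simp only [Matrix.smul_apply, smul_eq_mul, mul_assoc, ← Finset.mul_sum, h1, mul_zero]

theorem IsLi.neg {X : Matrix (Fin N) (Fin N) A} (hX : IsLi Γ X) : IsLi Γ (-X) := by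
  have := hX.smul (-1)
  rwa [neg_smul, one_smul] at this

theorem IsLi.sub {X Y : Matrix (Fin N) (Fin N) A} (hX : IsLi Γ X) (hY : IsLi Γ Y) :
    IsLi Γ (X - Y) := by
  rw [sub_eq_add_neg]
  exact hX.add hY.neg

theorem IsLi.sum {ι : Type*} (s : Finset ι) {X : ι → Matrix (Fin N) (Fin N) A}
    (h : ∀ i ∈ s, IsLi Γ (X i)) : IsLi Γ (∑ i ∈ s, X i) := by
  classical
  induction s using Finset.induction_on with
  | empty => rw [Finset.sum_empty]; exact IsLi.zero
  | insert a s ha ih =>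
    rw [Finset.sum_insert ha]
    exact (h a (Finset.mem_insert_self _ _)).add (ih fun i hi => h i (Finset.mem_insert_of_mem hi))

/-- The inclusion `A → A[ε]`. -/
def inlA (A : Type) [CommRing A] [Algebra ℂ A] : A →ₐ[ℂ] DualNumber A :=
  { (TrivSqZeroExt.inlHom A A : A →+* DualNumber A) with
    commutes' := fun c => by rfl }

theorem map_inlA (x : Matrix (Fin N) (Fin N) A) : x.map (inlA A) = du x 0 := by
  ext i j
  · simp [du_apply, inlA]
  · simp [du_apply, inlA]

theorem IsPt.du {x : Matrix (Fin N) (Fin N) A} (h : IsPt Γ x) : IsPt Γ (du x 0) := by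
  rw [← map_inlA]
  exact h.map _

theorem IsPt.mul_adj {x : Matrix (Fin N) (Fin N) A} (h : IsPt Γ x) : x * x.adjugate = 1 := by
  rw [Matrix.mul_adjugate, h.det, one_smul]

theorem IsPt.adj_mul {x : Matrix (Fin N) (Fin N) A} (h : IsPt Γ x) : x.adjugate * x = 1 := by
  rw [Matrix.adjugate_mul, h.det, one_smul]

theorem IsLi.conj {x Y : Matrix (Fin N) (Fin N) A} (hx : IsPt Γ x) (hY : IsLi Γ Y) :
    IsLi Γ (x * Y * x.adjugate) := by
  have h := (hx.du.mul hY).mul hx.adjugate.du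
  unfold IsLi
  rw [du_mul, du_mul, Matrix.mul_one, Matrix.zero_mul, add_zero, Matrix.mul_zero, zero_add,
    hx.mul_adj] at h
  exact h

/-- The homomorphism `a ↦ a + ε v(a)` defined by a derivation `v`. -/
def derA (v : Derivation ℂ A A) : A →ₐ[ℂ] DualNumber A where
  toFun a := TrivSqZeroExt.inl a + TrivSqZeroExt.inr (v a)
  map_one' := by
    rw [Derivation.map_one_eq_zero, TrivSqZeroExt.inr_zero, add_zero, TrivSqZeroExt.inl_one]
  map_mul' a b := by
    ext
    · simp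
    · simp [Derivation.leibniz, mul_comm]
  map_zero' := by simp
  map_add' a b := by
    ext
    · simp
    · simp
  commutes' c := by
    rw [Derivation.map_algebraMap, TrivSqZeroExt.inr_zero, add_zero]
    rfl

theorem map_derA (v : Derivation ℂ A A) (x : Matrix (Fin N) (Fin N) A) :
    x.map (derA v) = du x (x.map v) := rfl

/-- The logarithmic derivative of a point. -/
theorem IsPt.dlog {x : Matrix (Fin N) (Fin N) A} (h : IsPt Γ x) (v : Derivation ℂ A A) :
    IsLi Γ (x.map v * x.adjugate) := by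
  have h1 := (h.map (derA v)).mul h.adjugate.du
  rw [map_derA, du_mul, Matrix.mul_zero, zero_add, h.mul_adj] at h1
  exact h1

theorem IsLi.of_dual {X Y : Matrix (Fin N) (Fin N) A} (h : IsLi Γ (du X Y)) : IsLi Γ Y := by
  rw [isLi_iff] at *
  intro P hP
  have h1 := congrArg TrivSqZeroExt.snd (h P hP)
  rw [TrivSqZeroExt.snd_zero, TrivSqZeroExt.snd_sum] at h1
  rw [← h1]
  refine Finset.sum_congr rfl fun p _ => ?_
  have h2 : algebraMap ℂ (DualNumber A) (dcf (1 : Matrix (Fin N) (Fin N) ℂ) p P) =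
    TrivSqZeroExt.inl (algebraMap ℂ A (dcf (1 : Matrix (Fin N) (Fin N) ℂ) p P)) := rfl
  rw [du_apply, h2]
  simp [mul_comm]

theorem adj_du_one (X : Matrix (Fin N) (Fin N) A) (h : IsLi Γ X) :
    (du 1 X).adjugate = du 1 (-X) := by
  have h1 : du 1 X * du 1 (-X) = 1 := by
    rw [du_mul, Matrix.one_mul, Matrix.mul_one, Matrix.one_mul, neg_add_cancel]
    ext i j
    · rw [du_apply, Matrix.one_apply, Matrix.one_apply]; split_ifs <;> simp
    · rw [du_apply, Matrix.one_apply, Matrix.one_apply]; split_ifs <;> simp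
  have h2 := IsPt.adj_mul h
  calc (du 1 X).adjugate = (du 1 X).adjugate * (du 1 X * du 1 (-X)) := by rw [h1, Matrix.mul_one]
    _ = du 1 (-X) := by rw [← Matrix.mul_assoc, h2, Matrix.one_mul]

theorem IsLi.map {X : Matrix (Fin N) (Fin N) A} (hX : IsLi Γ X) (f : A →ₐ[ℂ] B) :
    IsLi Γ (X.map f) := by
  rw [isLi_iff] at *
  intro P hP
  have h1 := congrArg f (hX P hP)
  rw [map_sum, map_zero] at h1
  rw [← h1]
  refine Finset.sum_congr rfl fun p _ => ?_
  rw [map_mul, AlgHom.commutes]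
  rfl

theorem IsLi.of_injective {X : Matrix (Fin N) (Fin N) A} (f : A →ₐ[ℂ] B)
    (hf : Function.Injective f) (h : IsLi Γ (X.map f)) : IsLi Γ X := by
  rw [isLi_iff] at *
  intro P hP
  apply hf
  rw [map_sum, map_zero, ← h P hP]
  refine Finset.sum_congr rfl fun p _ => ?_
  rw [map_mul, AlgHom.commutes]
  rfl

theorem IsLi.lie {X Y : Matrix (Fin N) (Fin N) A} (hX : IsLi Γ X) (hY : IsLi Γ Y) :
    IsLi Γ (X * Y - Y * X) := by
  have h1 : IsLi Γ (du Y 0) := by
    rw [← map_inlA]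
    exact hY.map _
  have h2 := IsLi.conj (Γ := Γ) (x := du 1 X) (Y := du Y 0) hX h1
  rw [adj_du_one X hX, du_mul, du_mul] at h2
  have := h2.of_dual
  simp only [Matrix.mul_neg, Matrix.one_mul, Matrix.mul_one, Matrix.mul_zero] at this
  convert this using 1
  abel

/-- The Lie algebra of `G`: the matrices `X` with `1 + ε X ∈ G(ℂ[ε])`. -/
def lieAlg' (Γ : Subgroup (SpecialLinearGroup (Fin N) ℂ)) :
    LieSubalgebra ℂ (Matrix (Fin N) (Fin N) ℂ) where
  carrier := {X | ∀ P ∈ van Γ, ev (du 1 X) P = 0}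
  add_mem' {X Y} hX hY := IsLi.add (Γ := Γ) hX hY
  zero_mem' := IsLi.zero (Γ := Γ)
  smul_mem' c X hX := IsLi.smul (Γ := Γ) hX c
  lie_mem' {X Y} hX hY := IsLi.lie (Γ := Γ) hX hY

theorem mem_lieAlg (X : Matrix (Fin N) (Fin N) ℂ) : X ∈ lieAlg Γ ↔ IsLi Γ X := by
  constructor
  · intro h
    have h2 : lieAlg Γ ≤ lieAlg' Γ := LieSubalgebra.lieSpan_le.2 fun Y hY => hY
    exact h2 h
  · intro h
    exact LieSubalgebra.subset_lieSpan h

/-- There is a basis with coordinates. -/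
theorem exists_isBs (Γ : Gps N) : ∃ b : (Fin (dm Γ) → Mt N ℂ) × (Fin (dm Γ) → Mt N ℂ),
    IsBs Γ b.1 b.2 := by
  let v : Module.Basis (Fin (dm Γ)) ℂ (lieAlg Γ) := Module.finBasis ℂ (lieAlg Γ)
  obtain ⟨r, hr⟩ := (lieAlg Γ).toSubmodule.subtype.exists_leftInverse_of_injective
    (Submodule.ker_subtype _)
  refine ⟨⟨fun i => v i, fun i => Matrix.of fun p q =>
    v.repr (r (Matrix.single q p 1)) i⟩, fun i => ⟨(mem_lieAlg _).1 (v i).2, fun j => ?_⟩⟩
  have h : ((v j : lieAlg Γ) : Matrix (Fin N) (Fin N) ℂ) = ∑ p : Fin N × Fin N,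
      ((v j : lieAlg Γ) : Matrix (Fin N) (Fin N) ℂ) p.1 p.2 • Matrix.single p.1 p.2 (1 : ℂ) := by
    conv_lhs => rw [Matrix.matrix_eq_sum_single ((v j : lieAlg Γ) : Matrix (Fin N) (Fin N) ℂ)]
    rw [Fintype.sum_prod_type]
    refine Finset.sum_congr rfl fun a _ => Finset.sum_congr rfl fun b _ => ?_
    rw [Matrix.smul_single, smul_eq_mul, mul_one]
  have h2 : v.repr (r ((v j : lieAlg Γ) : Matrix (Fin N) (Fin N) ℂ)) i = if i = j then 1 else 0 := by
    have h3 : r ((v j : lieAlg Γ) : Matrix (Fin N) (Fin N) ℂ) = v j := LinearMap.congr_fun hr (v j)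
    rw [h3, Module.Basis.repr_self, Finsupp.single_apply]
    simp only [eq_comm]
  rw [← h2]
  conv_rhs => rw [h]
  rw [map_sum, map_sum, Finsupp.finsetSum_apply, Matrix.trace, Fintype.sum_prod_type_right]
  refine Finset.sum_congr rfl fun p _ => ?_
  rw [Matrix.diag_apply, Matrix.mul_apply]
  refine Finset.sum_congr rfl fun q _ => ?_
  rw [map_smul, map_smul, Finsupp.smul_apply, smul_eq_mul, mul_comm]
  rfl

theorem isBs_bsc (Γ : Gps N) : IsBs Γ (bsc Γ).1 (bsc Γ).2 :=
  Classical.epsilon_spec (p := fun b : (Fin (dm Γ) → Mt N ℂ) × (Fin (dm Γ) → Mt N ℂ) =>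
    IsBs Γ b.1 b.2) (exists_isBs Γ)

/-- The coefficients of the coordinates on the Lie algebra. -/
def ccf (Γ : Subgroup (SpecialLinearGroup (Fin N) ℂ)) (i : Fin (dm Γ)) (p : Fin N × Fin N) : ℂ :=
  (bsc Γ).2 i p.2 p.1

/-- The coordinates of an element of `𝔤 ⊗ A`. -/
def coG (Γ : Subgroup (SpecialLinearGroup (Fin N) ℂ)) (Y : Matrix (Fin N) (Fin N) A) :
    Fin (dm Γ) → A :=
  fun i => ∑ p : Fin N × Fin N, Y p.1 p.2 * algebraMap ℂ A (ccf Γ i p)

theorem coG_eq_trace (Y : Matrix (Fin N) (Fin N) A) (i : Fin (dm Γ)) :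
    coG Γ Y i = Matrix.trace (cm A ((bsc Γ).2 i) * Y) := by
  rw [coG, Matrix.trace, Fintype.sum_prod_type_right]
  refine Finset.sum_congr rfl fun p _ => ?_
  rw [Matrix.diag_apply, Matrix.mul_apply]
  refine Finset.sum_congr rfl fun q _ => ?_
  rw [mul_comm]
  rfl

theorem cm_complex (Y : Matrix (Fin N) (Fin N) ℂ) : cm ℂ Y = Y := by
  ext i j
  rfl

/-- The `i`-th element of the basis. -/
def bv (Γ : Gps N) (i : Fin (dm Γ)) : lieAlg Γ := ⟨(bsc Γ).1 i, (mem_lieAlg _).2 (isBs_bsc Γ i).1⟩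

/-- The `i`-th coordinate. -/
def cv (Γ : Gps N) (i : Fin (dm Γ)) : lieAlg Γ →ₗ[ℂ] ℂ where
  toFun X := Matrix.trace ((bsc Γ).2 i * (X : Matrix (Fin N) (Fin N) ℂ))
  map_add' X Y := by
    rw [← Matrix.trace_add, ← Matrix.mul_add]
    rfl
  map_smul' c X := by
    have h : ((c • X : lieAlg Γ) : Matrix (Fin N) (Fin N) ℂ) =
      c • (X : Matrix (Fin N) (Fin N) ℂ) := rfl
    rw [h, Matrix.mul_smul, Matrix.trace_smul]
    rfl

theorem cv_bv (i j : Fin (dm Γ)) : cv Γ i (bv Γ j) = if i = j then 1 else 0 :=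
  (isBs_bsc Γ i).2 j

theorem linearIndependent_bv (Γ : Gps N) : LinearIndependent ℂ (bv Γ) := by
  rw [Fintype.linearIndependent_iff]
  intro a h i
  have h2 := congrArg (cv Γ i) h
  rw [map_sum, map_zero] at h2
  simp only [map_smul, cv_bv, smul_eq_mul, mul_ite, mul_one, mul_zero, Finset.sum_ite_eq,
    Finset.mem_univ, if_true] at h2
  exact h2

/-- A basis of the Lie algebra. -/
def bs (Γ : Subgroup (SpecialLinearGroup (Fin N) ℂ)) : Module.Basis (Fin (dm Γ)) ℂ (lieAlg Γ) :=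
  Module.Basis.mk (linearIndependent_bv Γ)
    ((linearIndependent_bv Γ).span_eq_top_of_card_eq_finrank' (Fintype.card_fin _)).ge

theorem bs_val (i : Fin (dm Γ)) : (bs Γ i : Matrix (Fin N) (Fin N) ℂ) = (bsc Γ).1 i := by
  rw [bs, Module.Basis.mk_apply]
  rfl

theorem isLi_bs (i : Fin (dm Γ)) : IsLi Γ (bs Γ i : Matrix (Fin N) (Fin N) ℂ) :=
  (mem_lieAlg _).1 (bs Γ i).2

/-- The element of `𝔤 ⊗ A` with given coordinates. -/
def toG (Γ : Subgroup (SpecialLinearGroup (Fin N) ℂ)) (v : Fin (dm Γ) → A) :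
    Matrix (Fin N) (Fin N) A :=
  ∑ i, v i • cm A (bs Γ i : Matrix (Fin N) (Fin N) ℂ)

theorem toG_apply (v : Fin (dm Γ) → A) (i j : Fin N) : toG Γ v i j =
    ∑ k, v k * algebraMap ℂ A ((bs Γ k : Matrix (Fin N) (Fin N) ℂ) i j) := by
  rw [toG, Matrix.sum_apply]
  rfl

theorem coG_complex (X : lieAlg Γ) (i : Fin (dm Γ)) :
    coG Γ (X : Matrix (Fin N) (Fin N) ℂ) i = (bs Γ).repr X i := by
  have h1 : coG Γ (X : Matrix (Fin N) (Fin N) ℂ) i = cv Γ i X := by
    rw [coG_eq_trace, cm_complex]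
    rfl
  rw [h1]
  have h2 : cv Γ i = (bs Γ).coord i := by
    apply (bs Γ).ext
    intro j
    have h3 : bs Γ j = bv Γ j := by
      rw [bs, Module.Basis.mk_apply]
    rw [Module.Basis.coord_apply, Module.Basis.repr_self, Finsupp.single_apply, h3, cv_bv]
    simp only [eq_comm]
  rw [h2]
  rfl

theorem toG_coG_complex {Y : Matrix (Fin N) (Fin N) ℂ} (h : IsLi Γ Y) : toG Γ (coG Γ Y) = Y := by
  have h1 := (bs Γ).sum_repr (⟨Y, (mem_lieAlg _).2 h⟩ : lieAlg Γ)
  have h2 := congrArg (fun Z : lieAlg Γ => (Z : Matrix (Fin N) (Fin N) ℂ)) h1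
  refine Eq.trans ?_ h2
  have h4 : ∀ i, coG Γ Y i = (bs Γ).repr (⟨Y, (mem_lieAlg _).2 h⟩ : lieAlg Γ) i :=
    fun i => coG_complex ⟨Y, (mem_lieAlg _).2 h⟩ i
  ext i j
  rw [toG_apply]
  simp only [h4]
  rw [AddSubmonoidClass.coe_finsetSum, Matrix.sum_apply]
  rfl

theorem toG_coG {Y : Matrix (Fin N) (Fin N) A} (h : IsLi Γ Y) : toG Γ (coG Γ Y) = Y := by
  let b := Module.Basis.ofVectorSpace ℂ A
  have key : ∀ (φ : A →ₗ[ℂ] ℂ) (a : A) (c : ℂ), φ (a * algebraMap ℂ A c) = φ a * c := by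
    intro φ a c
    rw [mul_comm, ← Algebra.smul_def, map_smul, smul_eq_mul, mul_comm]
  ext i j
  apply b.ext_elem
  intro β
  change b.coord β _ = b.coord β _
  have h1 : IsLi Γ (Y.map (b.coord β)) := by
    rw [isLi_iff] at h ⊢
    intro P hP
    have h2 := congrArg (b.coord β) (h P hP)
    rw [map_sum, map_zero] at h2
    rw [← h2]
    refine Finset.sum_congr rfl fun p _ => ?_
    rw [key]
    rfl
  have h2 := congrFun (congrFun (toG_coG_complex h1) i) j
  rw [Matrix.map_apply] at h2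
  rw [← h2, toG_apply, toG_apply, map_sum]
  refine Finset.sum_congr rfl fun k _ => ?_
  rw [key]
  congr 1
  rw [coG, coG, map_sum]
  refine Finset.sum_congr rfl fun p _ => ?_
  rw [key]
  rfl

theorem isLi_cm {X : Matrix (Fin N) (Fin N) ℂ} (h : IsLi Γ X) : IsLi Γ (cm A X) :=
  h.map (Algebra.ofId ℂ A)

theorem isLi_toG (v : Fin (dm Γ) → A) : IsLi Γ (toG Γ v) :=
  IsLi.sum _ fun i _ => (isLi_cm (isLi_bs i)).smul (v i)

theorem coG_add (X Y : Matrix (Fin N) (Fin N) A) : coG Γ (X + Y) = coG Γ X + coG Γ Y := by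
  ext i
  simp only [coG, Matrix.add_apply, add_mul, Finset.sum_add_distrib, Pi.add_apply]

theorem coG_smul (a : A) (X : Matrix (Fin N) (Fin N) A) : coG Γ (a • X) = a • coG Γ X := by
  ext i
  simp only [coG, Matrix.smul_apply, smul_eq_mul, mul_assoc, Finset.mul_sum, Pi.smul_apply]

theorem coG_zero : coG Γ (0 : Matrix (Fin N) (Fin N) A) = 0 := by
  ext i
  simp [coG]

theorem coG_sum {ι : Type*} (s : Finset ι) (X : ι → Matrix (Fin N) (Fin N) A) :
    coG Γ (∑ i ∈ s, X i) = ∑ i ∈ s, coG Γ (X i) := by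
  classical
  induction s using Finset.induction_on with
  | empty => rw [Finset.sum_empty, Finset.sum_empty, coG_zero]
  | insert a s ha ih => rw [Finset.sum_insert ha, Finset.sum_insert ha, coG_add, ih]

theorem coG_map (f : A →ₐ[ℂ] B) (Y : Matrix (Fin N) (Fin N) A) (i : Fin (dm Γ)) :
    coG Γ (Y.map f) i = f (coG Γ Y i) := by
  rw [coG, coG, map_sum]
  refine Finset.sum_congr rfl fun p _ => ?_
  rw [map_mul, AlgHom.commutes]
  rfl

theorem toG_map (f : A →ₐ[ℂ] B) (v : Fin (dm Γ) → A) :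
    toG Γ (fun i => f (v i)) = (toG Γ v).map f := by
  ext i j
  rw [Matrix.map_apply, toG_apply, toG_apply, map_sum]
  refine Finset.sum_congr rfl fun k _ => ?_
  rw [map_mul, AlgHom.commutes]

theorem coG_cm (i j : Fin (dm Γ)) :
    coG Γ (cm A (bs Γ i : Matrix (Fin N) (Fin N) ℂ)) j = if i = j then 1 else 0 := by
  have h := coG_map (Γ := Γ) (Algebra.ofId ℂ A) (bs Γ i : Matrix (Fin N) (Fin N) ℂ) j
  refine h.trans ?_
  rw [coG_complex, Module.Basis.repr_self, Finsupp.single_apply]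
  split_ifs
  · exact map_one _
  · exact map_zero _

theorem coG_toG (v : Fin (dm Γ) → A) : coG Γ (toG Γ v) = v := by
  ext j
  rw [toG, coG_sum, Finset.sum_apply]
  simp only [coG_smul, Pi.smul_apply, coG_cm, smul_eq_mul, mul_ite, mul_one, mul_zero]
  rw [Finset.sum_ite_eq' Finset.univ j, if_pos (Finset.mem_univ j)]

theorem toG_injective : Function.Injective (toG Γ : (Fin (dm Γ) → A) → _) := fun v w h => by
  rw [← coG_toG (Γ := Γ) v, h, coG_toG]

theorem Adm_apply (x : Matrix (Fin N) (Fin N) A) (i j : Fin (dm Γ)) : Adm Γ x i j =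
    coG Γ (x * cm A (bs Γ j : Matrix (Fin N) (Fin N) ℂ) * x.adjugate) i := by
  rw [coG_eq_trace, bs_val]
  rfl

theorem cm_map (f : A →ₐ[ℂ] B) (X : Matrix (Fin N) (Fin N) ℂ) : (cm A X).map f = cm B X := by
  ext i j
  exact f.commutes _

theorem Adm_map (f : A →ₐ[ℂ] B) (x : Matrix (Fin N) (Fin N) A) :
    Adm Γ (x.map f) = (Adm Γ x).map f := by
  ext i j
  rw [Matrix.map_apply, Adm_apply, Adm_apply, ← coG_map, Matrix.map_mul,
    Matrix.map_mul, cm_map]
  have h := AlgHom.map_adjugate f x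
  rw [AlgHom.mapMatrix_apply, AlgHom.mapMatrix_apply] at h
  rw [h]

theorem toG_Adm {x : Matrix (Fin N) (Fin N) A} (hx : IsPt Γ x) (v : Fin (dm Γ) → A) :
    toG Γ (Adm Γ x *ᵥ v) = x * toG Γ v * x.adjugate := by
  have h1 : ∀ j, toG Γ (fun i => Adm Γ x i j) =
      x * cm A (bs Γ j : Matrix (Fin N) (Fin N) ℂ) * x.adjugate := fun j =>
    (congrArg (toG Γ) (funext fun i => Adm_apply x i j)).trans
      (toG_coG (IsLi.conj hx (isLi_cm (isLi_bs j))))
  have h2 : toG Γ (Adm Γ x *ᵥ v) = ∑ j, v j • toG Γ (fun i => Adm Γ x i j) := by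
    ext a b
    rw [toG_apply, Matrix.sum_apply]
    simp only [Matrix.smul_apply, toG_apply, Matrix.mulVec, dotProduct, Finset.sum_mul,
      Finset.mul_sum, smul_eq_mul]
    rw [Finset.sum_comm]
    refine Finset.sum_congr rfl fun j _ => Finset.sum_congr rfl fun i _ => by ring
  rw [h2]
  simp only [h1]
  rw [toG, Finset.mul_sum, Finset.sum_mul]
  refine Finset.sum_congr rfl fun j _ => ?_
  rw [Matrix.mul_smul, Matrix.smul_mul]

theorem Adm_one : Adm Γ (1 : Matrix (Fin N) (Fin N) A) = 1 := by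
  ext i j
  rw [Adm_apply, Matrix.adjugate_one, Matrix.one_mul, Matrix.mul_one, coG_cm,
    Matrix.one_apply]
  simp only [eq_comm]

theorem Adm_mul {x y : Matrix (Fin N) (Fin N) A} (hx : IsPt Γ x) (hy : IsPt Γ y) :
    Adm Γ (x * y) = Adm Γ x * Adm Γ y := by
  have h : ∀ v, (Adm Γ (x * y)) *ᵥ v = (Adm Γ x * Adm Γ y) *ᵥ v := by
    intro v
    apply toG_injective (Γ := Γ)
    rw [toG_Adm (hx.mul hy), ← Matrix.mulVec_mulVec, toG_Adm hx, toG_Adm hy,
      Matrix.adjugate_mul_distrib]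
    simp only [Matrix.mul_assoc]
  exact Matrix.ext_of_mulVec_single fun j => h _

end

end Vale.Agent.P286.Gen
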