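import Vale.Agent.P286.Gen.ObjD

/-!
# Loop groups and Toeplitz operators

`z = t ^ m` is the coordinate on `ℙ¹`, and `t` is the coordinate on a cover of `ℙ¹`.
-/

namespace Vale.Agent.P286.Gen

open Matrix LaurentPolynomial

noncomputable section

variable {A B : Type} [CommRing A] [Algebra ℂ A] [CommRing B] [Algebra ℂ B]

/-- The unit `t ^ k`. -/
def tU (A : Type) [CommRing A] (k : ℤ) : (A[T;T⁻¹])ˣ :=
  ⟨T k, T (-k), by rw [← T_add, add_neg_cancel, T_zero], by rw [← T_add, neg_add_cancel, T_zero]⟩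

/-- The homomorphism `A[t,t⁻¹] → B` which extends a homomorphism `A → B` and maps `t` to `u`. -/
def evT (f : A →ₐ[ℂ] B) (u : Bˣ) : A[T;T⁻¹] →ₐ[ℂ] B :=
  { LaurentPolynomial.eval₂ (f : A →+* B) u with
    commutes' := fun c => by
      change LaurentPolynomial.eval₂ (f : A →+* B) u (LaurentPolynomial.C (algebraMap ℂ A c)) = _
      rw [LaurentPolynomial.eval₂_C]
      exact f.commutes c }

/-- The constants. -/
def cA (A : Type) [CommRing A] [Algebra ℂ A] : A →ₐ[ℂ] A[T;T⁻¹] :=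
  { (LaurentPolynomial.C : A →+* A[T;T⁻¹]) with
    commutes' := fun _ => rfl }

/-- The root of unity `exp (2πi/m)`. -/
def om (m : ℕ) : ℂˣ := Units.mk0 (Complex.exp (2 * Real.pi * Complex.I / m)) (Complex.exp_ne_zero _)

/-- The substitution `t ↦ ω t`, `ω = exp (2πi/m)`. -/
def rot (m : ℕ) (A : Type) [CommRing A] [Algebra ℂ A] : A[T;T⁻¹] →ₐ[ℂ] A[T;T⁻¹] :=
  evT (cA A) (Units.map (algebraMap ℂ A[T;T⁻¹] : ℂ →* A[T;T⁻¹]) (om m) * tU A 1)

/-- The part `∑ u_{m k} z ^ k` of a Laurent polynomial `∑ u_k t ^ k`. -/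
def ct (m : ℕ) [NeZero m] (u : A[T;T⁻¹]) : A[T;T⁻¹] :=
  AddMonoidAlgebra.ofCoeff (u.coeff.comapDomain (fun k : ℤ => (m : ℤ) * k)
    (fun x _ y _ h => mul_left_cancel₀ (by exact_mod_cast NeZero.ne m) h))

section Vec

variable {d : ℕ} {A : Type} [CommRing A]

/-- The isomorphism of free modules of `ℕ × Fin d →₀ A` onto `A[z⁻¹]^d`, `(l, p) ↦ z^{-l} e_p`,
followed by the inclusion into `A[z,z⁻¹]^d`. -/
def toV (d : ℕ) (A : Type) [CommRing A] : (ℕ × Fin d →₀ A) →ₗ[A] (Fin d → A[T;T⁻¹]) :=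
  Finsupp.linearCombination A fun i : ℕ × Fin d => Pi.single i.2 (T (-(i.1 : ℤ)))

/-- The part of nonpositive degree of an element of `A[z,z⁻¹]^d`; see `vpart_apply`. -/
def vpartFun (d : ℕ) (A : Type) [CommRing A] (v : Fin d → A[T;T⁻¹]) : ℕ × Fin d →₀ A :=
  ∑ p : Fin d, ((v p).coeff.comapDomain (fun l : ℕ => -(l : ℤ))
      (fun x _ y _ h => by simpa using h)).mapDomain (fun l : ℕ => ((l, p) : ℕ × Fin d))

theorem vpartFun_apply (v : Fin d → A[T;T⁻¹]) (i : ℕ × Fin d) :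
    vpartFun d A v i = (v i.2).coeff (-(i.1 : ℤ)) := by
  classical
  obtain ⟨l, p⟩ := i
  have key : ∀ p' : Fin d, (((v p').coeff.comapDomain (fun l : ℕ => -(l : ℤ))
      (fun x _ y _ h => by simpa using h)).mapDomain (fun l : ℕ => ((l, p') : ℕ × Fin d))) (l, p)
      = if p' = p then (v p).coeff (-(l : ℤ)) else 0 := by
    intro p'
    split_ifs with h
    · subst h
      rw [Finsupp.mapDomain_apply (fun a b h => by simpa using h)]
      rfl
    · apply Finsupp.mapDomain_of_notMem_range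
      rintro ⟨l', h'⟩
      simp only [Prod.mk.injEq] at h'
      exact h h'.2
  simp only [vpartFun, Finsupp.coe_finsetSum, Finset.sum_apply, key]
  rw [Finset.sum_eq_single p]
  · simp
  · intro b _ hb; simp [hb]
  · simp

/-- The part of nonpositive degree of an element of `A[z,z⁻¹]^d`, as an element of
`A[z⁻¹]^d`. -/
def vpart (d : ℕ) (A : Type) [CommRing A] :
    (Fin d → A[T;T⁻¹]) →ₗ[A] (ℕ × Fin d →₀ A) where
  toFun := vpartFun d A
  map_add' M N := by ext i; simp [vpartFun_apply]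
  map_smul' a M := by ext i; simp [vpartFun_apply]

theorem vpart_apply (v : Fin d → A[T;T⁻¹]) (i : ℕ × Fin d) :
    vpart d A v i = (v i.2).coeff (-(i.1 : ℤ)) := vpartFun_apply v i

/-- The Toeplitz operator `v ↦ (h v)_{≤ 0}` on `A[z⁻¹]^d`. -/
def vtoep (h : Matrix (Fin d) (Fin d) A[T;T⁻¹]) : Module.End A (ℕ × Fin d →₀ A) :=
  (vpart d A).comp (((Matrix.mulVecLin h).restrictScalars A).comp (toV d A))

end Vec

end

end Vale.Agent.P286.Gen
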