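import Vale.Agent.P286.Gen.Defs
import Vale.Agent.P286.H527.Theta

/-!
# The theta function and the open locus of trivial bundles
-/

namespace Vale.Agent.P286.Gen

open CategoryTheory LaurentPolynomial

noncomputable section

set_option linter.unusedSectionVars false

variable {N : ℕ} {Γ Z : Gps N} {ν : ℕ} [NeZero ν]

/-- `θ(g, S) = fdet (toep ν g * S⁻¹)` -/
def theta (ν : ℕ) [NeZero ν] {A : Type} [CommRing A] [Algebra ℂ A] (g : Gr Γ A[T;T⁻¹]) (S : OprU Γ A) : A :=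
  fdet (toep ν g * ((S⁻¹ : OprU Γ A) : Opr Γ A))

theorem theta_finRank {A : Type} [CommRing A] [Algebra ℂ A] {g : Gr Γ A[T;T⁻¹]}
    {S : OprU Γ A} (h : IsFraming ν g S) :
    FinRank (toep ν g * ((S⁻¹ : OprU Γ A) : Opr Γ A) - 1) := by
  have e : toep ν g * ((S⁻¹ : OprU Γ A) : Opr Γ A) - 1 =
      (-((S : Opr Γ A) - toep ν g)) *
        ((S⁻¹ : OprU Γ A) : Opr Γ A) := by
    have := Units.mul_inv S
    exact ring_aux₄ (toep ν g) (S : Opr Γ A) _ this
  rw [e]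
  exact h.neg.mul_right _

theorem theta_transport {A B : Type} [CommRing A] [Algebra ℂ A] [CommRing B] [Algebra ℂ B] (f : A →ₐ[ℂ] B)
    {a b : Gr Γ (Polynomial B)} {g : Gr Γ A[T;T⁻¹]} {g' : Gr Γ B[T;T⁻¹]}
    (e : g' * neg ν Γ B b = pos ν Γ B a * gm (lmA f) g)
    {S : OprU Γ A} {S' : OprU Γ B}
    (h : IsFraming ν g S) (h' : IsFraming ν g' S') :
    theta ν g' S' = fdet ((transport f a b S * S'⁻¹ : OprU Γ B) :
      Opr Γ B) * f (theta ν g S) := by
  have e1 : g' = pos ν Γ B a * (gm (lmA f) g * neg ν Γ B b⁻¹) := by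
    rw [← mul_assoc, ← e, mul_assoc, ← map_mul, mul_inv_cancel, map_one, mul_one]
  have e2 : toep ν g' * ((S'⁻¹ : OprU Γ B) : Opr Γ B) =
      ((toepPos Γ B a : Opr Γ B) *
        bc (f : A →+* B) (toep ν g * ((S⁻¹ : OprU Γ A) : Opr Γ A)) *
        (((toepPos Γ B a)⁻¹ : OprU Γ B) : Opr Γ B)) *
      ((transport f a b S * S'⁻¹ : OprU Γ B) : Opr Γ B) := by
    rw [e1, toep_pos_mul, toep_mul_neg, ← bc_toep, bc_mul]
    have h1 : bc (f : A →+* B) ((S⁻¹ : OprU Γ A) : Opr Γ A) *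
        bc (f : A →+* B) (S : Opr Γ A) = 1 := by
      rw [← bc_mul, Units.inv_mul, bc_one]
    have h3 : ((transport f a b S * S'⁻¹ : OprU Γ B) :
        Opr Γ B) = toep ν (pos ν Γ B a) * bc (f : A →+* B) (S : Opr Γ A) *
          toep ν (neg ν Γ B b⁻¹) * ((S'⁻¹ : OprU Γ B) :
            Opr Γ B) := by
      rw [transport, ← map_inv, ← toepPos_val, ← toepNeg_val]
      rfl
    rw [h3]
    rw [← toepPos_val (m := ν) a]
    exact ring_aux₅ (toepPos Γ B a : Opr Γ B) _ (toep ν (neg ν Γ B b⁻¹)) (bc (f : A →+* B) (toep ν g))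
      (bc (f : A →+* B) (S : Opr Γ A)) _ _ (Units.inv_mul (toepPos Γ B a)) h1
  have hb := FinRank.bc_sub_one (f : A →+* B) (theta_finRank h)
  have hc : FinRank (((toepPos Γ B a : Opr Γ B) *
        bc (f : A →+* B) (toep ν g * ((S⁻¹ : OprU Γ A) : Opr Γ A)) *
        (((toepPos Γ B a)⁻¹ : OprU Γ B) : Opr Γ B)) - 1) := by
    rw [ring_aux₃ (toepPos Γ B a : Opr Γ B)
        (((toepPos Γ B a)⁻¹ : OprU Γ B) : Opr Γ B)
        (bc (f : A →+* B) (toep ν g * ((S⁻¹ : OprU Γ A) : Opr Γ A)))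
        (Units.mul_inv (toepPos Γ B a))]
    exact (hb.mul_left _).mul_right _
  unfold theta
  rw [e2, fdet_mul hc ((h.transport f e).div h'), fdet_conj _ hb, fdet_bc (f : A →+* B) (theta_finRank h),
    mul_comm]
  rfl

namespace BunObj

/-- the theta function of a test object -/
def th (X : BunObj Γ Z ν) : X.A.R := theta ν X.g X.S

theorem th_map {X Y : BunObj Γ Z ν} (φ : BunHom X Y) :
    Y.th = (φ.dl : Y.A.R) * φ.f X.th :=
  theta_transport φ.f φ.eq X.framing Y.framing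

end BunObj

end

end Vale.Agent.P286.Gen
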