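import Vale.Agent.P286.Gen.Eps
import Vale.Agent.P286.Gen.Split
import Vale.Agent.P286.H527.Test
import Vale.Agent.P286.H527.Eps1

/-!
# Split test objects over the points of the locus `θ = 0`, and acyclicity
-/

namespace Vale.Agent.P286.Gen

open CategoryTheory LaurentPolynomial TensorProduct

noncomputable section

set_option linter.unusedSectionVars false

variable {N : ℕ} {Γ Z : Gps N} {ν : ℕ} [NeZero ν]

theorem theta_bc {A B : Type} [CommRing A] [Algebra ℂ A] [CommRing B] [Algebra ℂ B] (f : A →ₐ[ℂ] B)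
    {g : Gr Γ A[T;T⁻¹]} {S : OprU Γ A}
    (h : IsFraming ν g S) : theta ν (gm (lmA f) g) (bcU Γ f S) = f (theta ν g S) := by
  have h1 := fdet_bc (f : A →+* B) (theta_finRank h)
  rw [bc_mul, bc_toep] at h1
  exact h1

theorem Hm_map {A B : Type} [CommRing A] [Algebra ℂ A] [CommRing B] [Algebra ℂ B] (f : A →ₐ[ℂ] B)
    (g : Gr Γ A[T;T⁻¹]) : Hm ν (gm (lmA f) g) = (Hm ν g).map (lmA f) := by
  rw [Hm, Hm, mx_gm, Adm_map]
  ext1 i j
  exact ct_lmA f _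

theorem split_localize {D : Type} [CommRing D] {d : ℕ} (h₂ h₁ : D)
    (H : Matrix (Fin d) (Fin d) D[T;T⁻¹]) (l : Fin d → ℤ)
    (X Y : Matrix (Fin d) (Fin d) (Localization.Away h₂)[T;T⁻¹])
    (hX : MGE 0 X) (hX1 : X.det = 1) (hY : MLE 0 Y) (hY1 : Y.det = 1)
    (hg : mp (algebraMap D (Localization.Away h₂)) H * Y = X * mono l)
    (B : Type) [CommRing B] [Algebra D B] [IsLocalization.Away (h₂ * h₁) B] :
    ∃ X Y : Matrix (Fin d) (Fin d) B[T;T⁻¹], MGE 0 X ∧ X.det = 1 ∧ MLE 0 Y ∧ Y.det = 1 ∧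
      mp (algebraMap D B) H * Y = X * mono l := by
  have hu : IsUnit (algebraMap D B h₂) := by
    have h1 : IsUnit (algebraMap D B (h₂ * h₁)) :=
      IsLocalization.Away.algebraMap_isUnit (h₂ * h₁)
    rw [map_mul] at h1
    exact isUnit_of_mul_isUnit_left h1
  have hκ : (IsLocalization.Away.lift h₂ hu : Localization.Away h₂ →+* B).comp
      (algebraMap D (Localization.Away h₂)) = algebraMap D B :=
    IsLocalization.Away.lift_comp h₂ hu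
  have hg' := congrArg (mp (IsLocalization.Away.lift h₂ hu : Localization.Away h₂ →+* B)) hg
  rw [mp_mul, mp_mul, mp_mono, mp_mp, hκ] at hg'
  exact ⟨_, _, MGE.mp' _ hX, det_mp_one _ hX1, MLE.mp' _ hY, det_mp_one _ hY1, hg'⟩

/-- The adjoint bundle of `Y` is a nontrivial split bundle. -/
structure SplitObj (Y : BunObj Γ Z ν) : Prop where
  dom : IsDomain Y.A.R
  spl : ∃ (l : Fin (dm Γ) → ℤ) (U V : Matrix (Fin (dm Γ)) (Fin (dm Γ)) (Y.A.R)[T;T⁻¹]), l ≠ 0 ∧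
    ∑ i, l i = 0 ∧ MGE 0 U ∧ U.det = 1 ∧ MLE 0 V ∧ V.det = 1 ∧ Hm ν Y.g * V = U * mono l

theorem exists_test_aux (X : BunObj Γ Z ν) (p : Ideal X.A.R) (B : Type) [CommRing B] [Algebra ℂ B]
    [Algebra.Smooth ℂ B] [IsDomain B] [Algebra (X.A.R ⧸ p) B] (f : X.A.R →ₐ[ℂ] B)
    (hf : ∀ a, f a = algebraMap (X.A.R ⧸ p) B (Ideal.Quotient.mkₐ ℂ p a))
    (h : X.A.R) [IsLocalization.Away (Ideal.Quotient.mk p h) B] (l : Fin (dm Γ) → ℤ) (hl : l ≠ 0)
    (hl0 : ∑ i, l i = 0)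
    (U V : Matrix (Fin (dm Γ)) (Fin (dm Γ)) B[T;T⁻¹])
    (hU : MGE 0 U) (hU1 : U.det = 1) (hV : MLE 0 V) (hV1 : V.det = 1)
    (hg : mp (algebraMap (X.A.R ⧸ p) B) (Hm ν (gm (lmA (Ideal.Quotient.mkₐ ℂ p)) X.g)) * V =
      U * mono l) :
    ∃ (Y : BunObj Γ Z ν) (ρ : X ⟶ Y), SplitObj Y ∧
      (letI : Module X.A.R Y.A.R := Module.compHom Y.A.R ((Bun Γ Z ν).res ρ).toRingHom
       ∃ u : (X.A.R ⧸ p) →ₗ[X.A.R] Y.A.R, IsLocalizedModule (Submonoid.powers h) u) := by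
  have hf' : (algebraMap (X.A.R ⧸ p) B).comp
      (Ideal.Quotient.mkₐ ℂ p : X.A.R →+* X.A.R ⧸ p) = (f : X.A.R →+* B) :=
    RingHom.ext fun a => (hf a).symm
  have hg2 : Hm ν (gm (lmA f) X.g) * V = U * mono l := by
    rw [← hg, Hm_map, Hm_map]
    congr 1
    have h1 := mp_mp (Ideal.Quotient.mkₐ ℂ p : X.A.R →+* X.A.R ⧸ p)
      (algebraMap (X.A.R ⧸ p) B) (Hm ν X.g)
    rw [hf'] at h1
    exact h1.symm
  refine ⟨X.pull ⟨B⟩ f, X.pullHom ⟨B⟩ f, ⟨‹IsDomain B›, l, U, V, hl, hl0, hU, hU1, hV, hV1, hg2⟩,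
    ?_⟩
  let : Module X.A.R B := Module.compHom B f.toRingHom
  have hB : ∀ (a : X.A.R) (x : B), a • x =
      algebraMap (X.A.R ⧸ p) B (Ideal.Quotient.mk p a) * x := fun a x => by
    have := hf a
    change f a * x = _
    rw [this]
    rfl
  have hD : ∀ (a : X.A.R) (x : X.A.R ⧸ p), a • x = Ideal.Quotient.mk p a * x :=
    fun a x => Algebra.smul_def a x
  let u : (X.A.R ⧸ p) →ₗ[X.A.R] B :=
    { toFun := algebraMap (X.A.R ⧸ p) B
      map_add' := map_add _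
      map_smul' := fun a x => by
        rw [hD, map_mul, RingHom.id_apply]
        exact (hB a _).symm }
  exact ⟨u, isLocalizedModule_of_isLocalization (Ideal.Quotient.mk p) h hD hB u fun _ => rfl⟩

theorem exists_test (hZ : Cen Γ Z) (hd : AdDet Γ) (X : BunObj Γ Z ν) (p : Ideal X.A.R)
    [hp : p.IsPrime] (hθ : X.th ∈ p) :
    ∃ h : X.A.R, h ∉ p ∧ ∃ (Y : BunObj Γ Z ν) (ρ : X ⟶ Y), SplitObj Y ∧
      (letI : Module X.A.R Y.A.R := Module.compHom Y.A.R ((Bun Γ Z ν).res ρ).toRingHom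
       ∃ u : (X.A.R ⧸ p) →ₗ[X.A.R] Y.A.R, IsLocalizedModule (Submonoid.powers h) u) := by
  have hfr : IsFraming ν (gm (lmA (Ideal.Quotient.mkₐ ℂ p)) X.g)
      (bcU Γ (Ideal.Quotient.mkₐ ℂ p) X.S) := IsFraming.bc _ X.framing
  have hθD : theta ν (gm (lmA (Ideal.Quotient.mkₐ ℂ p)) X.g)
      (bcU Γ (Ideal.Quotient.mkₐ ℂ p) X.S) = 0 := by
    rw [theta_bc _ X.framing]
    exact Ideal.Quotient.eq_zero_iff_mem.2 hθ
  have htw : TwZ Z ν (gm (lmA (Ideal.Quotient.mkₐ ℂ p)) X.g) := by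
    obtain ⟨ζ, hζ, h⟩ := X.tw
    exact ⟨ζ, hζ, h.map' _⟩
  obtain ⟨h₂, hh₂, l, hl, hsum, U, V, hU, hU1, hV, hV1, hg⟩ :=
    generic_split_theta hZ hd htw hfr hθD
  have : Algebra.FiniteType ℂ X.A.R := inferInstance
  have : Algebra.FiniteType ℂ (X.A.R ⧸ p) :=
    Algebra.FiniteType.of_surjective (Ideal.Quotient.mkₐ ℂ p) (Ideal.Quotient.mkₐ_surjective ℂ p)
  obtain ⟨h₁, hne, hsm⟩ := exists_smooth_loc h₂ hh₂
  obtain ⟨U', V', hU', hU1', hV', hV1', hg'⟩ := split_localize h₂ h₁ _ l U V hU hU1 hV hV1 hg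
    (Localization.Away (h₂ * h₁))
  obtain ⟨h, hh⟩ := Ideal.Quotient.mk_surjective (h₂ * h₁)
  refine ⟨h, ?_, ?_⟩
  · intro hhp
    apply hne
    rw [← hh]
    exact Ideal.Quotient.eq_zero_iff_mem.2 hhp
  · have : IsLocalization.Away (Ideal.Quotient.mk p h) (Localization.Away (h₂ * h₁)) := by
      rw [hh]
      infer_instance
    have : IsDomain (Localization.Away (h₂ * h₁)) :=
      IsLocalization.isDomain_localization (powers_le_nonZeroDivisors_of_noZeroDivisors hne)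
    exact exists_test_aux X p (Localization.Away (h₂ * h₁))
      ((IsScalarTower.toAlgHom ℂ (X.A.R ⧸ p) (Localization.Away (h₂ * h₁))).comp
        (Ideal.Quotient.mkₐ ℂ p)) (fun _ => rfl) h l hl hsum U' V' hU' hU1' hV' hV1' hg'

/-- A cartesian complex is acyclic at a nontrivial split bundle, if the twist is irrational. -/
theorem acyclic_split (hK : KilDet Γ) (hZ : Cen Γ Z) (hd : AdDet Γ) {s : ℂ}
    (hs : ∀ m : ℤ, m ≠ 0 → ∀ k : ℤ, (k : ℂ) + s * m ≠ 0)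
    {K : TCx (Bun Γ Z ν) s} (hKc : Cartesian K) (X : BunObj Γ Z ν) (hX : SplitObj X) (j : ℤ)
    (z : K.obj j X) (hz : K.Cyc X j z) : K.Bd X j z := by
  obtain ⟨hdom, l, U, V, hl, hl0, hU, hU1, hV, hV1, hg⟩ := hX
  have := hdom
  obtain ⟨a, b, ht, m, hm0, hm⟩ := torus_split hK hZ hd X hU hU1 hV hV1 hg hl0 hl
  exact acyclic_of_torus hKc X a b ht m hm (hs m hm0) j z hz

/-- The transition map to the locus `θ ≠ 0` is a quasi-isomorphism for cartesian complexes. -/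
theorem hIso_phi (hK : KilDet Γ) (hZ : Cen Γ Z) (hd : AdDet Γ) (hF : HFact Γ Z ν) {s : ℂ}
    (hs : ∀ m : ℤ, m ≠ 0 → ∀ k : ℤ, (k : ℂ) + s * m ≠ 0) {K : TCx (Bun Γ Z ν) s}
    (hKc : Cartesian K) (X : BunObj Γ Z ν) (i j k : ℤ) (hi : i + 1 = j) (hj : j + 1 = k) :
    HIso (K.d X i j) (K.d X j k) (K.d (triv Z ν X.lo) i j)
      (K.d (triv Z ν X.lo) j k) (K.map (phi hF X) j) := by
  obtain ⟨P, hP, p, hpd, hp, hq⟩ := hKc X
  have hNo : IsNoetherianRing X.A.R := Algebra.FiniteType.isNoetherianRing ℂ X.A.R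
  have hB : P.HBij X.th := by
    refine MCx.hBij_of_primes P hP X.th fun q hqp hθ => ?_
    obtain ⟨h, hh, Y, ρ, hY, u, hu⟩ := exists_test hZ hd X q hθ
    have hYa : ∀ (j : ℤ) (z : K.obj j Y), K.Cyc Y j z → K.Bd Y j z :=
      fun j z hz => acyclic_split hK hZ hd hs hKc Y hY j z hz
    have hac := acyclic_tens (T := Bun Γ Z ν) (K := K) ρ hYa P p hpd
      (fun i j k hi hj => hq Y ρ i j k hi hj)
    exact ⟨h, hh, Y.A.R, inferInstance,
      Module.compHom Y.A.R ((Bun Γ Z ν).res ρ).toRingHom, u, hu, hac⟩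
  exact hIso_of_localization (T := Bun Γ Z ν) (K := K) (phi hF X) X.th
    (isLocalizedModule_lo X.th) P hB p hpd hp
    (fun i j k hi hj => hq (triv Z ν X.lo) (phi hF X) i j k hi hj)
    i j k hi hj

theorem eps1_qis (hK : KilDet Γ) (hZ : Cen Γ Z) (hd : AdDet Γ) (hF : HFact Γ Z ν) {s : ℂ}
    (hs : ∀ m : ℤ, m ≠ 0 → ∀ k : ℤ, (k : ℂ) + s * m ≠ 0) (K : TCx (Bun Γ Z ν) s)
    (hKc : Cartesian K) :
    qis (Bun Γ Z ν) s ((unitCx (Jfun Γ Z ν s) (Bfun Γ Z ν s) (eps1 hF s)).app K) :=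
  fun X i j k hi hj => hIso_phi hK hZ hd hF hs hKc X i j k hi hj

end

end Vale.Agent.P286.Gen
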