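import Vale.Agent.P286.Gen.Mu
import Vale.Agent.P286.Gen.Det1
import Vale.Agent.P286.Gen.Fact2
import Vale.Agent.P286.Gen.Test
import Vale.Agent.P286.H527.BrFin

/-!
# The equivalences at irrational level on the projective line, for simple groups
-/

namespace Vale.Agent.P286.Gen

open CategoryTheory LaurentPolynomial Matrix

noncomputable section

variable {N : ℕ} {Γ Z : Gps N} {m : ℕ} [NeZero m]

/-- The restriction to the trivial bundle is a quasi-equivalence. -/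
theorem isQuasiEquiv_J (hK : KilDet Γ) (hZ : Cen Γ Z) (hd : AdDet Γ) {s : ℂ}
    (hs : ∀ m : ℤ, m ≠ 0 → ∀ k : ℤ, (k : ℂ) + s * m ≠ 0) : IsQuasiEquiv (Jfun Γ Z m s) :=
  have hF : HFact Γ Z m := hFact hK hZ hd
  quasiEquiv_of_inverse (Jfun Γ Z m s) (Bfun Γ Z m s) (presCart_J Γ Z m s) (presCart_B Γ Z m s)
    (Or.inl ⟨eps1 hF s, fun K hKc => eps1_qis hK hZ hd hF hs K hKc⟩)
    (Or.inl ⟨eps2 Γ Z m s, fun K _ => eps2_qis Γ Z m s K⟩)

theorem cen_BG (Γ : Gps N) (X : BGObj Γ) : (BG Γ ⊥).cen X = {𝟙 X} := by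
  ext φ
  constructor
  · intro h
    exact cen_bot X φ h
  · rintro rfl
    exact ⟨rfl, 1, Subgroup.mem_bot.2 rfl, (Matrix.map_one _ (map_zero _) (map_one _)).symm⟩

theorem toT_BG (Γ : Gps N) : (BG Γ ⊥).toT 0 = BGT Γ := by
  have h : (BG Γ ⊥).cen = fun X => {𝟙 X} := funext fun X => cen_BG Γ X
  unfold Site.toT BGT
  rw [h]
  rfl

theorem dg_BG [Finite Z] (hP : (vanI Γ).IsPrime) (hK : KilDet Γ) (hZ : Cen Γ Z) {s : ℂ}
    (hs : ∀ m : ℤ, m ≠ 0 → ∀ k : ℤ, (k : ℂ) + s * m ≠ 0) :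
    DGEquivalent (Bun Γ Z m, s) (BG Γ ⊥, 0) :=
  Relation.EqvGen.trans _ (BG Γ Z, 0) _
    (Relation.EqvGen.rel _ _ ⟨Jfun Γ Z m s, inferInstance, inferInstance,
      isQuasiEquiv_J hK hZ (adDet_of_prime hP hK) hs⟩)
    (Relation.EqvGen.rel _ _ (dgStep_BG hP hZ 0))

/-- `D(ω^s) ≃ D(BG)` on `Bun_{G/Z}(ℙ¹)` for irrational `s`. -/
theorem main [Finite Z] (hP : (vanI Γ).IsPrime) (hK : KilDet Γ) (hZ : Cen Γ Z) {s : ℂ}
    (hs : ∀ m : ℤ, m ≠ 0 → ∀ k : ℤ, (k : ℂ) + s * m ≠ 0) :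
    St.DGEquivalent (BunG Γ Z m s) (BGT Γ) := by
  have h := Br.dgEquivalent (dg_BG (m := m) hP hK hZ hs)
  change St.DGEquivalent ((Bun Γ Z m).toT s) ((BG Γ ⊥).toT 0) at h
  rw [toT_Bun, toT_BG] at h
  exact h

theorem nonzero_Bun (Γ Z : Gps N) (m : ℕ) [NeZero m] (s : ℂ) :
    ∃ K : St.Cx (BunG Γ Z m s), St.Cx.Cart K ∧ ¬ K.Acyclic := by
  rw [← toT_Bun]
  exact Br.nonzero (cartesian_strBun Γ Z m s) (not_tAcyclic_strBun Γ Z m s)

/-- Irrational twists are not resonant. -/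
theorem not_resonant {h : ℕ} (hh : 0 < h) {c : ℂ} (hc : ∀ q : ℚ, c ≠ (q : ℂ)) (m : ℤ)
    (hm : m ≠ 0) (k : ℤ) : (k : ℂ) + ((h : ℂ) - c) / (2 * h) * m ≠ 0 :=
  P286.not_resonant hh hc m hm k

/-- If `c` is irrational, then so is `-1/(rc)`. -/
theorem irrational_inv {r : ℕ} (hr : 0 < r) {c : ℂ} (hc : ∀ q : ℚ, c ≠ (q : ℂ)) (q : ℚ) :
    -1 / (r * c) ≠ (q : ℂ) := by
  apply P286.irrational_inv
  intro q' h
  apply hc (q' / r)
  push_cast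
  rw [← h]
  have : (r : ℂ) ≠ 0 := by exact_mod_cast hr.ne'
  field_simp

/-- The Killing form of a simple Lie algebra is nondegenerate. -/
theorem kilDet_of_isSimple [LieAlgebra.IsSimple ℂ (lieAlg Γ)] : KilDet Γ :=
  kilDet_of_isKilling

end

end Vale.Agent.P286.Gen
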