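import Vale.Agent.P286.Gen.Cent
import Vale.Agent.P286.Gen.PresB
import Vale.Agent.P286.H211.Mu

/-!
# `D`-modules on `B(G/Z)` and on `BG`, for a finite central subgroup `Z`
-/

namespace Vale.Agent.P286.Gen

open CategoryTheory LaurentPolynomial

set_option linter.unusedSectionVars false

section CentAut

variable {N : ℕ} {Γ Z Z' : Gps N}

theorem gpt_comm {A : Type} [CommRing A] [Algebra ℂ A] {ζ : Matrix.SpecialLinearGroup (Fin N) ℂ}
    (hζ : ζ ∈ Γ) (hc : ∀ γ ∈ Γ, ζ * γ = γ * ζ) (x : Gr Γ A) : gpt hζ * x = x * gpt hζ :=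
  Gr.ext' (IsPt.comm (isPt x) hc)

/-- The automorphism of a test object given by an element of `Z`. -/
def cau (hZ : Cen Γ Z) (Z' : Gps N) (ζ : Z) (X : (BGd Γ Z').C) : X ⟶ X :=
  aut Z' (hZ ζ.1 ζ.2).1 X

theorem res_cau (hZ : Cen Γ Z) (ζ : Z) (X : (BGd Γ Z').C) :
    (BGd Γ Z').res (cau hZ Z' ζ X) = AlgHom.id ℂ _ := rfl

theorem cau_comm (hZ : Cen Γ Z) (ζ : Z) {X Y : (BGd Γ Z').C} (φ : X ⟶ Y) :
    cau hZ Z' ζ X ≫ φ = φ ≫ cau hZ Z' ζ Y := by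
  refine BGHom.ext ?_ ?_
  · rfl
  · refine (congrArg (BGHom.h φ * ·) (gm_gpt _ (hZ ζ.1 ζ.2).1)).trans ?_
    refine Eq.trans ?_ (congrArg (gpt (hZ ζ.1 ζ.2).1 * ·) (gm_id (BGHom.h φ)).symm)
    exact (gpt_comm _ (hZ ζ.1 ζ.2).2 _).symm

theorem cau_mul (hZ : Cen Γ Z) (ζ ξ : Z) (X : (BGd Γ Z').C) :
    cau hZ Z' ζ X ≫ cau hZ Z' ξ X = cau hZ Z' (ξ * ζ) X := aut_comp _ _ X

theorem cau_one (hZ : Cen Γ Z) (X : (BGd Γ Z').C) : cau hZ Z' 1 X = 𝟙 X := aut_one X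

theorem mem_cen (hZ : Cen Γ Z) (X : (BGd Γ Z).C) (φ : X ⟶ X) (h : φ ∈ (BGd Γ Z).cen X) :
    ∃ ζ : Z, φ = cau hZ Z ζ X := by
  obtain ⟨h1, ζ, hζ, h2⟩ := h
  exact ⟨⟨ζ, hζ⟩, BGHom.ext h1 (Gr.ext' h2)⟩

theorem cau_mem_cen (hZ : Cen Γ Z) (X : (BGd Γ Z).C) (ζ : Z) :
    cau hZ Z ζ X ∈ (BGd Γ Z).cen X := ⟨rfl, ζ.1, ζ.2, rfl⟩

theorem cen_bot (X : (BGd Γ ⊥).C) (φ : X ⟶ X) (h : φ ∈ (BGd Γ ⊥).cen X) : φ = 𝟙 X := by
  obtain ⟨h1, ζ, hζ, h2⟩ := h
  rw [Subgroup.mem_bot] at hζ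
  subst hζ
  refine BGHom.ext h1 (Gr.ext' (h2.trans ?_))
  exact Matrix.map_one _ (map_zero _) (map_one _)

end CentAut

/-! ### The functor which forgets that `Z` acts trivially -/

section Incl

variable {N : ℕ} {Γ Z : Gps N} {s : ℂ}

/-- The forgetful functor on objects. -/
def inclObj (Γ Z : Gps N) (s : ℂ) (M : TDMod (BGd Γ Z) s) : TDMod (BGd Γ ⊥) s where
  M := M.M
  grp := M.grp
  mod := M.mod
  act := M.act
  act_add := M.act_add
  add_act := M.add_act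
  smul_act := M.smul_act
  leibniz := M.leibniz
  lie_act := M.lie_act
  map := M.map
  map_smul := M.map_smul
  map_id := M.map_id
  map_comp := M.map_comp
  map_act := M.map_act
  map_cen X φ h m :=
    (congrArg (fun ψ => M.map (X := X) (Y := X) ψ m) (cen_bot X φ h)).trans (M.map_id X m)

/-- The forgetful functor. -/
def incl (Γ Z : Gps N) (s : ℂ) : TDMod (BGd Γ Z) s ⥤ TDMod (BGd Γ ⊥) s where
  obj M := inclObj Γ Z s M
  map {M N} f :=
    { app := TDMod.Hom.app (M := M) (N := N) f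
      act := TDMod.Hom.act (M := M) (N := N) f
      nat := TDMod.Hom.nat (M := M) (N := N) f }

instance : (incl Γ Z s).Additive where
  map_add := rfl

instance : (incl Γ Z s).Linear ℂ where
  map_smul _ _ := rfl

theorem presCart_incl (Γ Z : Gps N) (s : ℂ) : PresCart (incl Γ Z s) where
  cart _ hK := hK
  qis _ _ _ _ _ hu := hu

end Incl

/-! ### Invariants -/

section Inv

variable {N : ℕ} {Γ Z : Gps N} {s : ℂ}

/-- The invariants under `Z`. -/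
def invSub (hZ : Cen Γ Z) {s : ℂ} (M : TDMod (BGd Γ ⊥) s) (X : (BGd Γ ⊥).C) :
    Submodule ((BGd Γ ⊥).R X) (M.M X) where
  carrier := {m | ∀ ζ : Z, M.map (cau hZ ⊥ ζ X) m = m}
  add_mem' {a b} ha hb ζ := by rw [map_add, ha ζ, hb ζ]
  zero_mem' ζ := map_zero _
  smul_mem' c m hm ζ := by
    rw [M.map_smul, hm ζ]
    rfl

theorem act_cau (hZ : Cen Γ Z) (M : TDMod (BGd Γ ⊥) s) (X : (BGd Γ ⊥).C) (ζ : Z)
    (v : (BGd Γ ⊥).Der X) (m : M.M X) :
    M.act X v (M.map (cau hZ ⊥ ζ X) m) = M.map (cau hZ ⊥ ζ X) (M.act X v m) := by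
  have h1 := M.map_act (cau hZ ⊥ ζ X) v 1 ![1] ![v] (by intro a; simp [res_cau]) m
  have h2 : v ((BGd Γ ⊥).dl (cau hZ ⊥ ζ X) : (BGd Γ ⊥).R X) = 0 :=
    Derivation.map_one_eq_zero v
  rw [h2, mul_zero, zero_smul, sub_zero] at h1
  simpa using h1

theorem map_mem_invSub (hZ : Cen Γ Z) (M : TDMod (BGd Γ ⊥) s) {X Y : (BGd Γ ⊥).C} (φ : X ⟶ Y)
    {m : M.M X} (hm : m ∈ invSub hZ M X) : M.map φ m ∈ invSub hZ M Y := by
  intro ζ
  rw [← M.map_comp, ← cau_comm, M.map_comp, hm ζ]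

theorem act_mem_invSub (hZ : Cen Γ Z) (M : TDMod (BGd Γ ⊥) s) {X : (BGd Γ ⊥).C}
    (v : (BGd Γ ⊥).Der X) {m : M.M X} (hm : m ∈ invSub hZ M X) : M.act X v m ∈ invSub hZ M X := by
  intro ζ
  rw [← act_cau, hm ζ]

/-- The `Z`-invariants of a `D`-module on `BG`. -/
def invObj₁ (hZ : Cen Γ Z) (s : ℂ) (M : TDMod (BGd Γ ⊥) s) : TDMod (BGd Γ ⊥) s where
  M X := invSub hZ M X
  act X v m := ⟨M.act X v m.1, act_mem_invSub hZ M v m.2⟩
  act_add X v m m' := Subtype.ext (M.act_add X v m m')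
  add_act X v w m := Subtype.ext (M.add_act X v w m)
  smul_act X a v m := Subtype.ext (M.smul_act X a v m)
  leibniz X v a m := Subtype.ext (M.leibniz X v a m)
  lie_act X v w m := Subtype.ext (M.lie_act X v w m)
  map {X Y} φ :=
    { toFun := fun m => ⟨M.map φ m.1, map_mem_invSub hZ M φ m.2⟩
      map_zero' := Subtype.ext (map_zero _)
      map_add' := fun m m' => Subtype.ext (map_add _ _ _) }
  map_smul φ a m := Subtype.ext (M.map_smul φ a m)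
  map_id X m := Subtype.ext (M.map_id X m)
  map_comp φ ψ m := Subtype.ext (M.map_comp φ ψ m)
  map_act {X Y} φ w k c v hv m := by
    apply Subtype.ext
    refine (M.map_act φ w k c v hv m).trans ?_
    rw [AddSubgroupClass.coe_sub]
    congr 1
    rw [AddSubmonoidClass.coe_finsetSum]
    rfl
  map_cen X φ h m := Subtype.ext (M.map_cen X φ h m)

theorem invObj₁_cen (hZ : Cen Γ Z) (s : ℂ) (M : TDMod (BGd Γ ⊥) s) (X : (BGd Γ Z).C)
    (φ : X ⟶ X) (h : φ ∈ (BGd Γ Z).cen X) (m : (invObj₁ hZ s M).M X) :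
    (invObj₁ hZ s M).map (X := X) (Y := X) φ m = m := by
  obtain ⟨ζ, rfl⟩ := mem_cen hZ X φ h
  exact Subtype.ext (m.2 ζ)

/-- A `D`-module on `BG` on which `Z` acts trivially. -/
def relabel (Γ Z : Gps N) (s : ℂ) (M : TDMod (BGd Γ ⊥) s)
    (H : ∀ (X : (BGd Γ Z).C) (φ : X ⟶ X), φ ∈ (BGd Γ Z).cen X → ∀ (m : M.M X),
      M.map (X := X) (Y := X) φ m = m) : TDMod (BGd Γ Z) s where
  M := M.M
  grp := M.grp
  mod := M.mod
  act := M.act
  act_add := M.act_add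
  add_act := M.add_act
  smul_act := M.smul_act
  leibniz := M.leibniz
  lie_act := M.lie_act
  map := M.map
  map_smul := M.map_smul
  map_id := M.map_id
  map_comp := M.map_comp
  map_act := M.map_act
  map_cen := H

/-- The invariants: morphisms. -/
def invMap₁ (hZ : Cen Γ Z) (s : ℂ) {M N : TDMod (BGd Γ ⊥) s} (f : M ⟶ N) :
    invObj₁ hZ s M ⟶ invObj₁ hZ s N :=
  { app := fun X => LinearMap.restrict (TDMod.Hom.app f X)
      (p := invSub hZ M X) (q := invSub hZ N X) (fun m hm ζ => by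
        rw [← TDMod.Hom.nat, hm ζ])
    act := fun X v m => Subtype.ext (TDMod.Hom.act (M := M) (N := N) f X v m.1)
    nat := fun {X Y} φ m => Subtype.ext (TDMod.Hom.nat (M := M) (N := N) f φ m.1) }

/-- The functor of `Z`-invariants. -/
def inv₁ (hZ : Cen Γ Z) (s : ℂ) : TDMod (BGd Γ ⊥) s ⥤ TDMod (BGd Γ ⊥) s where
  obj M := invObj₁ hZ s M
  map {M N} f := invMap₁ hZ s f

instance (hZ : Cen Γ Z) : (inv₁ hZ s).Additive where
  map_add := rfl

/-- The functor of `Z`-invariants. -/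
def inv (hZ : Cen Γ Z) (s : ℂ) : TDMod (BGd Γ ⊥) s ⥤ TDMod (BGd Γ Z) s where
  obj M := relabel Γ Z s (invObj₁ hZ s M) (invObj₁_cen hZ s M)
  map {M N} f :=
    { app := TDMod.Hom.app (M := invObj₁ hZ s M) (N := invObj₁ hZ s N) (invMap₁ hZ s f)
      act := TDMod.Hom.act (M := invObj₁ hZ s M) (N := invObj₁ hZ s N) (invMap₁ hZ s f)
      nat := TDMod.Hom.nat (M := invObj₁ hZ s M) (N := invObj₁ hZ s N) (invMap₁ hZ s f) }

instance (hZ : Cen Γ Z) : (inv hZ s).Additive where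
  map_add := rfl

end Inv

/-! ### Averaging -/

section Avg

variable {N : ℕ} {Γ Z : Gps N} {s : ℂ}

/-- The action of an element of `Z`. -/
def rootAct (hZ : Cen Γ Z) (M : TDMod (BGd Γ ⊥) s) (X : (BGd Γ ⊥).C) (ζ : Z) :
    M.M X →ₗ[(BGd Γ ⊥).R X] M.M X where
  toFun := M.map (cau hZ ⊥ ζ X)
  map_add' := map_add _
  map_smul' a m := M.map_smul _ a m

theorem rootAct_apply (hZ : Cen Γ Z) (M : TDMod (BGd Γ ⊥) s) (X : (BGd Γ ⊥).C) (ζ : Z)
    (m : M.M X) : rootAct hZ M X ζ m = M.map (cau hZ ⊥ ζ X) m := rfl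

theorem rootAct_mul (hZ : Cen Γ Z) (M : TDMod (BGd Γ ⊥) s) (X : (BGd Γ ⊥).C) (ζ ξ : Z)
    (m : M.M X) : rootAct hZ M X ζ (rootAct hZ M X ξ m) = rootAct hZ M X (ζ * ξ) m := by
  rw [rootAct_apply, rootAct_apply, ← M.map_comp, cau_mul]
  rfl

variable [Fintype Z]

/-- The average over `Z`. -/
noncomputable def avg (hZ : Cen Γ Z) (M : TDMod (BGd Γ ⊥) s) (X : (BGd Γ ⊥).C) :
    M.M X →ₗ[(BGd Γ ⊥).R X] M.M X :=
  algebraMap ℂ ((BGd Γ ⊥).R X) ((Fintype.card Z : ℂ))⁻¹ • ∑ ζ : Z, rootAct hZ M X ζ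

theorem avg_apply (hZ : Cen Γ Z) (M : TDMod (BGd Γ ⊥) s) (X : (BGd Γ ⊥).C) (m : M.M X) :
    avg hZ M X m = algebraMap ℂ ((BGd Γ ⊥).R X) ((Fintype.card Z : ℂ))⁻¹ •
    ∑ ζ : Z, rootAct hZ M X ζ m := by
  rw [avg, LinearMap.smul_apply, LinearMap.sum_apply]

theorem avg_sum (M : TDMod (BGd Γ ⊥) s) (X : (BGd Γ ⊥).C) (m : M.M X) :
    algebraMap ℂ ((BGd Γ ⊥).R X) ((Fintype.card Z : ℂ))⁻¹ •
      ∑ _ζ : Z, m = m := by
  rw [Finset.sum_const, Finset.card_univ, ← Nat.cast_smul_eq_nsmul ((BGd Γ ⊥).R X), smul_smul,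
    ← map_natCast (algebraMap ℂ ((BGd Γ ⊥).R X)), ← map_mul, inv_mul_cancel₀, map_one, one_smul]
  exact_mod_cast Fintype.card_ne_zero

theorem avg_mem (hZ : Cen Γ Z) (M : TDMod (BGd Γ ⊥) s) (X : (BGd Γ ⊥).C) (m : M.M X) :
    avg hZ M X m ∈ invSub hZ M X := by
  intro ξ
  change rootAct hZ M X ξ (avg hZ M X m) = _
  rw [avg_apply, _root_.map_smul, map_sum]
  congr 1
  simp only [rootAct_mul]
  exact Fintype.sum_equiv (Equiv.mulLeft ξ) _ _ (fun ζ => rfl)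

theorem avg_of_mem (hZ : Cen Γ Z) (M : TDMod (BGd Γ ⊥) s) (X : (BGd Γ ⊥).C) {m : M.M X}
    (hm : m ∈ invSub hZ M X) : avg hZ M X m = m := by
  rw [avg_apply]
  refine Eq.trans ?_ (avg_sum (Z := Z) M X m)
  congr 1
  refine Finset.sum_congr rfl fun ζ _ => ?_
  exact hm ζ

theorem avg_map (hZ : Cen Γ Z) (M : TDMod (BGd Γ ⊥) s) {X Y : (BGd Γ ⊥).C} (φ : X ⟶ Y) (m : M.M X) :
    M.map φ (avg hZ M X m) = avg hZ M Y (M.map φ m) := by
  rw [avg_apply, avg_apply, M.map_smul, map_sum, AlgHom.commutes]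
  congr 1
  refine Finset.sum_congr rfl fun ζ _ => ?_
  rw [rootAct_apply, rootAct_apply, ← M.map_comp, ← M.map_comp, cau_comm]

theorem avg_app (hZ : Cen Γ Z) {M N : TDMod (BGd Γ ⊥) s} (f : M ⟶ N) (X : (BGd Γ ⊥).C) (m : M.M X) :
    TDMod.Hom.app f X (avg hZ M X m) = avg hZ N X (TDMod.Hom.app f X m) := by
  rw [avg_apply, avg_apply, _root_.map_smul, map_sum]
  congr 1
  refine Finset.sum_congr rfl fun ζ _ => ?_
  rw [rootAct_apply, rootAct_apply, TDMod.Hom.nat]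

theorem avg_bd (hP : (vanI Γ).IsPrime) (hZ : Cen Γ Z) {K : TCx (BGd Γ ⊥) s} (hK : Cartesian K)
    (X : (BGd Γ ⊥).C) (j : ℤ) (z : K.obj j X) (hz : K.Cyc X j z) :
    K.Bd X j (avg hZ (HomologicalComplex.X K j) X z - z) := by
  have h1 := (TCx.Bd.sum (K := K) (X := X) (j := j) Finset.univ
    (z := fun ζ : Z => rootAct hZ (HomologicalComplex.X K j) X ζ z - z)
    (fun ζ _ => aut_bd hP hK X (hZ ζ.1 ζ.2).1 j z hz)).smul
      (algebraMap ℂ ((BGd Γ ⊥).R X) ((Fintype.card Z : ℂ))⁻¹)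
  rw [Finset.sum_sub_distrib, smul_sub, ← avg_apply, avg_sum] at h1
  exact h1

end Avg

/-! ### The equivalence -/
section Equiv

variable {N : ℕ} {Γ Z : Gps N} {s : ℂ}

/-- The complex of invariants. -/
noncomputable abbrev invCx (hZ : Cen Γ Z) (s : ℂ) (K : TCx (BGd Γ ⊥) s) : TCx (BGd Γ ⊥) s :=
  (mapCx (inv₁ hZ s)).obj K

/-- The inclusion of the invariants. -/
def invVal (hZ : Cen Γ Z) (K : TCx (BGd Γ ⊥) s) (X : (BGd Γ ⊥).C) (j : ℤ) :
    (invCx hZ s K).obj j X →ₗ[(BGd Γ ⊥).R X] K.obj j X :=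
  (invSub hZ (HomologicalComplex.X K j) X).subtype

theorem invVal_mem (hZ : Cen Γ Z) (K : TCx (BGd Γ ⊥) s) (X : (BGd Γ ⊥).C) (j : ℤ)
    (m : (invCx hZ s K).obj j X) :
    invVal hZ K X j m ∈ invSub hZ (HomologicalComplex.X K j) X :=
  Subtype.property (p := fun m => m ∈ invSub hZ (HomologicalComplex.X K j) X) m

theorem invVal_injective (hZ : Cen Γ Z) (K : TCx (BGd Γ ⊥) s) (X : (BGd Γ ⊥).C) (j : ℤ) :
    Function.Injective (invVal hZ K X j) :=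
  Subtype.val_injective

theorem invVal_d (hZ : Cen Γ Z) (K : TCx (BGd Γ ⊥) s) (X : (BGd Γ ⊥).C) (i j : ℤ)
    (m : (invCx hZ s K).obj i X) :
    invVal hZ K X j ((invCx hZ s K).d X i j m) = K.d X i j (invVal hZ K X i m) := rfl

theorem invVal_map (hZ : Cen Γ Z) (K : TCx (BGd Γ ⊥) s) {X Y : (BGd Γ ⊥).C} (φ : X ⟶ Y) (j : ℤ)
    (m : (invCx hZ s K).obj j X) :
    invVal hZ K Y j ((invCx hZ s K).map φ j m) = K.map φ j (invVal hZ K X j m) := rfl

theorem inv_cyc (hZ : Cen Γ Z) (K : TCx (BGd Γ ⊥) s) (X : (BGd Γ ⊥).C) (j : ℤ)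
    (m : (invCx hZ s K).obj j X) :
    (invCx hZ s K).Cyc X j m ↔ K.Cyc X j (invVal hZ K X j m) := by
  unfold TCx.Cyc
  rw [← invVal_d]
  constructor
  · intro h
    rw [h, map_zero]
  · intro h
    apply invVal_injective hZ K X
    rw [h, map_zero]

variable [Fintype Z]

theorem d_avg (hZ : Cen Γ Z) (K : TCx (BGd Γ ⊥) s) (X : (BGd Γ ⊥).C) (i j : ℤ) (m : K.obj i X) :
    K.d X i j (avg hZ (HomologicalComplex.X K i) X m) =
      avg hZ (HomologicalComplex.X K j) X (K.d X i j m) :=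
  avg_app hZ (HomologicalComplex.d K i j) X m

/-- The projection to the invariants. -/
noncomputable def invPr (hZ : Cen Γ Z) (K : TCx (BGd Γ ⊥) s) (X : (BGd Γ ⊥).C) (j : ℤ) :
    K.obj j X →ₗ[(BGd Γ ⊥).R X] (invCx hZ s K).obj j X :=
  LinearMap.codRestrict (invSub hZ (HomologicalComplex.X K j) X)
    (avg hZ (HomologicalComplex.X K j) X) (avg_mem hZ _ X)

theorem invVal_pr (hZ : Cen Γ Z) (K : TCx (BGd Γ ⊥) s) (X : (BGd Γ ⊥).C) (j : ℤ) (m : K.obj j X) :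
    invVal hZ K X j (invPr hZ K X j m) = avg hZ (HomologicalComplex.X K j) X m := rfl

theorem invPr_val (hZ : Cen Γ Z) (K : TCx (BGd Γ ⊥) s) (X : (BGd Γ ⊥).C) (j : ℤ)
    (m : (invCx hZ s K).obj j X) : invPr hZ K X j (invVal hZ K X j m) = m := by
  apply invVal_injective hZ K X
  rw [invVal_pr]
  exact avg_of_mem hZ _ X (invVal_mem hZ K X j m)

theorem d_pr (hZ : Cen Γ Z) (K : TCx (BGd Γ ⊥) s) (X : (BGd Γ ⊥).C) (i j : ℤ) (m : K.obj i X) :
    (invCx hZ s K).d X i j (invPr hZ K X i m) = invPr hZ K X j (K.d X i j m) := by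
  apply invVal_injective hZ K X
  rw [invVal_d, invVal_pr, invVal_pr, d_avg]

theorem map_pr (hZ : Cen Γ Z) (K : TCx (BGd Γ ⊥) s) {X Y : (BGd Γ ⊥).C} (φ : X ⟶ Y) (j : ℤ)
    (m : K.obj j X) :
    (invCx hZ s K).map φ j (invPr hZ K X j m) = invPr hZ K Y j (K.map φ j m) := by
  apply invVal_injective hZ K Y
  rw [invVal_map, invVal_pr, invVal_pr]
  exact avg_map hZ _ φ m

theorem inv_bd (hZ : Cen Γ Z) (K : TCx (BGd Γ ⊥) s) (X : (BGd Γ ⊥).C) (j : ℤ)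
    (m : (invCx hZ s K).obj j X) :
    (invCx hZ s K).Bd X j m ↔ K.Bd X j (invVal hZ K X j m) := by
  constructor
  · rintro ⟨y, rfl⟩
    exact ⟨invVal hZ K X _ y, rfl⟩
  · rintro ⟨y, hy⟩
    refine ⟨invPr hZ K X _ y, ?_⟩
    rw [d_pr, hy, invPr_val]

/-- The comparison of `u : Q → K(X)` with the composite `Q → K(X) → K(X)^Z`. -/
theorem hIso_pr (hP : (vanI Γ).IsPrime) (hZ : Cen Γ Z) {K : TCx (BGd Γ ⊥) s} (hK : Cartesian K)
    (X : (BGd Γ ⊥).C)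
    {Q₁ Q₂ Q₃ : Type} [AddCommGroup Q₁] [AddCommGroup Q₂] [AddCommGroup Q₃] (e₁ : Q₁ →+ Q₂)
    (e₂ : Q₂ →+ Q₃) (j k : ℤ) (hk : j + 1 = k) (i : ℤ) (hi : i + 1 = j) (u : Q₂ →+ K.obj j X)
    (hu : ∀ w, e₂ w = 0 → K.d X j k (u w) = 0)
    (h : HIso e₁ e₂ (K.d X i j) (K.d X j k) u) (u' : Q₂ →+ (invCx hZ s K).obj j X)
    (hu' : ∀ w, u' w = invPr hZ K X j (u w)) :
    HIso e₁ e₂ ((invCx hZ s K).d X i j) ((invCx hZ s K).d X j k) u' := by
  subst hk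
  obtain rfl : i = j - 1 := by omega
  refine ⟨fun x hx hx' => ?_, fun y hy => ?_⟩
  · apply h.1 x hx
    obtain ⟨y, hy⟩ := hx'
    have h1 : K.Bd X j (invVal hZ K X j (u' x)) := by
      rw [← inv_bd hZ]
      exact ⟨y, hy⟩
    rw [hu', invVal_pr] at h1
    have h2 := h1.sub (avg_bd hP hZ hK X j (u x) (hu x hx))
    change K.Bd X j (u x)
    simpa using h2
  · obtain ⟨x, hx, y', hy'⟩ := h.2 (invVal hZ K X j y) ((inv_cyc hZ K X j y).1 hy)
    refine ⟨x, hx, invPr hZ K X _ y', ?_⟩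
    rw [d_pr, hy', map_sub, invPr_val, hu']

theorem cart_inv₁ (hP : (vanI Γ).IsPrime) (hZ : Cen Γ Z) {K : TCx (BGd Γ ⊥) s} (hK : Cartesian K) :
    Cartesian (invCx hZ s K) := by
  intro X
  obtain ⟨P, hPr, p, hpd, hp, hq⟩ := hK X
  refine ⟨P, hPr, fun i => (invPr hZ K X i).comp (p i), ?_, ?_, ?_⟩
  · intro i j x
    change invPr hZ K X j (p j (P.d i j x)) = _
    rw [hpd, ← d_pr]
    rfl
  · intro i j k hi hk
    refine hIso_pr hP hZ hK X _ _ j k hk i hi (p j).toAddMonoidHom ?_ (hp i j k hi hk) _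
      (fun w => rfl)
    intro w hw
    change K.d X j k (p j w) = 0
    rw [← hpd]
    change p k ((P.d j k).toAddMonoidHom w) = 0
    rw [hw, map_zero]
  · intro Y φ i j k hi hk
    refine hIso_pr hP hZ hK Y _ _ j k hk i hi _ ?_ (hq Y φ i j k hi hk) _ ?_
    · intro w hw
      refine (ExtS.lift_chain φ P p hpd j k _ (fun a x => by simp [TCx.map, TDMod.map_smul])
        w).trans ?_
      rw [hw, map_zero]
    · intro w
      induction w using ExtS.induction with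
      | h0 => rw [map_zero, map_zero, map_zero]
      | ht b x =>
        refine Eq.trans ?_ (_root_.map_smul (invPr hZ K Y j) b (K.map φ j (p j x))).symm
        exact congrArg (fun y : (invCx hZ s K).obj j Y => b • y) (map_pr hZ K φ j (p j x))
      | ha x y hx hy => rw [map_add, map_add, map_add, hx, hy]

omit [Fintype Z] in
theorem inv_hom (hZ : Cen Γ Z) {K L : TCx (BGd Γ ⊥) s} (u : K ⟶ L) (X : (BGd Γ ⊥).C) (j : ℤ)
    (m : (invCx hZ s K).obj j X) :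
    invVal hZ L X j (TCx.hom ((mapCx (inv₁ hZ s)).map u) X j m) =
      TCx.hom u X j (invVal hZ K X j m) :=
  rfl

theorem pr_hom (hZ : Cen Γ Z) {K L : TCx (BGd Γ ⊥) s} (u : K ⟶ L) (X : (BGd Γ ⊥).C) (j : ℤ)
    (m : K.obj j X) :
    TCx.hom ((mapCx (inv₁ hZ s)).map u) X j (invPr hZ K X j m) =
      invPr hZ L X j (TCx.hom u X j m) := by
  apply invVal_injective hZ L X
  rw [inv_hom, invVal_pr, invVal_pr]
  exact avg_app hZ (HomologicalComplex.Hom.f u j) X m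

theorem qis_inv₁ (hZ : Cen Γ Z) {K L : TCx (BGd Γ ⊥) s} (u : K ⟶ L) (hu : qis _ _ u) :
    qis _ _ ((mapCx (inv₁ hZ s)).map u) := by
  rw [qis_iff] at hu ⊢
  intro X j
  obtain ⟨h1, h2⟩ := hu X j
  refine ⟨fun z hz hz' => ?_, fun z hz => ?_⟩
  · rw [inv_bd hZ] at hz' ⊢
    rw [inv_cyc] at hz
    rw [inv_hom] at hz'
    exact h1 _ hz hz'
  · rw [inv_cyc] at hz
    obtain ⟨z', hz', y, hy⟩ := h2 _ hz
    refine ⟨invPr hZ K X j z', ?_, invPr hZ L X _ y, ?_⟩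
    · change (invCx hZ s K).d X j (j + 1) (invPr hZ K X j z') = 0
      rw [d_pr]
      rw [show K.d X j (j + 1) z' = 0 from hz', map_zero]
    · rw [d_pr, hy, map_sub, invPr_val, pr_hom]

theorem presCart_inv (hP : (vanI Γ).IsPrime) (hZ : Cen Γ Z) (s : ℂ) : PresCart (inv hZ s) where
  cart _ hK := cart_inv₁ hP hZ hK
  qis _ _ u _ _ hu := qis_inv₁ hZ u hu

/-- The inclusion of the invariants is a natural transformation. -/
def invCounit₁ (hZ : Cen Γ Z) (s : ℂ) : inv₁ hZ s ⟶ 𝟭 _ where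
  app M :=
    { app := fun X => (invSub hZ M X).subtype
      act := fun X v m => rfl
      nat := fun φ m => rfl }

/-- The inclusion of the invariants is a natural transformation. -/
def invCounit (hZ : Cen Γ Z) (s : ℂ) : inv hZ s ⋙ incl Γ Z s ⟶ 𝟭 _ where
  app M :=
    { app := TDMod.Hom.app ((invCounit₁ hZ s).app M)
      act := TDMod.Hom.act ((invCounit₁ hZ s).app M)
      nat := TDMod.Hom.nat ((invCounit₁ hZ s).app M) }

theorem counit_qis₁ (hP : (vanI Γ).IsPrime) (hZ : Cen Γ Z) {K : TCx (BGd Γ ⊥) s}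
    (hK : Cartesian K) (X : (BGd Γ ⊥).C) (j : ℤ) :
    (∀ z : (invCx hZ s K).obj j X, (invCx hZ s K).Cyc X j z → K.Bd X j (invVal hZ K X j z) →
      (invCx hZ s K).Bd X j z) ∧
    (∀ z, K.Cyc X j z → ∃ z', (invCx hZ s K).Cyc X j z' ∧ K.Bd X j (z - invVal hZ K X j z')) := by
  refine ⟨fun z _ hz' => (inv_bd hZ K X j z).2 hz', fun z hz => ⟨invPr hZ K X j z, ?_, ?_⟩⟩
  · change (invCx hZ s K).d X j (j + 1) (invPr hZ K X j z) = 0
    rw [d_pr]
    rw [show K.d X j (j + 1) z = 0 from hz, map_zero]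
  · have := (avg_bd hP hZ hK X j z hz).neg
    rw [neg_sub] at this
    exact this

theorem counit_qis (hP : (vanI Γ).IsPrime) (hZ : Cen Γ Z) {K : TCx (BGd Γ ⊥) s}
    (hK : Cartesian K) :
    qis (BGd Γ ⊥) s ((counitCx (inv hZ s) (incl Γ Z s) (invCounit hZ s)).app K) := by
  rw [qis_iff]
  exact counit_qis₁ hP hZ hK

/-- The modules on which `Z` acts trivially. -/
def inclUnit (hZ : Cen Γ Z) (s : ℂ) : 𝟭 _ ⟶ incl Γ Z s ⋙ inv hZ s where
  app M :=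
    { app := fun X =>
        { toFun := fun m => (⟨m, fun ζ => M.map_cen X (cau hZ Z ζ X)
            (cau_mem_cen hZ X ζ) m⟩ : invSub hZ (inclObj Γ Z s M) X)
          map_add' := fun m m' => rfl
          map_smul' := fun a m => rfl }
      act := fun X v m => rfl
      nat := fun φ m => rfl }

theorem unit_qis (hZ : Cen Γ Z) (K : TCx (BGd Γ Z) s) :
    qis (BGd Γ Z) s ((unitCx (incl Γ Z s) (inv hZ s) (inclUnit hZ s)).app K) := by
  rw [qis_iff]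
  intro X j
  refine ⟨fun z _ hz' => ?_, fun z hz => ?_⟩
  · obtain ⟨y, hy⟩ := hz'
    exact ⟨_, congrArg Subtype.val hy⟩
  · refine ⟨Subtype.val z, congrArg Subtype.val hz, 0, ?_⟩
    rw [map_zero, eq_comm, sub_eq_zero]
    rfl

theorem isQuasiEquiv_incl (hP : (vanI Γ).IsPrime) (hZ : Cen Γ Z) (s : ℂ) :
    IsQuasiEquiv (incl Γ Z s) :=
  quasiEquiv_of_inverse (incl Γ Z s) (inv hZ s) (presCart_incl Γ Z s) (presCart_inv hP hZ s)
    (Or.inl ⟨inclUnit hZ s, fun K _ => unit_qis hZ K⟩)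
    (Or.inr ⟨invCounit hZ s, fun _ hK => counit_qis hP hZ hK⟩)

end Equiv

theorem dgStep_BGd {N : ℕ} {Γ Z : Gps N} [Finite Z] (hP : (vanI Γ).IsPrime) (hZ : Cen Γ Z) (s : ℂ) :
    DGStep (BGd Γ Z, s) (BGd Γ ⊥, s) := by
  have := Fintype.ofFinite Z
  exact ⟨incl Γ Z s, inferInstance, inferInstance, isQuasiEquiv_incl hP hZ s⟩

/-- The DG categories of `D`-modules on `B(G/Z)` and on `BG` are equivalent. -/
theorem dgStep_BG {N : ℕ} {Γ Z : Gps N} [Finite Z] (hP : (vanI Γ).IsPrime) (hZ : Cen Γ Z) (s : ℂ) :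
    DGStep (BG Γ Z, s) (BG Γ ⊥, s) := dgStep_BGd hP hZ s

end Vale.Agent.P286.Gen
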