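import Vale.Agent.P286.Gen.Lie
import Vale.Agent.P286.St.Alg
import Vale.Agent.P286.Loop

/-!
# The moduli stack of `G`-bundles on the projective line and its canonical bundle

Let `Γ` be a subgroup of `SL_N(ℂ)`, let `Γ'` be its Zariski closure (a linear algebraic group
with semisimple Lie algebra `𝔤`), let `Z` be a finite central subgroup of exponent dividing `m`
and `G = Γ'/Z`.  Étale locally on the base, a `G`-bundle on `ℙ¹_A` is trivial on the two charts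
`Spec A[z]`, `Spec A[z⁻¹]`, i.e. it is given by an element of `G(A[z,z⁻¹])`, and this element lifts
to `g ∈ Γ'(A[t,t⁻¹])`, `t ^ m = z`, with `g(ωt) = ζ g(t)`, `ζ ∈ Z`, `ω = exp (2πi/m)`.  An
isomorphism is (étale locally) a pair `a ∈ Γ'(A[z])`, `b ∈ Γ'(A[z⁻¹])` with `g' b = a g`, and `Z`
acts trivially.  So the stack `Bun_G(ℙ¹)` is the stackification of the prestack of these data.

The canonical bundle `ω` has the fibre `det RΓ(ℙ¹, 𝔤_E) = det RΓ(ℙ¹, 𝔤_E(-1))`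
(as `det Ad = 1`), which is the determinant line of the Toeplitz operator
`v ↦ (Ad(g) v)_{≤0}` on `𝔤 ⊗ A[z⁻¹]`.  A generator of this line is given by an
invertible operator `S` such that `S - toepM g` has finite rank, and the generators `t_S` of two such
operators are related by `t_{S'} = fdet (S * S'⁻¹) • t_S` (Fredholm determinant).
-/

namespace Vale.Agent.P286.Gen

open Matrix LaurentPolynomial CategoryTheory

noncomputable section

variable {N : ℕ} {A B : Type} [CommRing A] [Algebra ℂ A] [CommRing B] [Algebra ℂ B] {Γ Z : Gps N}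

/-- The underlying matrix. -/
def mx (x : Gr Γ A) : Mt N A := x.1.1

theorem det_pt {x : Mt N A} (h : IsPt Γ x) : x.det = 1 := h.det

/-- An element of `G(A)` from a matrix. -/
def Gr.mk' (x : Mt N A) (h : IsPt Γ x) : Gr Γ A := ⟨⟨x, det_pt h⟩, by exact mem_GrS.2 h⟩

/-- The map `G(A) → G(B)`. -/
def gm (f : A →ₐ[ℂ] B) (x : Gr Γ A) : Gr Γ B :=
  Gr.mk' ((mx x).map f) (by exact (mem_GrS.1 x.2).map f)

/-- `G(A[t,t⁻¹])` -/
abbrev GrL (Γ : Gps N) (A : Type) [CommRing A] [Algebra ℂ A] : Type := Gr Γ A[T;T⁻¹]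

/-- `G(A[z])` -/
abbrev GrP (Γ : Gps N) (A : Type) [CommRing A] [Algebra ℂ A] : Type := Gr Γ (Polynomial A)

/-- The homomorphism `A[z] → A[t,t⁻¹]`, `z ↦ t ^ k`. -/
def evP (A : Type) [CommRing A] [Algebra ℂ A] (k : ℤ) : Polynomial A →ₐ[ℂ] A[T;T⁻¹] :=
  (Polynomial.aeval (T k : A[T;T⁻¹])).restrictScalars ℂ

/-- The base change `A[t,t⁻¹] → B[t,t⁻¹]`. -/
def lmA (f : A →ₐ[ℂ] B) : A[T;T⁻¹] →ₐ[ℂ] B[T;T⁻¹] := AddMonoidAlgebra.mapAlgHom ℤ f

/-- The base change `A[z] → B[z]`. -/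
def pmA (f : A →ₐ[ℂ] B) : Polynomial A →ₐ[ℂ] Polynomial B := Polynomial.mapAlgHom f

/-- Operators on `𝔤 ⊗ A[z⁻¹]`, with the basis `z^{-l} e_p`, `(l, p) ∈ ℕ × Fin (dm Γ)`. -/
abbrev Opr (Γ : Gps N) (A : Type) [CommRing A] : Type := Module.End A (ℕ × Fin (dm Γ) →₀ A)

/-- Invertible operators. -/
abbrev OprU (Γ : Gps N) (A : Type) [CommRing A] : Type := (Opr Γ A)ˣ

/-- The Toeplitz operator `v ↦ (Ad(g) v)_{≤ 0}` on `𝔤 ⊗ A[z⁻¹]`, `z = t ^ m`: the operator with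
the given matrix entries.  Its kernel and cokernel are `H⁰` and `H¹` of `𝔤_E(-1)` on `ℙ¹_A`,
where `E` is the bundle defined by `g`. -/
def toepM (Γ : Gps N) (m : ℕ) (g : Mt N A[T;T⁻¹]) : Opr Γ A :=
  Classical.epsilon fun φ => ∀ i j : ℕ × Fin (dm Γ),
    φ (Finsupp.single j 1) i = (Adm Γ g i.2 j.2).coeff (m * (j.1 - i.1))

/-- `S` is a framing of the determinant line of the Toeplitz operator of `g`. -/
def IsFraming (m : ℕ) (g : GrL Γ A) (S : OprU Γ A) : Prop :=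
  FinRank ((S : Opr Γ A) - toepM Γ m (mx g))

/-- `g(ωt) = ζ g(t)`, `ω = exp (2πi/m)`: the coefficients of the two sides agree. -/
def IsTw (m : ℕ) (ζ : SpecialLinearGroup (Fin N) ℂ) (g : GrL Γ A) : Prop :=
  ∀ (i j : Fin N) (k : ℤ), Complex.exp (2 * Real.pi * Complex.I * k / m) • (mx g i j).coeff k =
    ∑ l, ζ.1 i l • (mx g l j).coeff k

/-- The pair `(a, b)` is an isomorphism from the bundle `f(g)` to the bundle `g'`:
`g'(t) b(t^{-m}) = a(t^m) g(t)`. -/
def Glue (m : ℕ) (f : A →ₐ[ℂ] B) (g : GrL Γ A) (g' : GrL Γ B) (a b : GrP Γ B) : Prop :=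
  mx g' * (mx b).map (evP B (-m)) = (mx a).map (evP B m) * (mx g).map (lmA f)

/-- The composition. -/
def cmp (f : A →ₐ[ℂ] B) (x : GrP Γ B) (y : GrP Γ A) : GrP Γ B := x * gm (pmA f) y

/-- The unit. -/
def oneP (Γ : Gps N) (A : Type) [CommRing A] [Algebra ℂ A] : GrP Γ A := 1

/-- The product `p s q u⁻¹`. -/
def mul₄ {E : Type} [Monoid E] (p s q : E) (u : Eˣ) : E := p * s * q * ((u⁻¹ : Eˣ) : E)

/-- The element `δ` with `t_{S'} = δ • (a, b)_* f_* t_S`. -/
def delta (m : ℕ) (f : A →ₐ[ℂ] B) (a b : GrP Γ B) (S : OprU Γ A) (S' : OprU Γ B) : B :=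
  fdet (mul₄ (toepM Γ m ((mx a).map (evP B m))) (bc (f : A →+* B) (S : Opr Γ A))
    (toepM Γ m ((mx b).adjugate.map (evP B (-m)))) S')

/-- Test objects of `Bun_{Γ'/Z}(ℙ¹)` with a generator of `ω`. -/
structure BunObj (Γ Z : Gps N) (m : ℕ) : Type 1 where
  A : SmAlg
  /-- the transition matrix -/
  g : GrL Γ A.R
  /-- `g(ωt) = ζ g(t)` -/
  tw : ∃ ζ ∈ Z, IsTw m ζ g
  /-- the framing of the determinant line of `RΓ(𝔤_E(-1))` -/
  S : OprU Γ A.R
  framing : IsFraming m g S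

/-- Morphisms of test objects of `Bun_{Γ'/Z}(ℙ¹)`. -/
structure BunHom {m : ℕ} (X Y : BunObj Γ Z m) : Type where
  f : X.A.Hm Y.A
  a : GrP Γ Y.A.R
  b : GrP Γ Y.A.R
  glue : Glue m f X.g Y.g a b

/-- `x` is the constant matrix `ζ`. -/
def IsCst (ζ : SpecialLinearGroup (Fin N) ℂ) (x : Gr Γ A) : Prop := mx x = cm A ζ.1

/-- Test objects of the classifying stack of `Γ'`: the trivial torsor over a smooth algebra. -/
structure BGObj (Γ : Gps N) : Type 1 where
  A : SmAlg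

/-- The composition. -/
def gcmp (f : A →ₐ[ℂ] B) (x : Gr Γ B) (y : Gr Γ A) : Gr Γ B := x * gm f y

/-- The unit. -/
def gone (Γ : Gps N) (A : Type) [CommRing A] [Algebra ℂ A] : Gr Γ A := 1

/-- Morphisms of test objects of the classifying stack of `Γ'`. -/
@[ext]
structure BGHom (X Y : BGObj Γ) : Type where
  f : X.A.Hm Y.A
  h : Gr Γ Y.A.R

end

end Vale.Agent.P286.Gen
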