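import Vale.Agent.P286.H527.Pull
import Vale.Agent.P286.Gen.JFun

/-!
# Base change of test objects; the action of a one-parameter group at a split bundle
-/

namespace Vale.Agent.P286.Gen

open CategoryTheory LaurentPolynomial

noncomputable section

set_option linter.unusedSectionVars false

variable {N : ℕ} {Γ Z : Gps N} {ν : ℕ} [NeZero ν]

theorem rot_lmA {A B : Type} [CommRing A] [Algebra ℂ A] [CommRing B] [Algebra ℂ B]
    (f : A →ₐ[ℂ] B) : (lmA f).comp (rot ν A) = (rot ν B).comp (lmA f) := by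
  apply lau_algHom_ext
  · intro a
    rw [AlgHom.comp_apply, AlgHom.comp_apply, rot, rot, evT_C, lmA_C, evT_C]
    exact lmA_C f a
  · intro k
    rw [AlgHom.comp_apply, AlgHom.comp_apply, rot, rot, evT_T, lmA_T, evT_T]
    rw [mul_zpow, mul_zpow, Units.val_mul, Units.val_mul, map_mul, tU_zpow, tU_zpow, lmA_T,
      ← map_zpow, ← map_zpow]
    congr 1
    exact (lmA f).commutes _

theorem IsTw.map' {A B : Type} [CommRing A] [Algebra ℂ A] [CommRing B] [Algebra ℂ B]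
    {ζ : Matrix.SpecialLinearGroup (Fin N) ℂ} {g : Gr Γ A[T;T⁻¹]} (h : IsTw ν ζ g)
    (f : A →ₐ[ℂ] B) : IsTw ν ζ (gm (lmA f) g) := by
  rw [isTw_iff] at *
  have h2 := congrArg (fun M : Matrix (Fin N) (Fin N) A[T;T⁻¹] => M.map (lmA f)) h
  simp only [Matrix.map_mul, cm_map] at h2
  rw [mx_gm, ← h2]
  ext1 i j
  exact (AlgHom.congr_fun (rot_lmA (ν := ν) f) (mx g i j)).symm

theorem IsFraming.bc {A B : Type} [CommRing A] [Algebra ℂ A] [CommRing B] [Algebra ℂ B] (f : A →ₐ[ℂ] B)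
    {g : Gr Γ A[T;T⁻¹]} {S : OprU Γ A}
    (h : IsFraming ν g S) : IsFraming ν (gm (lmA f) g) (bcU Γ f S) := by
  have h1 : FinRank ((S : Opr Γ A) - toep ν g) := h
  have h2 := FinRank.bc (f : A →+* B) h1
  rw [bc_sub, bc_toep] at h2
  exact h2

/-- Base change of a test object. -/
abbrev BunObj.pull (X : BunObj Γ Z ν) (B : SmAlg) (f : X.A.R →ₐ[ℂ] B.R) : BunObj Γ Z ν where
  A := B
  g := gm (lmA f) X.g
  tw := by
    obtain ⟨ζ, hζ, h⟩ := X.tw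
    exact ⟨ζ, hζ, h.map' f⟩
  S := bcU Γ f X.S
  framing := IsFraming.bc f X.framing

/-- The canonical morphism to the base change. -/
def BunObj.pullHom (X : BunObj Γ Z ν) (B : SmAlg) (f : X.A.R →ₐ[ℂ] B.R) : X ⟶ X.pull B f :=
  ({ f := f
     a := 1
     b := 1
     glue := by
      apply Glue.mk
      rw [map_one, map_one, one_mul, mul_one] } : BunHom X (X.pull B f))

theorem transport_one {A B : Type} [CommRing A] [Algebra ℂ A] [CommRing B] [Algebra ℂ B] (f : A →ₐ[ℂ] B)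
    (S : OprU Γ A) : transport f 1 1 S = bcU Γ f S := by
  rw [transport, map_one, map_one, inv_one, one_mul, mul_one]

theorem transport_id {B : Type} [CommRing B] [Algebra ℂ B]
    (a b : Gr Γ (Polynomial B)) (S : OprU Γ B) :
    transport (AlgHom.id ℂ B) a b S = toepPos Γ B a * S * (toepNeg Γ B b)⁻¹ := by
  rw [transport, bcU_id]

theorem BunObj.pullHom_dl (X : BunObj Γ Z ν) (B : SmAlg) (f : X.A.R →ₐ[ℂ] B.R) :
    (Bun Γ Z ν).dl (X.pullHom B f) = 1 := by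
  apply Units.ext
  change fdet ((transport f 1 1 X.S * (bcU Γ f X.S)⁻¹ :
      OprU Γ B.R) : Opr Γ B.R) = 1
  rw [transport_one, mul_inv_cancel, Units.val_one, fdet_one]

/-- `X × G_m` -/
abbrev BunObj.gmo (X : BunObj Γ Z ν) : BunObj Γ Z ν := X.pull X.A.laurent (Calg X.A.R)

/-- The condition that `(a, b)` is an automorphism of `X × G_m`. -/
def GmGlue (X : BunObj Γ Z ν) (a b : Gr Γ (Polynomial (X.A.R)[T;T⁻¹])) : Prop :=
  gm (lmA (cA X.A.R)) X.g * neg ν Γ (X.A.R)[T;T⁻¹] b =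
    pos ν Γ (X.A.R)[T;T⁻¹] a * gm (lmA (cA X.A.R)) X.g

theorem GmGlue.inv {X : BunObj Γ Z ν} {a b : Gr Γ (Polynomial (X.A.R)[T;T⁻¹])} (h : GmGlue X a b) :
    GmGlue X a⁻¹ b⁻¹ := by
  unfold GmGlue at *
  rw [map_inv, map_inv, mul_inv_eq_iff_eq_mul, mul_assoc, h, inv_mul_cancel_left]

/-- The automorphism of `X × G_m`. -/
def gmSigma (X : BunObj Γ Z ν) (a b : Gr Γ (Polynomial (X.A.R)[T;T⁻¹])) (ht : GmGlue X a b) :
    X.gmo ⟶ X.gmo :=
  ({ f := AlgHom.id ℂ (X.A.R)[T;T⁻¹]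
     a := a
     b := b
     glue := by
      apply Glue.mk
      refine ht.trans ?_
      congr 1
      exact (gm_lmA_id _).symm } : BunHom X.gmo X.gmo)

theorem gmSigma_dl (X : BunObj Γ Z ν) (a b : Gr Γ (Polynomial (X.A.R)[T;T⁻¹])) (ht : GmGlue X a b) :
    (((Bun Γ Z ν).dl (gmSigma X a b ht) : ((X.A.R)[T;T⁻¹])ˣ) : (X.A.R)[T;T⁻¹]) =
      fdet ((toepPos Γ (X.A.R)[T;T⁻¹] a *
        bcU Γ (cA X.A.R) X.S *
        (toepNeg Γ (X.A.R)[T;T⁻¹] b)⁻¹ *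
        (bcU Γ (cA X.A.R) X.S)⁻¹ :
          OprU Γ (X.A.R)[T;T⁻¹]) :
            Opr Γ (X.A.R)[T;T⁻¹]) := by
  change fdet ((transport (AlgHom.id ℂ (X.A.R)[T;T⁻¹]) a b
        (bcU Γ (cA X.A.R) X.S) *
        (bcU Γ (cA X.A.R) X.S)⁻¹ :
          OprU Γ (X.A.R)[T;T⁻¹]) :
            Opr Γ (X.A.R)[T;T⁻¹]) = _
  rw [transport_id]

theorem gmSigma_finRank (X : BunObj Γ Z ν) (a b : Gr Γ (Polynomial (X.A.R)[T;T⁻¹]))
    (ht : GmGlue X a b) :
    FinRank (((toepPos Γ (X.A.R)[T;T⁻¹] a *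
        bcU Γ (cA X.A.R) X.S *
        (toepNeg Γ (X.A.R)[T;T⁻¹] b)⁻¹ *
        (bcU Γ (cA X.A.R) X.S)⁻¹ :
          OprU Γ (X.A.R)[T;T⁻¹]) :
            Opr Γ (X.A.R)[T;T⁻¹]) - 1) := by
  have h : FinRank (((transport (AlgHom.id ℂ (X.A.R)[T;T⁻¹]) a b
        (bcU Γ (cA X.A.R) X.S) *
        (bcU Γ (cA X.A.R) X.S)⁻¹ :
          OprU Γ (X.A.R)[T;T⁻¹]) :
            Opr Γ (X.A.R)[T;T⁻¹]) - 1) :=
    BunHom.finRank (gmSigma X a b ht)
  rwa [transport_id] at h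

/-- The one-parameter group of automorphisms. -/
def gmData (X : BunObj Γ Z ν) (a b : Gr Γ (Polynomial (X.A.R)[T;T⁻¹])) (ht : GmGlue X a b) (m : ℤ)
    (hm : (((Bun Γ Z ν).dl (gmSigma X a b ht) : ((X.A.R)[T;T⁻¹])ˣ) : (X.A.R)[T;T⁻¹]) = T m) :
    GmData (Bun Γ Z ν) X X.gmo where
  ι := X.pullHom X.A.laurent (Calg X.A.R)
  e k := (T k : (X.A.R)[T;T⁻¹])
  E := laurentEquiv X.A.R
  hE k := laurentEquiv_single X.A.R k
  e_zero := T_zero
  v := eulerD X.A.R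
  v_res a := eulerD_C X.A.R a
  v_e k := eulerD_T X.A.R k
  v_dl := by
    rw [BunObj.pullHom_dl, Units.val_one]
    exact Derivation.map_one_eq_zero (eulerD X.A.R)
  σ := gmSigma X a b ht
  res_σ := rfl
  c := m
  v_dlσ := by
    have h := eulerD_T X.A.R m
    rw [hm, map_intCast]
    exact h

theorem gmSigma_comp (X : BunObj Γ Z ν) (a b a' b' : Gr Γ (Polynomial (X.A.R)[T;T⁻¹]))
    (ht) (ht') (haa : a' * a = 1) (hbb : b' * b = 1) :
    gmSigma X a b ht ≫ gmSigma X a' b' ht' = 𝟙 X.gmo := by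
  have ha : a' * gm (pmA (AlgHom.id ℂ (X.A.R)[T;T⁻¹])) a = 1 := by
    rw [gm_pmA_id, haa]
  have hb : b' * gm (pmA (AlgHom.id ℂ (X.A.R)[T;T⁻¹])) b = 1 := by
    rw [gm_pmA_id, hbb]
  apply BunHom.ext
  · rfl
  · exact ha
  · exact hb

/-- Equivariance for a torus without resonance forces acyclicity. -/
theorem acyclic_of_torus {s : ℂ} {K : TCx (Bun Γ Z ν) s} (hK : Cartesian K) (X : BunObj Γ Z ν)
    (a b : Gr Γ (Polynomial (X.A.R)[T;T⁻¹])) (ht : GmGlue X a b) (m : ℤ)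
    (hm : (((Bun Γ Z ν).dl (gmSigma X a b ht) : ((X.A.R)[T;T⁻¹])ˣ) : (X.A.R)[T;T⁻¹]) = T m)
    (hs : ∀ k : ℤ, (k : ℂ) + s * m ≠ 0) (j : ℤ) (z : K.obj j X) (hz : K.Cyc X j z) :
    K.Bd X j z :=
  (gmData X a b ht m hm).acyclic hK (gmSigma X a⁻¹ b⁻¹ ht.inv)
    (gmSigma_comp X a b a⁻¹ b⁻¹ ht ht.inv (inv_mul_cancel a) (inv_mul_cancel b)) hs j z hz

end

end Vale.Agent.P286.Gen
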