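import Vale.Agent.P286.Gen.FreeK
import Vale.Agent.P286.Gen.Cst

/-!
# Horizontal sections over an irreducible variety are constant
-/

namespace Vale.Agent.P286.Gen

open CategoryTheory TensorProduct

noncomputable section

set_option linter.unusedSectionVars false

/-- The situation: `R Y = R X ⊗ O`, with the vector fields on `O`. -/
structure SmData (T : Site) (X Y : T.C) (O : Type) [CommRing O] [Algebra ℂ O] where
  ι : X ⟶ Y
  j : O →ₐ[ℂ] T.R Y
  κ : Type
  b : Module.Basis κ ℂ O
  E : letI : Module (T.R X) (T.R Y) := Module.compHom (T.R Y) (T.res ι).toRingHom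
      (κ →₀ T.R X) ≃ₗ[T.R X] T.R Y
  hE : ∀ k, E (Finsupp.single k 1) = j (b k)
  der : Derivation ℂ O O → T.Der Y
  der_res : ∀ v a, der v (T.res ι a) = 0
  der_j : ∀ v f, der v (j f) = j (v f)
  der_dl : ∀ v, der v (T.dl ι : T.R Y) = 0

namespace SmData

variable {T : Site} {s : ℂ} {K : TCx T s} {X Y : T.C} {O : Type} [CommRing O] [Algebra ℂ O]
  (D : SmData T X Y O)

theorem act_ι (v : Derivation ℂ O O) (i : ℤ) (x : K.obj i X) :
    (HomologicalComplex.X K i).act Y (D.der v) (K.map D.ι i x) = 0 := by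
  have h := (HomologicalComplex.X K i).map_act D.ι (D.der v) 0 ![] ![] (by intro a; simp [D.der_res]) x
  rw [D.der_dl, mul_zero, zero_smul, sub_zero] at h
  simpa [TCx.map] using h

/-- The map `Σ b_k ⊗ m_k ↦ Σ b_k • ι(m_k)`. -/
def L (K : TCx T s) (i : ℤ) : (D.κ →₀ K.obj i X) →+ K.obj i Y :=
  Finsupp.liftAddHom fun k =>
    { toFun := fun x => D.j (D.b k) • K.map D.ι i x
      map_zero' := by rw [map_zero, smul_zero]
      map_add' := fun x y => by rw [map_add, smul_add] }

theorem L_apply (i : ℤ) (m : D.κ →₀ K.obj i X) :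
    D.L K i m = m.sum fun k x => D.j (D.b k) • K.map D.ι i x := rfl

theorem L_single (i : ℤ) (k : D.κ) (x : K.obj i X) :
    D.L K i (Finsupp.single k x) = D.j (D.b k) • K.map D.ι i x := by
  rw [L_apply, Finsupp.sum_single_index (by rw [map_zero, smul_zero])]

/-- The element `f ⊗ x`. -/
def tm (K : TCx T s) (i : ℤ) (f : D.κ →₀ ℂ) (x : K.obj i X) : D.κ →₀ K.obj i X :=
  f.mapRange (fun c => algebraMap ℂ (T.R X) c • x) (by rw [map_zero, zero_smul])

theorem tm_apply (i : ℤ) (f : D.κ →₀ ℂ) (x : K.obj i X) (k : D.κ) :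
    D.tm K i f x k = algebraMap ℂ (T.R X) (f k) • x := rfl

theorem L_tm (i : ℤ) (f : D.κ →₀ ℂ) (x : K.obj i X) :
    D.L K i (D.tm K i f x) = D.j (D.b.repr.symm f) • K.map D.ι i x := by
  induction f using Finsupp.induction_linear with
  | zero =>
    have e : D.tm K i 0 x = 0 := by
      ext k
      rw [tm_apply, Finsupp.zero_apply, map_zero, zero_smul, Finsupp.zero_apply]
    rw [e, map_zero, map_zero, map_zero, zero_smul]
  | add f g hf hg =>
    have e : D.tm K i (f + g) x = D.tm K i f x + D.tm K i g x := by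
      ext k
      rw [Finsupp.add_apply, tm_apply, tm_apply, tm_apply, Finsupp.add_apply, map_add, add_smul]
    rw [e, map_add, hf, hg, map_add, map_add, add_smul]
  | single k c =>
    have e : D.tm K i (Finsupp.single k c) x =
        Finsupp.single k (algebraMap ℂ (T.R X) c • x) := by
      rw [tm, Finsupp.mapRange_single]
    rw [e, L_single, TCx.map_smul, AlgHom.commutes, Module.Basis.repr_symm_single, map_smul,
      Algebra.smul_def, mul_comm, mul_smul]

/-- The boundaries. -/
def bdS (K : TCx T s) (X : T.C) (i : ℤ) : Submodule (T.R X) (K.obj i X) where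
  carrier := {z | K.Bd X i z}
  add_mem' h h' := TCx.Bd.add h h'
  zero_mem' := TCx.Bd.zero
  smul_mem' a _ h := TCx.Bd.smul h a

theorem sum_act (v : T.Der Y) (i : ℤ) {ι : Type} (t : Finset ι) (g : ι → K.obj i Y) :
    (HomologicalComplex.X K i).act Y v (∑ k ∈ t, g k) =
      ∑ k ∈ t, (HomologicalComplex.X K i).act Y v (g k) := by
  classical
  induction t using Finset.induction_on with
  | empty => rw [Finset.sum_empty, Finset.sum_empty, TDMod.act_zero]
  | insert a t ha ih => rw [Finset.sum_insert ha, Finset.sum_insert ha, TDMod.act_add, ih]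

/-- **Horizontal sections are constant.** -/
theorem const [IsDomain O] [Algebra.FiniteType ℂ O] (hK : Cartesian K) (i : ℤ) (n : K.obj i Y)
    (hn : K.Cyc Y i n)
    (hv : ∀ v : Derivation ℂ O O, K.Bd Y i ((HomologicalComplex.X K i).act Y (D.der v) n))
    (ε ε' : Y ⟶ X) (u u' : O →ₐ[ℂ] ℂ) (h1 : D.ι ≫ ε = 𝟙 X) (h1' : D.ι ≫ ε' = 𝟙 X)
    (h2 : ∀ f, T.res ε (D.j f) = algebraMap ℂ (T.R X) (u f))
    (h2' : ∀ f, T.res ε' (D.j f) = algebraMap ℂ (T.R X) (u' f)) :
    K.Bd X i (K.map ε i n - K.map ε' i n) := by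
  classical
  obtain ⟨m, hm, hbd⟩ := (cart_free hK D.ι (fun k => D.j (D.b k)) D.E D.hE i).2 n hn
  -- the equations for the vector fields
  have hder : ∀ (v : Derivation ℂ O O) (k : D.κ),
      K.Bd X i (m.sum fun q x => algebraMap ℂ (T.R X) (D.b.repr (v (D.b q)) k) • x) := by
    intro v
    let m' : D.κ →₀ K.obj i X := m.sum fun q x => D.tm K i (D.b.repr (v (D.b q))) x
    have hm' : ∀ k, m' k = m.sum fun q x => algebraMap ℂ (T.R X) (D.b.repr (v (D.b q)) k) • x := by
      intro k
      change (m.sum fun q x => D.tm K i (D.b.repr (v (D.b q))) x) k = _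
      rw [Finsupp.sum, Finsupp.finsetSum_apply]
      rfl
    have hL : D.L K i m' = (HomologicalComplex.X K i).act Y (D.der v) (D.L K i m) := by
      change D.L K i (m.sum fun q x => D.tm K i (D.b.repr (v (D.b q))) x) = _
      rw [Finsupp.sum, map_sum, L_apply, Finsupp.sum, sum_act]
      refine Finset.sum_congr rfl fun q _ => ?_
      rw [L_tm, LinearEquiv.symm_apply_apply, TDMod.leibniz, D.der_j, D.act_ι, smul_zero, add_zero]
    have hb : K.Bd Y i (D.L K i m') := by
      rw [hL]
      have h3 := (hv v).sub (hbd.act (D.der v))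
      rw [TDMod.act_sub, sub_sub_cancel] at h3
      exact h3
    intro k
    rw [← hm']
    refine (cart_free hK D.ι (fun k => D.j (D.b k)) D.E D.hE i).1 m' (fun k => ?_) hb k
    rw [hm']
    unfold TCx.Cyc
    rw [Finsupp.sum, map_sum]
    refine Finset.sum_eq_zero fun q _ => ?_
    rw [K.d_smul, hm q, smul_zero]
  -- evaluation
  have hev : ∀ (ε : Y ⟶ X) (u : O →ₐ[ℂ] ℂ), D.ι ≫ ε = 𝟙 X →
      (∀ f, T.res ε (D.j f) = algebraMap ℂ (T.R X) (u f)) →
      K.Bd X i (K.map ε i n - m.sum fun q x => algebraMap ℂ (T.R X) (u (D.b q)) • x) := by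
    intro ε u h1 h2
    have h3 := hbd.map ε
    rw [map_sub] at h3
    have h4 : K.map ε i (m.sum fun k x => D.j (D.b k) • K.map D.ι i x) =
        m.sum fun q x => algebraMap ℂ (T.R X) (u (D.b q)) • x := by
      rw [Finsupp.sum, map_sum, Finsupp.sum]
      refine Finset.sum_congr rfl fun q _ => ?_
      rw [TCx.map_smul, h2, ← K.map_comp, h1, K.map_id]
    rwa [h4] at h3
  -- the difference of the evaluations
  have hdiff : K.Bd X i (m.sum fun q x => algebraMap ℂ (T.R X) (u (D.b q) - u' (D.b q)) • x) := by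
    let Q := K.obj i X ⧸ bdS K X i
    let : Module ℂ Q := Module.compHom Q (algebraMap ℂ (T.R X))
    let π : K.obj i X → Q := (bdS K X i).mkQ
    have hπ : ∀ z, π z = 0 ↔ K.Bd X i z := fun z =>
      Submodule.Quotient.mk_eq_zero (bdS K X i)
    have hπs : ∀ (w : D.κ → ℂ), π (m.sum fun q x => algebraMap ℂ (T.R X) (w q) • x) =
        ∑ q ∈ m.support, w q • π (m q) := by
      intro w
      change (bdS K X i).mkQ _ = _
      rw [Finsupp.sum, map_sum]
      refine Finset.sum_congr rfl fun q _ => ?_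
      rw [_root_.map_smul]
      rfl
    rw [← hπ, hπs]
    rw [← Module.forall_dual_apply_eq_zero_iff ℂ]
    intro φ
    -- the function `Σ φ(m_k) b_k` is constant
    let f : O := ∑ q ∈ m.support, φ (π (m q)) • D.b q
    have hf : ∀ v : Derivation ℂ O O, v f = 0 := by
      intro v
      apply D.b.repr.injective
      rw [map_zero]
      ext k
      have h3 := hder v k
      rw [← hπ, hπs] at h3
      have h4 := congrArg φ h3
      rw [map_zero, map_sum] at h4
      rw [Finsupp.zero_apply, ← h4]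
      change D.b.repr (v (∑ q ∈ m.support, φ (π (m q)) • D.b q)) k = _
      rw [map_sum, map_sum, Finsupp.finsetSum_apply]
      refine Finset.sum_congr rfl fun q _ => ?_
      rw [Derivation.map_smul, _root_.map_smul, _root_.map_smul, Finsupp.smul_apply, smul_eq_mul,
        smul_eq_mul, mul_comm]
    obtain ⟨c, hc⟩ := const_of_der f hf
    have hu : ∀ u : O →ₐ[ℂ] ℂ, ∑ q ∈ m.support, u (D.b q) * φ (π (m q)) = c := by
      intro u
      have h3 : u f = c := by rw [hc, AlgHom.commutes]; rfl
      rw [← h3]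
      change _ = u (∑ q ∈ m.support, φ (π (m q)) • D.b q)
      rw [map_sum]
      refine Finset.sum_congr rfl fun q _ => ?_
      rw [_root_.map_smul, smul_eq_mul, mul_comm]
    rw [map_sum]
    have h5 : ∀ q ∈ m.support, φ ((u (D.b q) - u' (D.b q)) • π (m q)) =
        u (D.b q) * φ (π (m q)) - u' (D.b q) * φ (π (m q)) := by
      intro q _
      rw [_root_.map_smul, smul_eq_mul, sub_mul]
    rw [Finset.sum_congr rfl h5, Finset.sum_sub_distrib, hu, hu, sub_self]
  have h6 := ((hev ε u h1 h2).sub (hev ε' u' h1' h2')).add hdiff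
  have h7 : (K.map ε i n - m.sum fun q x => algebraMap ℂ (T.R X) (u (D.b q)) • x) -
      (K.map ε' i n - m.sum fun q x => algebraMap ℂ (T.R X) (u' (D.b q)) • x) +
      (m.sum fun q x => algebraMap ℂ (T.R X) (u (D.b q) - u' (D.b q)) • x) =
      K.map ε i n - K.map ε' i n := by
    have h8 : (m.sum fun q x => algebraMap ℂ (T.R X) (u (D.b q) - u' (D.b q)) • x) =
        (m.sum fun q x => algebraMap ℂ (T.R X) (u (D.b q)) • x) -
        m.sum fun q x => algebraMap ℂ (T.R X) (u' (D.b q)) • x := by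
      rw [Finsupp.sum, Finsupp.sum, Finsupp.sum, ← Finset.sum_sub_distrib]
      refine Finset.sum_congr rfl fun q _ => ?_
      rw [map_sub, sub_smul]
    rw [h8]
    abel
  rwa [h7] at h6

end SmData

section Tens

variable {A O : Type} [CommRing A] [Algebra ℂ A] [CommRing O] [Algebra ℂ O]

/-- The derivation `1 ⊗ v` of `A ⊗ O`. -/
def tder (A : Type) [CommRing A] [Algebra ℂ A] (v : Derivation ℂ O O) :
    Derivation ℂ (A ⊗[ℂ] O) (A ⊗[ℂ] O) :=
  Derivation.mk' (LinearMap.lTensor A (v : O →ₗ[ℂ] O)) fun x y => by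
    induction x using TensorProduct.induction_on with
    | zero => rw [zero_mul, map_zero, zero_smul, smul_zero, add_zero]
    | add x x' hx hx' => rw [add_mul, map_add, hx, hx', map_add, add_smul, smul_add]; abel
    | tmul a f =>
      induction y using TensorProduct.induction_on with
      | zero => rw [mul_zero, map_zero, zero_smul, smul_zero, add_zero]
      | add y y' hy hy' => rw [mul_add, map_add, hy, hy', map_add, add_smul, smul_add]; abel
      | tmul a' f' =>
        rw [Algebra.TensorProduct.tmul_mul_tmul, LinearMap.lTensor_tmul, LinearMap.lTensor_tmul,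
          LinearMap.lTensor_tmul, smul_eq_mul, smul_eq_mul, Algebra.TensorProduct.tmul_mul_tmul,
          Algebra.TensorProduct.tmul_mul_tmul]
        change (a * a') ⊗ₜ[ℂ] (v (f * f')) = _
        rw [Derivation.leibniz, TensorProduct.tmul_add, smul_eq_mul, smul_eq_mul, mul_comm a' a]
        rfl

theorem tder_tmul (v : Derivation ℂ O O) (a : A) (f : O) :
    tder A v (a ⊗ₜ f) = a ⊗ₜ v f := rfl

/-- `A ⊗ O` as an abelian group. -/
def tensE0 (A : Type) [CommRing A] [Algebra ℂ A] {κ : Type} (b : Module.Basis κ ℂ O) :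
    (κ →₀ A) ≃+ A ⊗[ℂ] O := (Algebra.TensorProduct.basis A b).repr.symm.toAddEquiv

theorem tensE0_smul {κ : Type} (b : Module.Basis κ ℂ O) (a : A) (x : κ →₀ A) :
    tensE0 A b (a • x) = (Algebra.TensorProduct.includeLeft : A →ₐ[ℂ] A ⊗[ℂ] O) a *
      tensE0 A b x := by
  have h := _root_.map_smul (Algebra.TensorProduct.basis A b).repr.symm a x
  refine h.trans ?_
  exact Algebra.smul_def a _

/-- `A ⊗ O` is a free `A`-module. -/
def tensE (A : Type) [CommRing A] [Algebra ℂ A] {κ : Type} (b : Module.Basis κ ℂ O) :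
    letI : Module A (A ⊗[ℂ] O) := Module.compHom (A ⊗[ℂ] O)
      (Algebra.TensorProduct.includeLeft : A →ₐ[ℂ] A ⊗[ℂ] O).toRingHom
    (κ →₀ A) ≃ₗ[A] A ⊗[ℂ] O :=
  letI : Module A (A ⊗[ℂ] O) := Module.compHom (A ⊗[ℂ] O)
      (Algebra.TensorProduct.includeLeft : A →ₐ[ℂ] A ⊗[ℂ] O).toRingHom
  { tensE0 A b with
    map_smul' := fun a x => tensE0_smul b a x }

theorem tensE_single {κ : Type} (b : Module.Basis κ ℂ O) (k : κ) :
    tensE A b (Finsupp.single k 1) = 1 ⊗ₜ b k := by
  change (Algebra.TensorProduct.basis A b).repr.symm (Finsupp.single k 1) = _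
  rw [Module.Basis.repr_symm_single, one_smul, Algebra.TensorProduct.basis_apply]

end Tens

end

end Vale.Agent.P286.Gen
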