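import Vale.Agent.P286.Gen.Loop
import Vale.Agent.P286.H211.Toep
import Vale.Agent.P286.H527.Maps

/-!
# Lemmas on loop groups and Toeplitz operators
-/

namespace Vale.Agent.P286.Gen

open Matrix LaurentPolynomial CategoryTheory

noncomputable section

set_option linter.unusedSectionVars false

variable {N : ℕ} {A B D : Type} [CommRing A] [Algebra ℂ A] [CommRing B] [Algebra ℂ B]
  [CommRing D] [Algebra ℂ D] {Γ Z : Gps N}

section Groups

theorem Gr.ext' {x y : Gr Γ A} (h : mx x = mx y) : x = y := Subtype.ext (Subtype.ext h)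

theorem isPt (x : Gr Γ A) : IsPt Γ (mx x) := mem_GrS.1 x.2

theorem mx_mk' (x : Matrix (Fin N) (Fin N) A) (h : IsPt Γ x) : mx (Gr.mk' x h) = x := rfl

theorem mx_one : mx (1 : Gr Γ A) = 1 := rfl

theorem mx_mul (x y : Gr Γ A) : mx (x * y) = mx x * mx y := rfl

theorem mx_inv (x : Gr Γ A) : mx x⁻¹ = (mx x).adjugate := rfl

theorem mx_gm (f : A →ₐ[ℂ] B) (x : Gr Γ A) : mx (gm f x) = (mx x).map f := rfl

theorem gm_one (f : A →ₐ[ℂ] B) : gm f (1 : Gr Γ A) = 1 :=
  Gr.ext' (Matrix.map_one f (map_zero f) (map_one f))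

theorem gm_mul (f : A →ₐ[ℂ] B) (x y : Gr Γ A) : gm f (x * y) = gm f x * gm f y :=
  Gr.ext' (by rw [mx_gm, mx_mul, mx_mul, mx_gm, mx_gm, Matrix.map_mul])

theorem gm_gm (f : A →ₐ[ℂ] B) (g : B →ₐ[ℂ] D) (x : Gr Γ A) : gm g (gm f x) = gm (g.comp f) x := rfl

theorem gm_id (x : Gr Γ A) : gm (AlgHom.id ℂ A) x = x := rfl

/-- The homomorphism `G(A) → G(B)`. -/
def gmH (Γ : Gps N) (f : A →ₐ[ℂ] B) : Gr Γ A →* Gr Γ B where
  toFun := gm f
  map_one' := gm_one f
  map_mul' := gm_mul f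

theorem gmH_apply (f : A →ₐ[ℂ] B) (x : Gr Γ A) : gmH Γ f x = gm f x := rfl

theorem gm_inv (f : A →ₐ[ℂ] B) (x : Gr Γ A) : gm f x⁻¹ = (gm f x)⁻¹ := map_inv (gmH Γ f) x

theorem gm_injective (f : A →ₐ[ℂ] B) (hf : Function.Injective f) :
    Function.Injective (gm (Γ := Γ) f) := by
  intro x y h
  apply Gr.ext'
  ext i j
  apply hf
  exact congrFun (congrFun (congrArg mx h) i) j

/-- `G(A[z]) → G(A[t,t⁻¹])` -/
def pos (m : ℕ) (Γ : Gps N) (A : Type) [CommRing A] [Algebra ℂ A] :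
    Gr Γ (Polynomial A) →* Gr Γ A[T;T⁻¹] := gmH Γ (evP A m)

/-- `G(A[z⁻¹]) → G(A[t,t⁻¹])` -/
def neg (m : ℕ) (Γ : Gps N) (A : Type) [CommRing A] [Algebra ℂ A] :
    Gr Γ (Polynomial A) →* Gr Γ A[T;T⁻¹] := gmH Γ (evP A (-m))

theorem Glue.eq {m : ℕ} {f : A →ₐ[ℂ] B} {g : Gr Γ A[T;T⁻¹]} {g' : Gr Γ B[T;T⁻¹]}
    {a b : Gr Γ (Polynomial B)} (h : Glue m f g g' a b) :
    g' * neg m Γ B b = pos m Γ B a * gm (lmA f) g := Gr.ext' h

theorem Glue.mk {m : ℕ} {f : A →ₐ[ℂ] B} {g : Gr Γ A[T;T⁻¹]} {g' : Gr Γ B[T;T⁻¹]}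
    {a b : Gr Γ (Polynomial B)} (h : g' * neg m Γ B b = pos m Γ B a * gm (lmA f) g) :
    Glue m f g g' a b := congrArg mx h

theorem cmp_eq (f : A →ₐ[ℂ] B) (x : Gr Γ (Polynomial B)) (y : Gr Γ (Polynomial A)) :
    cmp f x y = x * gm (pmA f) y := rfl

end Groups

section Hom

theorem lau_hom_ext {S : Type} [Semiring S] {f g : A[T;T⁻¹] →+* S}
    (h1 : ∀ a, f (LaurentPolynomial.C a) = g (LaurentPolynomial.C a)) (h2 : ∀ k, f (T k) = g (T k)) :
    f = g := by
  apply RingHom.ext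
  intro x
  induction x using LaurentPolynomial.induction_on' with
  | add p q hp hq => rw [map_add, map_add, hp, hq]
  | C_mul_T k a => rw [map_mul, map_mul, h1, h2]

theorem lau_algHom_ext {S : Type} [CommRing S] [Algebra ℂ S] {f g : A[T;T⁻¹] →ₐ[ℂ] S}
    (h1 : ∀ a, f (LaurentPolynomial.C a) = g (LaurentPolynomial.C a)) (h2 : ∀ k, f (T k) = g (T k)) :
    f = g := by
  have h : (f : A[T;T⁻¹] →+* S) = g := lau_hom_ext h1 h2
  exact AlgHom.ext fun x => RingHom.congr_fun h x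

theorem evT_C (f : A →ₐ[ℂ] B) (u : Bˣ) (a : A) : evT f u (LaurentPolynomial.C a) = f a :=
  LaurentPolynomial.eval₂_C _ _ a

theorem evT_T (f : A →ₐ[ℂ] B) (u : Bˣ) (k : ℤ) : evT f u (T k) = ((u ^ k : Bˣ) : B) :=
  LaurentPolynomial.eval₂_T _ _ k

theorem evP_C (k : ℤ) (a : A) : evP A k (Polynomial.C a) = LaurentPolynomial.C a :=
  Polynomial.aeval_C _ a

theorem evP_X (k : ℤ) : evP A k Polynomial.X = T k := Polynomial.aeval_X _

theorem evP_one (p : Polynomial A) : evP A 1 p = Polynomial.toLaurent p := by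
  have h : (evP A 1 : Polynomial A →+* A[T;T⁻¹]) = Polynomial.toLaurent := by
    apply Polynomial.ringHom_ext
    · intro a
      exact (evP_C 1 a).trans (Polynomial.toLaurent_C a).symm
    · exact (evP_X 1).trans Polynomial.toLaurent_X.symm
  exact RingHom.congr_fun h p

theorem evP_neg_one (p : Polynomial A) : evP A (-1) p = invert (Polynomial.toLaurent p) := by
  have h : (evP A (-1) : Polynomial A →+* A[T;T⁻¹]) =
      ((invert (R := A)).toRingEquiv.toRingHom.comp (Polynomial.toLaurent (R := A))) := by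
    apply Polynomial.ringHom_ext
    · intro a
      refine (evP_C (-1) a).trans ?_
      change _ = invert (Polynomial.toLaurent (Polynomial.C a))
      rw [Polynomial.toLaurent_C, invert_C]
    · refine (evP_X (-1)).trans ?_
      change _ = invert (Polynomial.toLaurent Polynomial.X)
      rw [Polynomial.toLaurent_X, invert_T]
  exact RingHom.congr_fun h p

theorem poly_algHom_ext {S : Type} [CommRing S] [Algebra ℂ S] {f g : Polynomial A →ₐ[ℂ] S}
    (h1 : ∀ a, f (Polynomial.C a) = g (Polynomial.C a)) (h2 : f Polynomial.X = g Polynomial.X) :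
    f = g := by
  have h : (f : Polynomial A →+* S) = g := Polynomial.ringHom_ext h1 h2
  exact AlgHom.ext fun x => RingHom.congr_fun h x

theorem lmA_C (f : A →ₐ[ℂ] B) (a : A) : lmA f (LaurentPolynomial.C a) = LaurentPolynomial.C (f a) :=
  AddMonoidAlgebra.mapRingHom_single _ _ _

theorem lmA_T (f : A →ₐ[ℂ] B) (k : ℤ) : lmA f (T k) = T k := lmap_T _ k

theorem pmA_C (f : A →ₐ[ℂ] B) (a : A) : pmA f (Polynomial.C a) = Polynomial.C (f a) :=
  Polynomial.map_C _

theorem pmA_X (f : A →ₐ[ℂ] B) : pmA f (Polynomial.X : Polynomial A) = Polynomial.X :=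
  Polynomial.map_X _

theorem lmA_evP (f : A →ₐ[ℂ] B) (k : ℤ) : (lmA f).comp (evP A k) = (evP B k).comp (pmA f) := by
  apply poly_algHom_ext
  · intro a
    rw [AlgHom.comp_apply, AlgHom.comp_apply, evP_C, lmA_C, pmA_C, evP_C]
  · rw [AlgHom.comp_apply, AlgHom.comp_apply, evP_X, lmA_T, pmA_X, evP_X]

theorem lmA_comp (f : A →ₐ[ℂ] B) (g : B →ₐ[ℂ] D) : (lmA g).comp (lmA f) = lmA (g.comp f) := by
  apply lau_algHom_ext
  · intro a
    rw [AlgHom.comp_apply, lmA_C, lmA_C, lmA_C]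
    rfl
  · intro k
    rw [AlgHom.comp_apply, lmA_T, lmA_T, lmA_T]

theorem lmA_id : lmA (AlgHom.id ℂ A) = AlgHom.id ℂ A[T;T⁻¹] := by
  apply lau_algHom_ext
  · intro a
    rw [lmA_C]
    rfl
  · intro k
    rw [lmA_T]
    rfl

theorem pmA_comp (f : A →ₐ[ℂ] B) (g : B →ₐ[ℂ] D) : (pmA g).comp (pmA f) = pmA (g.comp f) := by
  apply poly_algHom_ext
  · intro a
    rw [AlgHom.comp_apply, pmA_C, pmA_C, pmA_C]
    rfl
  · rw [AlgHom.comp_apply, pmA_X, pmA_X, pmA_X]

theorem pmA_id : pmA (AlgHom.id ℂ A) = AlgHom.id ℂ (Polynomial A) := by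
  apply poly_algHom_ext
  · intro a
    rw [pmA_C]
    rfl
  · rw [pmA_X]
    rfl

theorem lmA_injective (f : A →ₐ[ℂ] B) (hf : Function.Injective f) : Function.Injective (lmA f) := by
  intro x y h
  ext k
  apply hf
  have := congrArg (fun z : B[T;T⁻¹] => z.coeff k) h
  change (lmap (f : A →+* B) x).coeff k = (lmap (f : A →+* B) y).coeff k at this
  rw [lmap, AddMonoidAlgebra.coeff_mapRingHom, AddMonoidAlgebra.coeff_mapRingHom] at this
  exact this

/-- The substitution `z ↦ t ^ m`. -/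
def ex (m : ℕ) (A : Type) [CommRing A] [Algebra ℂ A] : A[T;T⁻¹] →ₐ[ℂ] A[T;T⁻¹] :=
  evT (cA A) (tU A m)

theorem tU_zpow (k l : ℤ) : (((tU A k) ^ l : (A[T;T⁻¹])ˣ) : A[T;T⁻¹]) = T (k * l) := by
  induction l using Int.induction_on with
  | zero => rw [zpow_zero, mul_zero, T_zero, Units.val_one]
  | succ n ih =>
    rw [_root_.zpow_add_one, Units.val_mul, ih]
    change T _ * T k = _
    rw [← T_add]
    congr 1
    ring
  | pred n ih =>
    rw [_root_.zpow_sub_one, Units.val_mul, ih]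
    change T _ * T (-k) = _
    rw [← T_add]
    congr 1
    ring

theorem ex_C (m : ℕ) (a : A) : ex m A (LaurentPolynomial.C a) = LaurentPolynomial.C a := evT_C _ _ a

theorem ex_T (m : ℕ) (k : ℤ) : ex m A (T k) = T (m * k) := by
  rw [ex, evT_T, tU_zpow]

theorem ex_evP (m : ℕ) (k : ℤ) : (ex m A).comp (evP A k) = evP A (m * k) := by
  apply poly_algHom_ext
  · intro a
    rw [AlgHom.comp_apply, evP_C, evP_C, ex_C]
  · rw [AlgHom.comp_apply, evP_X, evP_X, ex_T]

theorem lmA_ex (m : ℕ) (f : A →ₐ[ℂ] B) : (lmA f).comp (ex m A) = (ex m B).comp (lmA f) := by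
  apply lau_algHom_ext
  · intro a
    rw [AlgHom.comp_apply, AlgHom.comp_apply, lmA_C, ex_C, ex_C, lmA_C]
  · intro k
    rw [AlgHom.comp_apply, AlgHom.comp_apply, lmA_T, ex_T, ex_T, lmA_T]

theorem coeff_T_mul (k n : ℤ) (u : A[T;T⁻¹]) : (T k * u).coeff n = u.coeff (n - k) := by
  rw [coeff_mul']
  have : (T k : A[T;T⁻¹]).coeff = Finsupp.single k 1 := rfl
  rw [this, Finsupp.sum_single_index (by rw [zero_mul]), one_mul]

theorem coeff_C_mul (a : A) (n : ℤ) (u : A[T;T⁻¹]) :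
    (LaurentPolynomial.C a * u).coeff n = a * u.coeff n := by
  rw [← LaurentPolynomial.smul_eq_C_mul]
  rfl

variable {m : ℕ} [NeZero m]

theorem ct_coeff (u : A[T;T⁻¹]) (k : ℤ) : (ct m u).coeff k = u.coeff (m * k) := rfl

theorem ct_add (u v : A[T;T⁻¹]) : ct m (u + v) = ct m u + ct m v := by
  ext k
  rw [AddMonoidAlgebra.coeff_add, Finsupp.add_apply, ct_coeff, ct_coeff, ct_coeff,
    AddMonoidAlgebra.coeff_add, Finsupp.add_apply]

theorem ct_zero : ct m (0 : A[T;T⁻¹]) = 0 := by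
  ext k
  rw [ct_coeff]
  rfl

theorem ct_one : ct m (1 : A[T;T⁻¹]) = 1 := by
  ext k
  rw [ct_coeff, ← T_zero, T_apply, T_apply]
  congr 1
  rw [eq_iff_iff]
  constructor
  · intro h
    rcases mul_eq_zero.1 h.symm with h | h
    · exact absurd (by exact_mod_cast h) (NeZero.ne m)
    · exact h.symm
  · intro h
    rw [← h, mul_zero]

theorem ct_sum {ι : Type*} (s : Finset ι) (u : ι → A[T;T⁻¹]) :
    ct m (∑ i ∈ s, u i) = ∑ i ∈ s, ct m (u i) := by
  classical
  induction s using Finset.induction_on with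
  | empty => rw [Finset.sum_empty, Finset.sum_empty, ct_zero]
  | insert a s ha ih => rw [Finset.sum_insert ha, Finset.sum_insert ha, ct_add, ih]

theorem ct_ex_mul (u v : A[T;T⁻¹]) : ct m (ex m A u * v) = u * ct m v := by
  induction u using LaurentPolynomial.induction_on' with
  | add p q hp hq => rw [map_add, add_mul, ct_add, hp, hq, add_mul]
  | C_mul_T k a =>
    ext n
    rw [map_mul, ex_C, ex_T, ct_coeff, mul_assoc, mul_assoc, coeff_C_mul, coeff_C_mul, coeff_T_mul,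
      coeff_T_mul, ct_coeff]
    congr 2
    ring

theorem ct_mul_ex (u v : A[T;T⁻¹]) : ct m (v * ex m A u) = ct m v * u := by
  rw [mul_comm, ct_ex_mul, mul_comm]

theorem ct_ex (u : A[T;T⁻¹]) : ct m (ex m A u) = u := by
  have := ct_ex_mul (m := m) u 1
  rwa [mul_one, ct_one, mul_one] at this

theorem ct_lmA (f : A →ₐ[ℂ] B) (u : A[T;T⁻¹]) : ct m (lmA f u) = lmA f (ct m u) := by
  ext k
  rw [ct_coeff]
  change (lmap (f : A →+* B) u).coeff _ = (lmap (f : A →+* B) (ct m u)).coeff _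
  rw [lmap, AddMonoidAlgebra.coeff_mapRingHom, AddMonoidAlgebra.coeff_mapRingHom, ct_coeff]

theorem ex_injective : Function.Injective (ex m A) := fun u v h => by
  rw [← ct_ex (m := m) u, h, ct_ex]

theorem map_ct_mul {d : ℕ} (X Y : Matrix (Fin d) (Fin d) A[T;T⁻¹]) :
    (X.map (ex m A) * Y).map (ct m) = X * Y.map (ct m) := by
  ext1 i j
  rw [Matrix.map_apply, Matrix.mul_apply, Matrix.mul_apply, ct_sum]
  exact Finset.sum_congr rfl fun k _ => ct_ex_mul _ _

theorem map_mul_ct {d : ℕ} (X Y : Matrix (Fin d) (Fin d) A[T;T⁻¹]) :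
    (Y * X.map (ex m A)).map (ct m) = Y.map (ct m) * X := by
  ext1 i j
  rw [Matrix.map_apply, Matrix.mul_apply, Matrix.mul_apply, ct_sum]
  exact Finset.sum_congr rfl fun k _ => ct_mul_ex _ _

end Hom

section Vec

variable {d : ℕ} {A B : Type} [CommRing A] [CommRing B]

theorem toV_apply (x : ℕ × Fin d →₀ A) (p : Fin d) :
    toV d A x p = x.sum fun i a => if i.2 = p then LaurentPolynomial.C a * T (-(i.1 : ℤ)) else 0 := by
  rw [toV, Finsupp.linearCombination_apply, Finsupp.sum, Finsupp.sum, Finset.sum_apply]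
  refine Finset.sum_congr rfl fun i _ => ?_
  rw [Pi.smul_apply, Pi.single_apply]
  by_cases h : i.2 = p
  · rw [if_pos h, if_pos h.symm, LaurentPolynomial.smul_eq_C_mul]
  · rw [if_neg h, if_neg (fun h' => h h'.symm), smul_zero]

theorem toV_coeff (x : ℕ × Fin d →₀ A) (p : Fin d) (l : ℕ) :
    (toV d A x p).coeff (-(l : ℤ)) = x (l, p) := by
  classical
  rw [toV_apply, Finsupp.sum, AddMonoidAlgebra.coeff_sum, Finsupp.finsetSum_apply]
  rw [Finset.sum_eq_single (l, p)]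
  · simp [← single_eq_C_mul_T]
  · rintro ⟨l', p'⟩ _ hne
    simp only
    split_ifs with h
    · subst h
      have : l' ≠ l := fun h => hne (by rw [h])
      rw [← single_eq_C_mul_T, AddMonoidAlgebra.coeff_single, Finsupp.single_apply, if_neg (by omega)]
    · simp
  · intro h
    rw [Finsupp.notMem_support_iff.mp h]
    simp

theorem toV_LE (x : ℕ × Fin d →₀ A) (p : Fin d) : LE 0 (toV d A x p) := by
  classical
  intro m hm
  rw [toV_apply, Finsupp.sum, AddMonoidAlgebra.coeff_sum, Finsupp.finsetSum_apply]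
  refine Finset.sum_eq_zero fun i _ => ?_
  split_ifs with h
  · rw [← single_eq_C_mul_T, AddMonoidAlgebra.coeff_single, Finsupp.single_apply, if_neg (by omega)]
  · simp

theorem vpart_toV (x : ℕ × Fin d →₀ A) : vpart d A (toV d A x) = x := by
  ext ⟨l, p⟩
  rw [vpart_apply, toV_coeff]

theorem toV_vpart {v : Fin d → A[T;T⁻¹]} (h : ∀ p, LE 0 (v p)) : toV d A (vpart d A v) = v := by
  ext p m
  rcases lt_or_ge 0 m with hm | hm
  · rw [toV_LE _ p m hm, h p m hm]
  · obtain ⟨l, rfl⟩ : ∃ l : ℕ, m = -(l : ℤ) := ⟨m.natAbs, by omega⟩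
    rw [toV_coeff, vpart_apply]

theorem sub_toV_vpart (v : Fin d → A[T;T⁻¹]) (p : Fin d) :
    GE 1 ((v - toV d A (vpart d A v)) p) := by
  intro m hm
  obtain ⟨l, rfl⟩ : ∃ l : ℕ, m = -(l : ℤ) := ⟨m.natAbs, by omega⟩
  rw [Pi.sub_apply, AddMonoidAlgebra.coeff_sub, Finsupp.sub_apply, toV_coeff, vpart_apply,
    sub_self]

theorem vpart_eq_zero {v : Fin d → A[T;T⁻¹]} (h : ∀ p, GE 1 (v p)) : vpart d A v = 0 := by
  ext ⟨l, p⟩
  rw [vpart_apply]
  exact h p _ (by omega)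

theorem vtoep_apply (h : Matrix (Fin d) (Fin d) A[T;T⁻¹]) (x : ℕ × Fin d →₀ A) :
    vtoep h x = vpart d A (h *ᵥ toV d A x) := rfl

theorem vtoep_one : vtoep (1 : Matrix (Fin d) (Fin d) A[T;T⁻¹]) = 1 := by
  apply LinearMap.ext
  intro x
  rw [vtoep_apply, Matrix.one_mulVec, vpart_toV, Module.End.one_apply]

theorem mulVec_GE {k l : ℤ} {X : Matrix (Fin d) (Fin d) A[T;T⁻¹]} (hX : MGE k X)
    {v : Fin d → A[T;T⁻¹]} (hv : ∀ p, GE l (v p)) (p : Fin d) : GE (k + l) ((X *ᵥ v) p) :=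
  GE.sum _ fun i _ => (hX p i).mul (hv i)

theorem mulVec_LE {k l : ℤ} {X : Matrix (Fin d) (Fin d) A[T;T⁻¹]} (hX : MLE k X)
    {v : Fin d → A[T;T⁻¹]} (hv : ∀ p, LE l (v p)) (p : Fin d) : LE (k + l) ((X *ᵥ v) p) :=
  LE.sum _ fun i _ => (hX p i).mul (hv i)

theorem vtoep_pos_mul {a : Matrix (Fin d) (Fin d) A[T;T⁻¹]} (ha : MGE 0 a)
    (h : Matrix (Fin d) (Fin d) A[T;T⁻¹]) : vtoep (a * h) = vtoep a * vtoep h := by
  apply LinearMap.ext
  intro x
  rw [Module.End.mul_apply, vtoep_apply, vtoep_apply a, vtoep_apply h, ← Matrix.mulVec_mulVec]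
  set v := h *ᵥ toV d A x with hv
  have e : a *ᵥ v = a *ᵥ toV d A (vpart d A v) + a *ᵥ (v - toV d A (vpart d A v)) := by
    rw [← Matrix.mulVec_add]
    congr 1
    abel
  rw [e, map_add, vpart_eq_zero (v := a *ᵥ (v - toV d A (vpart d A v))), add_zero]
  intro p
  have := mulVec_GE ha (sub_toV_vpart v) p
  simpa using this

theorem vtoep_mul_neg (h : Matrix (Fin d) (Fin d) A[T;T⁻¹])
    {b : Matrix (Fin d) (Fin d) A[T;T⁻¹]} (hb : MLE 0 b) : vtoep (h * b) = vtoep h * vtoep b := by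
  apply LinearMap.ext
  intro x
  rw [Module.End.mul_apply, vtoep_apply, vtoep_apply h, vtoep_apply b, ← Matrix.mulVec_mulVec,
    toV_vpart]
  intro p
  have := mulVec_LE hb (toV_LE x) p
  simpa using this

theorem vpart_map (f : A →+* B) (v : Fin d → A[T;T⁻¹]) :
    vpart d B (fun p => lmap f (v p)) = (vpart d A v).mapRange f (map_zero f) := by
  ext i
  rw [vpart_apply, Finsupp.mapRange_apply, vpart_apply, lmap, AddMonoidAlgebra.coeff_mapRingHom]

theorem toV_single (i : ℕ × Fin d) :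
    toV d A (Finsupp.single i 1) = Pi.single i.2 (T (-(i.1 : ℤ))) := by
  rw [toV, Finsupp.linearCombination_single, one_smul]

theorem vtoep_single (h : Matrix (Fin d) (Fin d) A[T;T⁻¹]) (i j : ℕ × Fin d) :
    vtoep h (Finsupp.single j 1) i = (h i.2 j.2).coeff ((j.1 : ℤ) - i.1) := by
  rw [vtoep_apply, vpart_apply, toV_single, Matrix.mulVec_single]
  change (h i.2 j.2 * T (-(j.1 : ℤ))).coeff (-(i.1 : ℤ)) = _
  have e : ∀ (u : A[T;T⁻¹]) (k n : ℤ), (u * T k).coeff n = u.coeff (n - k) := by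
    intro u k n
    rw [mul_comm, coeff_mul']
    have : (T k : A[T;T⁻¹]).coeff = Finsupp.single k 1 := rfl
    rw [this, Finsupp.sum_single_index (by rw [zero_mul]), one_mul]
  rw [e]
  congr 1
  ring

theorem bc_vtoep (f : A →+* B) (h : Matrix (Fin d) (Fin d) A[T;T⁻¹]) :
    bc f (vtoep h) = vtoep (mp f h) := by
  refine end_ext_single fun i => ?_
  rw [bc_single, vtoep_apply, vtoep_apply, ← vpart_map, toV_single, toV_single]
  congr 1
  ext1 p
  rw [Matrix.mulVec_single, Matrix.mulVec_single]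
  change lmap f (h p i.2 * T _) = lmap f (h p i.2) * T _
  rw [map_mul, lmap_T]

end Vec

section Statement

variable {m : ℕ}

theorem toepM_eq [NeZero m] (g : Matrix (Fin N) (Fin N) A[T;T⁻¹]) :
    toepM Γ m g = vtoep ((Adm Γ g).map (ct m)) := by
  have h1 : ∀ i j : ℕ × Fin (dm Γ), vtoep ((Adm Γ g).map (ct m)) (Finsupp.single j 1) i =
      (Adm Γ g i.2 j.2).coeff (m * (j.1 - i.1)) := fun i j => by
    rw [vtoep_single, Matrix.map_apply, ct_coeff]
  have h2 := Classical.epsilon_spec (p := fun φ : Opr Γ A => ∀ i j : ℕ × Fin (dm Γ),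
    φ (Finsupp.single j 1) i = (Adm Γ g i.2 j.2).coeff (m * (j.1 - i.1))) ⟨_, h1⟩
  refine end_ext_single fun j => ?_
  ext i
  exact (h2 i j).trans (h1 i j).symm

/-- The Toeplitz operator of a loop. -/
def toep (m : ℕ) (g : Gr Γ A[T;T⁻¹]) : Opr Γ A := toepM Γ m (mx g)

theorem rot_coeff' (u : A[T;T⁻¹]) (k : ℤ) : (rot m A u).coeff k =
    Complex.exp (2 * Real.pi * Complex.I * k / m) • u.coeff k := by
  have h : Complex.exp (2 * Real.pi * Complex.I * k / m) = ((om m ^ k : ℂˣ) : ℂ) := by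
    rw [Units.val_zpow_eq_zpow_val, om, Units.val_mk0, ← Complex.exp_int_mul]
    congr 1
    ring
  rw [h]
  induction u using LaurentPolynomial.induction_on' with
  | add p q hp hq =>
    rw [map_add, AddMonoidAlgebra.coeff_add, Finsupp.add_apply, hp, hq, AddMonoidAlgebra.coeff_add,
      Finsupp.add_apply, smul_add]
  | C_mul_T n a =>
    have h1 : rot m A (LaurentPolynomial.C a * T n) =
        LaurentPolynomial.C (((om m ^ n : ℂˣ) : ℂ) • a) * T n := by
      rw [map_mul, rot, evT_C, evT_T, mul_zpow, Units.val_mul, tU_zpow, one_mul, ← map_zpow,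
        Units.coe_map]
      change LaurentPolynomial.C a * (algebraMap ℂ A[T;T⁻¹] _ * T n) = _
      rw [Algebra.smul_def, map_mul, mul_comm (LaurentPolynomial.C (algebraMap ℂ A _)), mul_assoc]
      rfl
    rw [h1, ← single_eq_C_mul_T, ← single_eq_C_mul_T, AddMonoidAlgebra.coeff_single,
      AddMonoidAlgebra.coeff_single, Finsupp.single_apply, Finsupp.single_apply]
    split_ifs with h2
    · rw [h2]
    · rw [smul_zero]

theorem isTw_iff {ζ : SpecialLinearGroup (Fin N) ℂ} {g : Gr Γ A[T;T⁻¹]} :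
    IsTw m ζ g ↔ (mx g).map (rot m A) = cm A[T;T⁻¹] ζ.1 * mx g := by
  have h1 : ∀ (i j : Fin N) (k : ℤ), ((cm A[T;T⁻¹] ζ.1 * mx g) i j).coeff k =
      ∑ l, ζ.1 i l • (mx g l j).coeff k := by
    intro i j k
    rw [Matrix.mul_apply, AddMonoidAlgebra.coeff_sum, Finsupp.finsetSum_apply]
    refine Finset.sum_congr rfl fun l _ => ?_
    change ((algebraMap ℂ A[T;T⁻¹] (ζ.1 i l)) * mx g l j).coeff k = _
    rw [← Algebra.smul_def]
    rfl
  constructor
  · intro h
    ext i j k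
    rw [Matrix.map_apply, rot_coeff', h i j k, h1]
  · intro h i j k
    rw [← h1, ← h, Matrix.map_apply, rot_coeff']

end Statement

end

end Vale.Agent.P286.Gen
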