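import Vale.Agent.P286.Gen.Weight

/-!
# The weight of a grading on the determinant line, II
-/

namespace Vale.Agent.P286.Gen

open Matrix LaurentPolynomial

noncomputable section

set_option linter.unusedSectionVars false

variable {d : ℕ} (l : Fin d → ℤ)

theorem toNat_sum' (hs : ∑ i, l i = 0) : ∑ p, (l p).toNat = ∑ p, (-l p).toNat := by
  have h2 : ∀ p, ((l p).toNat : ℤ) - ((-l p).toNat : ℤ) = l p := by
    intro p
    omega
  have h3 : ∑ p, (((l p).toNat : ℤ) - ((-l p).toNat : ℤ)) = 0 := by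
    rw [← hs]
    exact Finset.sum_congr rfl fun p _ => h2 p
  rw [Finset.sum_sub_distrib, sub_eq_zero] at h3
  exact_mod_cast h3

theorem vtoep_mono_single (A : Type) [CommRing A] (i : ℕ × Fin d) :
    vtoep (mono l : Matrix (Fin d) (Fin d) A[T;T⁻¹]) (Finsupp.single i 1) =
      if i.1 < (l i.2).toNat then 0 else
        Finsupp.single (((i.1 : ℤ) - l i.2).toNat, i.2) 1 := by
  obtain ⟨a, p⟩ := i
  rw [vtoep_apply, toV_single]
  ext ⟨b, q⟩
  rw [vpart_apply, Matrix.mulVec_single, mono]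
  change (Matrix.diagonal (fun i => (T (l i) : A[T;T⁻¹])) q p * (T (-(a : ℤ)) : A[T;T⁻¹])).coeff _ = _
  rw [Matrix.diagonal_apply, mul_comm]
  by_cases hpq : q = p
  · subst hpq
    rw [if_pos rfl, ← T_add, T_apply]
    by_cases hl : a < (l q).toNat
    · rw [if_pos hl, Finsupp.zero_apply, if_neg (by omega)]
    · rw [if_neg hl, Finsupp.single_apply]
      simp only [Prod.mk.injEq, and_true]
      congr 1
      simp only [eq_iff_iff]
      constructor <;> intro h <;> omega
  · rw [if_neg hpq, mul_zero, AddMonoidAlgebra.coeff_zero, Finsupp.zero_apply]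
    split_ifs with hl
    · rfl
    · rw [Finsupp.single_apply, if_neg]
      simp only [Prod.mk.injEq]
      exact fun h => hpq h.2.symm

theorem vtoep_diag {A : Type} [CommRing A] (c : Fin d → A) :
    vtoep (Matrix.diagonal fun i => LaurentPolynomial.C (c i)) = diagOp fun i : ℕ × Fin d => c i.2 := by
  refine end_ext_single fun i => ?_
  obtain ⟨a, p⟩ := i
  rw [diagOp_single, vtoep_apply, toV_single]
  ext ⟨b, q⟩
  rw [vpart_apply, Matrix.mulVec_single]
  change (Matrix.diagonal (fun i => LaurentPolynomial.C (c i)) q p * (T (-(a : ℤ)) : A[T;T⁻¹])).coeff _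
    = _
  rw [Matrix.diagonal_apply, mul_comm]
  by_cases hpq : q = p
  · subst hpq
    rw [if_pos rfl, mul_comm, ← single_eq_C_mul_T, AddMonoidAlgebra.coeff_single,
      Finsupp.single_apply, Finsupp.single_apply]
    simp only [Prod.mk.injEq, and_true]
    congr 1
    simp only [eq_iff_iff]
    constructor <;> intro h <;> omega
  · rw [if_neg hpq, mul_zero, AddMonoidAlgebra.coeff_zero, Finsupp.zero_apply, Finsupp.single_apply,
      if_neg]
    simp only [Prod.mk.injEq]
    exact fun h => hpq h.2.symm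

theorem finRank_perm_sub (A : Type) [CommRing A]
    (e : {i : ℕ × Fin d // i.1 < (l i.2).toNat} ≃ {i : ℕ × Fin d // i.1 < (-l i.2).toNat}) :
    FinRank (permOp A (So.sig l e) - vtoep (mono l)) := by
  classical
  obtain ⟨K, hK⟩ : ∃ K : ℕ, ∀ p, (-l p).toNat ≤ K :=
    ⟨Finset.univ.sup fun p => (-l p).toNat, fun p =>
      Finset.le_sup (f := fun p => (-l p).toNat) (Finset.mem_univ p)⟩
  refine ⟨Finset.range K ×ˢ Finset.univ, fun x i hi => ?_⟩
  have hi' : K ≤ i.1 := by
    by_contra h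
    exact hi (by simp; omega)
  induction x using Finsupp.induction_linear with
  | zero => simp
  | add x y hx hy => rw [map_add, Finsupp.add_apply, hx, hy, add_zero]
  | single j a =>
    have h2 : (Finsupp.single j a : ℕ × Fin d →₀ A) = a • Finsupp.single j 1 := by simp
    rw [h2, map_smul, Finsupp.smul_apply, LinearMap.sub_apply, permOp_single, vtoep_mono_single]
    have : ((Finsupp.single (So.sig l e j) 1 : ℕ × Fin d →₀ A) -
        (if j.1 < (l j.2).toNat then 0 else
        Finsupp.single (((j.1 : ℤ) - l j.2).toNat, j.2) 1 : ℕ × Fin d →₀ A)) i = 0 := by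
      by_cases h : j.1 < (l j.2).toNat
      · rw [if_pos h, sub_zero, Finsupp.single_apply, if_neg]
        intro heq
        have h1 := So.sig_of_mem l e j h
        rw [heq] at h1
        have := hK i.2
        omega
      · rw [if_neg h, So.sig_of_not _ _ _ h, sub_self, Finsupp.zero_apply]
    rw [this, smul_zero]

/-- **The weight of a nontrivial grading on the determinant line is not zero.** -/
theorem grading_weight (hl : l ≠ 0) (hs : ∑ i, l i = 0) (M : ℕ) (hM : M ≠ 0) :
    ∃ m : ℤ, m ≠ 0 ∧ ∀ (A : Type) [CommRing A] [Algebra ℂ A]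
      (S : (Module.End A (ℕ × Fin d →₀ A))ˣ),
      FinRank ((S : Module.End A (ℕ × Fin d →₀ A)) - vtoep (mono l)) →
      fdet (fwU (isGr_dgl (R := A[T;T⁻¹]) l) (tU A M)
        (Units.map (bcHom (ℕ × Fin d) (cA A : A →+* A[T;T⁻¹])) S) :
          Module.End A[T;T⁻¹] (ℕ × Fin d →₀ A[T;T⁻¹])) = T m := by
  classical
  obtain ⟨e⟩ := So.exists_kc (fun p => (l p).toNat) (fun p => (-l p).toNat) (toNat_sum' l hs)
  let nu : ℕ × Fin d → ℤ := fun i => M * l i.2
  have hM0 : (0 : ℤ) < M := by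
    have := Nat.pos_of_ne_zero hM
    exact_mod_cast this
  obtain ⟨K, hK⟩ : ∃ K : ℕ, ∀ p, (-l p).toNat ≤ K :=
    ⟨Finset.univ.sup fun p => (-l p).toNat, fun p =>
      Finset.le_sup (f := fun p => (-l p).toNat) (Finset.mem_univ p)⟩
  let F : Finset (ℕ × Fin d) := Finset.range K ×ˢ Finset.univ
  have hmemF : ∀ j : ℕ × Fin d, j.1 < (-l j.2).toNat → j ∈ F := by
    intro j hj
    have := hK j.2
    simp only [F, Finset.mem_product, Finset.mem_range, Finset.mem_univ, and_true]
    omega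
  have h1 : ∀ j : ℕ × Fin d, ¬ j.1 < (-l j.2).toNat → nu j - nu ((So.sig l e)⁻¹ j) = 0 := by
    intro j hj
    simp only [nu, So.sig_inv_of_not l e j hj, sub_self]
  have h2 : ∀ j : ℕ × Fin d, j.1 < (-l j.2).toNat → nu j < 0 ∧ 0 < nu ((So.sig l e)⁻¹ j) := by
    intro j hj
    have h3 := So.sig_inv_of_mem l e j hj
    refine ⟨mul_neg_of_pos_of_neg hM0 (by omega), mul_pos hM0 (by omega)⟩
  have hle : ∀ j, nu j - nu ((So.sig l e)⁻¹ j) ≤ 0 := by
    intro j
    by_cases hj : j.1 < (-l j.2).toNat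
    · have := h2 j hj; omega
    · rw [h1 j hj]
  have hF0 : ∀ j, j ∉ F → nu j - nu ((So.sig l e)⁻¹ j) = 0 := by
    intro j hj
    exact h1 j fun h => hj (hmemF j h)
  refine ⟨∑ j ∈ F, (nu j - nu ((So.sig l e)⁻¹ j)), ?_, ?_⟩
  · have hex : ∃ j ∈ F, nu j - nu ((So.sig l e)⁻¹ j) < 0 := by
      obtain ⟨p, hp⟩ : ∃ p, l p < 0 := by
        by_contra hcon
        push Not at hcon
        apply hl
        have h3 := (Finset.sum_eq_zero_iff_of_nonneg fun i _ => hcon i).1 hs
        funext p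
        exact h3 p (Finset.mem_univ p)
      have hj : ((0, p) : ℕ × Fin d).1 < (-l ((0, p) : ℕ × Fin d).2).toNat := by
        simp only
        omega
      refine ⟨(0, p), hmemF _ hj, ?_⟩
      have h4 := h2 _ hj
      omega
    have hlt : ∑ j ∈ F, (nu j - nu ((So.sig l e)⁻¹ j)) < ∑ j ∈ F, (0 : ℤ) :=
      Finset.sum_lt_sum (fun j _ => hle j) hex
    rw [Finset.sum_const_zero] at hlt
    exact ne_of_lt hlt
  · intro A _ _ S hS
    have h3 : FinRank ((S : Module.End A (ℕ × Fin d →₀ A)) - permOp A (So.sig l e)) := by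
      have h5 : ((S : Module.End A (ℕ × Fin d →₀ A)) - permOp A (So.sig l e)) =
          ((S : Module.End A (ℕ × Fin d →₀ A)) - vtoep (mono l)) -
            (permOp A (So.sig l e) - vtoep (mono l)) := by
        refine LinearMap.ext fun x => ?_
        simp only [LinearMap.sub_apply]
        abel
      rw [h5]
      exact hS.sub (finRank_perm_sub l A e)
    have h4 := So.comm_weight (So.sig l e) nu F hF0 S h3
    have h5 : ∀ u : (A[T;T⁻¹])ˣ, vtoep (Uop l u (dgl (A[T;T⁻¹])[T;T⁻¹] l)) =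
        diagOp fun i : ℕ × Fin d => ((u ^ l i.2 : (A[T;T⁻¹])ˣ) : A[T;T⁻¹]) := by
      intro u
      rw [Uop_dgl, vtoep_diag]
    have h6 : ∀ u : (A[T;T⁻¹])ˣ, vtoep (mono (-l) * Uop l u (dgl (A[T;T⁻¹])[T;T⁻¹] l) * mono l) =
        diagOp fun i : ℕ × Fin d => ((u ^ l i.2 : (A[T;T⁻¹])ˣ) : A[T;T⁻¹]) := by
      intro u
      rw [← h5]
      congr 1
      rw [Uop_dgl, mono, mono, Matrix.diagonal_mul_diagonal, Matrix.diagonal_mul_diagonal]
      congr 1
      funext i
      rw [mul_right_comm, ← T_add, Pi.neg_apply, neg_add_cancel, T_zero, one_mul]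
    have h7 : (fun i : ℕ × Fin d => (((tU A M) ^ l i.2 : (A[T;T⁻¹])ˣ) : A[T;T⁻¹])) =
        fun i => T (nu i) := by
      funext i
      rw [tU_zpow]
    have h8 : (fun i : ℕ × Fin d => (((tU A M)⁻¹ ^ l i.2 : (A[T;T⁻¹])ˣ) : A[T;T⁻¹])) =
        fun i => T (-nu i) := by
      funext i
      rw [_root_.inv_zpow', tU_zpow]
      congr 1
      simp only [nu]
      ring
    have h9 : (PU (isGr_dgl (R := A[T;T⁻¹]) l) (tU A M) :
        Module.End A[T;T⁻¹] (ℕ × Fin d →₀ A[T;T⁻¹])) = diagOp fun i => T (nu i) := by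
      rw [← h7, ← h5]
      rfl
    have h10 : (((NU (isGr_dgl (R := A[T;T⁻¹]) l) (tU A M))⁻¹ :
        (Module.End A[T;T⁻¹] (ℕ × Fin d →₀ A[T;T⁻¹]))ˣ) :
        Module.End A[T;T⁻¹] (ℕ × Fin d →₀ A[T;T⁻¹])) = diagOp fun i => T (-nu i) := by
      rw [← h8, ← h6]
      rfl
    rw [← h4, ← h9, ← h10]
    rfl

end

end Vale.Agent.P286.Gen
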