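import Vale.Agent.P286.Gen.Cochar2
import Vale.Agent.P286.Gen.Weight2
import Vale.Agent.P286.Gen.Fact2
import Vale.Agent.P286.Gen.Pull

/-!
# The one-parameter group of automorphisms of a nontrivial bundle
-/

namespace Vale.Agent.P286.Gen

open Matrix LaurentPolynomial CategoryTheory

noncomputable section

set_option linter.unusedSectionVars false

variable {N : ℕ} {Γ Z : Gps N} {ν : ℕ} [NeZero ν]

section Spl

variable {R R' : Type} [CommRing R] [Algebra ℂ R] [CommRing R'] [Algebra ℂ R'] {J : Finset ℤ}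
  {l : Fin (dm Γ) → ℤ} {w : Fin (dm Γ) → R}

/-- The eigenvalues of `w` are in `l` and in `J / N!`. -/
def Spl (l : Fin (dm Γ) → ℤ) (J : Finset ℤ) (w : Fin (dm Γ) → R) : Prop :=
  Polynomial.aeval (adG Γ w) (sp l) = 0 ∧ Polynomial.aeval (toG Γ w) (spp J (rj N) N) = 0

theorem aeval_mat_map {n : ℕ} (f : R →ₐ[ℂ] R') (M : Matrix (Fin n) (Fin n) R) (P : Polynomial ℂ) :
    Polynomial.aeval (M.map f) P = (Polynomial.aeval M P).map f :=
  Polynomial.aeval_algHom_apply f.mapMatrix M P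

theorem Spl.map (h : Spl l J w) (f : R →ₐ[ℂ] R') : Spl l J (fun i => f (w i)) := by
  refine ⟨?_, ?_⟩
  · rw [adG_map, aeval_mat_map, h.1]
    exact Matrix.map_zero f (map_zero f)
  · rw [toG_map, aeval_mat_map, h.2]
    exact Matrix.map_zero f (map_zero f)

theorem Spl.of_injective (f : R →ₐ[ℂ] R') (hf : Function.Injective f)
    (h : Spl l J (fun i => f (w i))) : Spl l J w := by
  have key : ∀ {n : ℕ} {M : Matrix (Fin n) (Fin n) R}, M.map f = 0 → M = 0 := by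
    intro n M hM
    ext1 i j
    apply hf
    rw [Matrix.zero_apply, map_zero]
    exact congrFun (congrFun hM i) j
  refine ⟨key ?_, key ?_⟩
  · rw [← aeval_mat_map, ← adG_map]
    exact h.1
  · rw [← aeval_mat_map, ← toG_map]
    exact h.2

theorem aeval_conj {n : ℕ} {X Xi M : Matrix (Fin n) (Fin n) R} (h1 : X * Xi = 1) (h2 : Xi * X = 1)
    (P : Polynomial ℂ) : Polynomial.aeval (X * M * Xi) P = X * Polynomial.aeval M P * Xi := by
  induction P using Polynomial.induction_on' with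
  | add p q hp hq => rw [map_add, map_add, hp, hq, Matrix.mul_add, Matrix.add_mul]
  | monomial k a =>
    induction k with
    | zero =>
      rw [Polynomial.monomial_zero_left, Polynomial.aeval_C, Polynomial.aeval_C,
        Algebra.algebraMap_eq_smul_one, Matrix.mul_smul,
        Matrix.mul_one, Matrix.smul_mul, h1]
    | succ k ih =>
      rw [← Polynomial.monomial_mul_X, map_mul, map_mul, ih, Polynomial.aeval_X, Polynomial.aeval_X]
      calc X * Polynomial.aeval M (Polynomial.monomial k a) * Xi * (X * M * Xi) =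
            X * Polynomial.aeval M (Polynomial.monomial k a) * (Xi * X) * M * Xi := by
            simp only [Matrix.mul_assoc]
        _ = _ := by rw [h2, Matrix.mul_one]; simp only [Matrix.mul_assoc]

theorem aeval_comm {n : ℕ} {g gi M M' : Matrix (Fin n) (Fin n) R} (h1 : g * gi = 1)
    (h2 : gi * g = 1) (h : M * g = g * M') (P : Polynomial ℂ) :
    Polynomial.aeval M P * g = g * Polynomial.aeval M' P := by
  have e : M = g * M' * gi := by
    rw [← h, Matrix.mul_assoc, h1, Matrix.mul_one]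
  rw [e, aeval_conj h1 h2, Matrix.mul_assoc, h2, Matrix.mul_one]

/-- The unit `τ` of `R[τ,τ⁻¹][z]`. -/
def tauU (R : Type) [CommRing R] [Algebra ℂ R] : (Polynomial R[T;T⁻¹])ˣ :=
  Units.map ((Polynomial.C : R[T;T⁻¹] →+* Polynomial R[T;T⁻¹]) : R[T;T⁻¹] →* _) (tU R 1)

/-- The unit `τ` of `R[τ,τ⁻¹][z,z⁻¹]`. -/
def tauL (R : Type) [CommRing R] [Algebra ℂ R] : ((R[T;T⁻¹])[T;T⁻¹])ˣ :=
  Units.map ((LaurentPolynomial.C : R[T;T⁻¹] →+* (R[T;T⁻¹])[T;T⁻¹]) : R[T;T⁻¹] →* _) (tU R 1)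

theorem evP_tauU (k : ℤ) : Units.map (evP R[T;T⁻¹] k : Polynomial R[T;T⁻¹] →* _) (tauU R) =
    tauL R := Units.ext (evP_C k _)

/-- The point of the group defined by `w`. -/
def cpt {w : Fin (dm Γ) → Polynomial R} (h : Spl l J w) : Gr Γ (Polynomial R[T;T⁻¹]) :=
  Gr.mk' (cch J (tauU R) ((toG Γ w).map (pmA (cA R)))) (isPt_cch (isLi_toG w) h.2 _ _)

theorem cpt_evP {w : Fin (dm Γ) → Polynomial R} (h : Spl l J w) (k : ℤ) :
    (mx (cpt h)).map (evP R[T;T⁻¹] k) =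
      cch J (tauL R) (toG Γ fun i => lmA (cA R) (evP R k (w i))) := by
  rw [cpt, mx_mk', cch_map, evP_tauU]
  congr 1
  have e : (toG Γ w).map (pmA (cA R)) = toG Γ (fun i => pmA (cA R) (w i)) := (toG_map _ _).symm
  rw [e, ← toG_map]
  congr 1
  funext i
  exact (AlgHom.congr_fun (lmA_evP (cA R) k) (w i)).symm

theorem Adm_cpt {w : Fin (dm Γ) → Polynomial R} (h : Spl l J w) (k : ℤ)
    {w' : Fin (dm Γ) → R[T;T⁻¹]} (hw : ∀ i, evP R k (w i) = w' i) :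
    (Adm Γ (mx (cpt h))).map (evP R[T;T⁻¹] k) = ∑ k ∈ lset l,
      LaurentPolynomial.C ((((tU R N.factorial) ^ k : (R[T;T⁻¹])ˣ) : R[T;T⁻¹])) •
        (Polynomial.aeval (adG Γ w') (qp l k)).map (lmA (cA R)) := by
  have h1 : Spl l J w' := by
    have := h.map (evP R k)
    have e : (fun i => evP R k (w i)) = w' := funext hw
    rwa [e] at this
  have h2 := h1.map (lmA (cA R))
  have h3 : (mx (cpt h)).map (evP R[T;T⁻¹] k) =
      cch J (tauL R) (toG Γ fun i => lmA (cA R) (w' i)) := by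
    rw [cpt_evP]
    simp only [hw]
  have h4 : IsPt Γ (cch J (tauL R) (toG Γ fun i => lmA (cA R) (w' i))) := by
    rw [← h3]
    exact (isPt (cpt h)).map _
  rw [← Adm_map, h3, Adm_cch h2.1 h2.2 _ h4]
  refine Finset.sum_congr rfl fun k _ => ?_
  rw [adG_map, aeval_mat_map, tauL, ← map_zpow]
  congr 1
  change LaurentPolynomial.C ((((tU R 1) ^ (N.factorial * k : ℤ) : (R[T;T⁻¹])ˣ) : R[T;T⁻¹])) = _
  rw [tU_zpow, tU_zpow, one_mul]

end Spl

section Main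

variable {B : Type} [CommRing B] [Algebra ℂ B]

theorem sum_conj_Uop {l : Fin (dm Γ) → ℤ} {X Xi T₀ a : Matrix (Fin (dm Γ)) (Fin (dm Γ)) B[T;T⁻¹]}
    (h1 : X * Xi = 1) (h2 : Xi * X = 1) (ha : a = X * T₀ * Xi) :
    ∑ k ∈ lset l, LaurentPolynomial.C ((((tU B N.factorial) ^ k : (B[T;T⁻¹])ˣ) : B[T;T⁻¹])) •
        (Polynomial.aeval a (qp l k)).map (lmA (cA B)) =
      X.map (lmA (cA B)) * Uop l (tU B N.factorial) (T₀.map (lmA (cA B))) *
        Xi.map (lmA (cA B)) := by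
  rw [Uop, Finset.mul_sum, Finset.sum_mul]
  refine Finset.sum_congr rfl fun k _ => ?_
  rw [ha, aeval_conj h1 h2, aeval_mat_map, Matrix.mul_smul, Matrix.smul_mul, Matrix.map_mul,
    Matrix.map_mul]

/-- The operator of an invertible matrix over `B[z]`. -/
def posV {d : ℕ} (X : Matrix (Fin d) (Fin d) B[T;T⁻¹]) (hX : MGE 0 X) (hX1 : X.det = 1) :
    (Module.End B (ℕ × Fin d →₀ B))ˣ where
  val := vtoep X
  inv := vtoep X.adjugate
  val_inv := by rw [← vtoep_pos_mul hX, self_mul_adjugate hX1, vtoep_one]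
  inv_val := by rw [← vtoep_pos_mul hX.adjugate, adjugate_mul_self hX1, vtoep_one]

/-- The operator of an invertible matrix over `B[z⁻¹]`. -/
def negV {d : ℕ} (X : Matrix (Fin d) (Fin d) B[T;T⁻¹]) (hX : MLE 0 X) (hX1 : X.det = 1) :
    (Module.End B (ℕ × Fin d →₀ B))ˣ where
  val := vtoep X
  inv := vtoep X.adjugate
  val_inv := by rw [← vtoep_mul_neg _ hX.adjugate, self_mul_adjugate hX1, vtoep_one]
  inv_val := by rw [← vtoep_mul_neg _ hX, adjugate_mul_self hX1, vtoep_one]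

theorem map_adj {B' : Type} [CommRing B'] [Algebra ℂ B'] {d : ℕ} (f : B →ₐ[ℂ] B')
    (X : Matrix (Fin d) (Fin d) B) : X.adjugate.map f = (X.map f).adjugate := by
  have h := AlgHom.map_adjugate f X
  rw [AlgHom.mapMatrix_apply, AlgHom.mapMatrix_apply] at h
  exact h

theorem map_det' {B' : Type} [CommRing B'] [Algebra ℂ B'] {d : ℕ} (f : B →ₐ[ℂ] B')
    {X : Matrix (Fin d) (Fin d) B} (h : X.det = 1) : (X.map f).det = 1 := by
  have h1 := AlgHom.map_det f X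
  rw [AlgHom.mapMatrix_apply, h, map_one] at h1
  exact h1.symm

theorem fdet_conj' {A I : Type} [CommRing A] (u v : (Module.End A (I →₀ A))ˣ)
    (h : FinRank ((v : Module.End A (I →₀ A)) - 1)) :
    fdet ((u * v * u⁻¹ : (Module.End A (I →₀ A))ˣ) : Module.End A (I →₀ A)) =
      fdet (v : Module.End A (I →₀ A)) := fdet_conj u h

variable [IsDomain B] {g : Gr Γ B[T;T⁻¹]} {X Y : Matrix (Fin (dm Γ)) (Fin (dm Γ)) B[T;T⁻¹]}
    {l : Fin (dm Γ) → ℤ}

theorem toG_Adm_comm (g : Gr Γ B[T;T⁻¹]) (v : Fin (dm Γ) → B[T;T⁻¹]) :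
    toG Γ (Adm Γ (mx g) *ᵥ v) * mx g = mx g * toG Γ v := by
  rw [toG_Adm (isPt g), Matrix.mul_assoc, (isPt g).adj_mul, Matrix.mul_one]

theorem ex_mulVec (hZ : Cen Γ Z) (hg : TwZ Z ν g) {w w' : Fin (dm Γ) → B[T;T⁻¹]}
    (hw : w = Hm ν g *ᵥ w') :
    (fun i => ex ν B (w i)) = Adm Γ (mx g) *ᵥ fun i => ex ν B (w' i) := by
  ext1 i
  rw [hw, ← Hm_ex hZ hg, Matrix.mulVec, Matrix.mulVec, dotProduct, dotProduct, map_sum]
  exact Finset.sum_congr rfl fun j _ => map_mul _ _ _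

theorem Spl.of_Hm (hZ : Cen Γ Z) (hg : TwZ Z ν g) {w w' : Fin (dm Γ) → B[T;T⁻¹]}
    (hw : w = Hm ν g *ᵥ w') {J : Finset ℤ} (h : Spl l J w) : Spl l J w' := by
  have hexw := ex_mulVec hZ hg hw
  have hSex := h.map (ex ν B)
  have hSex' : Spl l J (fun i => ex ν B (w' i)) := by
    have c1 := toG_Adm_comm g (fun i => ex ν B (w' i))
    rw [← hexw] at c1
    have c2 : adG Γ (fun i => ex ν B (w i)) * Adm Γ (mx g) =
        Adm Γ (mx g) * adG Γ (fun i => ex ν B (w' i)) := by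
      rw [hexw]
      exact Adm_adG (isPt g) _
    have c3 : Adm Γ (mx g) * Adm Γ (mx g).adjugate = 1 := by
      rw [← Adm_mul (isPt g) (isPt g).adjugate, (isPt g).mul_adj, Adm_one]
    have c4 : Adm Γ (mx g).adjugate * Adm Γ (mx g) = 1 := by
      rw [← Adm_mul (isPt g).adjugate (isPt g), (isPt g).adj_mul, Adm_one]
    have c5 := aeval_comm c3 c4 c2 (sp l)
    have c6 := aeval_comm (isPt g).mul_adj (isPt g).adj_mul c1 (spp J (rj N) N)
    rw [hSex.1, Matrix.zero_mul] at c5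
    rw [hSex.2, Matrix.zero_mul] at c6
    refine ⟨?_, ?_⟩
    · have := congrArg (fun M => Adm Γ (mx g).adjugate * M) c5
      simp only [Matrix.mul_zero, ← Matrix.mul_assoc, c4, Matrix.one_mul] at this
      exact this.symm
    · have := congrArg (fun M => (mx g).adjugate * M) c6
      simp only [Matrix.mul_zero, ← Matrix.mul_assoc, (isPt g).adj_mul, Matrix.one_mul] at this
      exact this.symm
  exact hSex'.of_injective (ex ν B) ex_injective

/-- The grading element and its eigenvalues. -/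
theorem split_data (hK : KilDet Γ) (hZ : Cen Γ Z) (hd : AdDet Γ) (hg : TwZ Z ν g)
    (hX : MGE 0 X) (hX1 : X.det = 1) (hY : MLE 0 Y) (hY1 : Y.det = 1)
    (hHY : Hm ν g * Y = X * mono l) (hl : ∑ i, l i = 0) :
    ∃ (w w' : Fin (dm Γ) → B[T;T⁻¹]) (J : Finset ℤ) (x x' : Fin (dm Γ) → Polynomial B),
      w = Hm ν g *ᵥ w' ∧ IsGr l (fr X w) ∧ (∀ i, evP B 1 (x i) = w i) ∧
        (∀ i, evP B (-1) (x' i) = w' i) ∧ Spl l J x ∧ Spl l J x' := by
  have hH := Hm_det hZ hd hg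
  have hHa := Hm_adG hZ hg
  obtain ⟨w, w', hw, hwG, hwL, hWt, hrm⟩ := exists_grading hK hH hHa hX hX1 hY hY1 hHY hl
  have hT : IsGr l (fr X w) := ⟨hWt, hrm⟩
  have e1 : adG Γ w = X * fr X w * X.adjugate := by
    rw [mul_fr hX1, Matrix.mul_assoc, self_mul_adjugate hX1, Matrix.mul_one]
  have h1 : Polynomial.aeval (adG Γ w) (sp l) = 0 := by
    rw [e1, aeval_conj (self_mul_adjugate hX1) (adjugate_mul_self hX1), hT.annih, Matrix.mul_zero,
      Matrix.zero_mul]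
  obtain ⟨J, hJ⟩ := exists_spp hK h1
  have hSw : Spl l J w := ⟨h1, hJ⟩
  have hSw' : Spl l J w' := hSw.of_Hm hZ hg hw
  obtain ⟨x, hx⟩ := exists_poly (X := Matrix.of fun (i : Fin (dm Γ)) (_ : Fin 1) => w i)
    (fun i _ => hwG i)
  obtain ⟨x', hx'⟩ := exists_polyn (X := Matrix.of fun (i : Fin (dm Γ)) (_ : Fin 1) => w' i)
    (fun i _ => hwL i)
  have hx1 : ∀ i, evP B 1 (x i 0) = w i := fun i => congrFun (congrFun hx i) 0
  have hx1' : ∀ i, evP B (-1) (x' i 0) = w' i := fun i => congrFun (congrFun hx' i) 0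
  refine ⟨w, w', J, fun i => x i 0, fun i => x' i 0, hw, hT, hx1, hx1', ?_, ?_⟩
  · exact Spl.of_injective (evP B 1) evP_one_injective (by simp only [hx1]; exact hSw)
  · exact Spl.of_injective (evP B (-1)) evP_neg_one_injective (by simp only [hx1']; exact hSw')

theorem glue_cpt (hZ : Cen Γ Z) (hg : TwZ Z ν g) {w w' : Fin (dm Γ) → B[T;T⁻¹]}
    {J : Finset ℤ} {x x' : Fin (dm Γ) → Polynomial B} (hw : w = Hm ν g *ᵥ w')
    (hx1 : ∀ i, evP B 1 (x i) = w i) (hx1' : ∀ i, evP B (-1) (x' i) = w' i)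
    (hS1 : Spl l J x) (hS2 : Spl l J x') :
    gm (lmA (cA B)) g * neg ν Γ B[T;T⁻¹] (cpt hS2) =
      pos ν Γ B[T;T⁻¹] (cpt hS1) * gm (lmA (cA B)) g := by
  apply Gr.ext'
  rw [mx_mul, mx_mul]
  change (mx g).map (lmA (cA B)) * (mx (cpt hS2)).map (evP B[T;T⁻¹] (-ν)) =
    (mx (cpt hS1)).map (evP B[T;T⁻¹] ν) * (mx g).map (lmA (cA B))
  rw [cpt_evP, cpt_evP]
  have d1 : (fun i => lmA (cA B) (evP B ν (x i))) = fun i => lmA (cA B) (ex ν B (w i)) := by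
    funext i
    rw [← hx1 i, ← AlgHom.comp_apply (ex ν B), ex_evP, mul_one]
  have d2 : (fun i => lmA (cA B) (evP B (-ν) (x' i))) = fun i => lmA (cA B) (ex ν B (w' i)) := by
    funext i
    rw [← hx1' i, ← AlgHom.comp_apply (ex ν B), ex_evP, mul_neg, mul_one]
  rw [d1, d2]
  have c1 := toG_Adm_comm g (fun i => ex ν B (w' i))
  rw [← ex_mulVec hZ hg hw] at c1
  have c2 := congrArg (fun M : Matrix (Fin N) (Fin N) _ => M.map (lmA (cA B))) c1
  simp only [Matrix.map_mul, ← toG_map] at c2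
  have c3 : (mx g).map (lmA (cA B)) * ((mx g).map (lmA (cA B))).adjugate = 1 :=
    ((isPt g).map _).mul_adj
  have c4 : ((mx g).map (lmA (cA B))).adjugate * (mx g).map (lmA (cA B)) = 1 :=
    ((isPt g).map _).adj_mul
  rw [cch, cch, Finset.mul_sum, Finset.sum_mul]
  refine Finset.sum_congr rfl fun j _ => ?_
  rw [Matrix.mul_smul, Matrix.smul_mul, aeval_comm c3 c4 c2]

theorem map_MGE {d : ℕ} {X : Matrix (Fin d) (Fin d) B[T;T⁻¹]} (hX : MGE 0 X) :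
    MGE 0 (X.map (lmA (cA B))) := fun i j => (hX i j).map _

theorem map_MLE {d : ℕ} {X : Matrix (Fin d) (Fin d) B[T;T⁻¹]} (hX : MLE 0 X) :
    MLE 0 (X.map (lmA (cA B))) := fun i j => (hX i j).map _

theorem toepPos_cpt (hX : MGE 0 X) (hX1 : X.det = 1) {w : Fin (dm Γ) → B[T;T⁻¹]}
    (hT : IsGr l (fr X w)) {J : Finset ℤ} {x : Fin (dm Γ) → Polynomial B}
    (hx1 : ∀ i, evP B 1 (x i) = w i) (hS1 : Spl l J x) :
    toepPos Γ B[T;T⁻¹] (cpt hS1) =
      posV (X.map (lmA (cA B))) (map_MGE hX) (map_det' (lmA (cA B)) hX1) *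
        PU (hT.map (cA B)) (tU B N.factorial) *
        (posV (X.map (lmA (cA B))) (map_MGE hX) (map_det' (lmA (cA B)) hX1))⁻¹ := by
  have e1 : adG Γ w = X * fr X w * X.adjugate := by
    rw [mul_fr hX1, Matrix.mul_assoc, self_mul_adjugate hX1, Matrix.mul_one]
  apply Units.ext
  change vtoep (Adp Γ _ (cpt hS1)) = vtoep (X.map (lmA (cA B))) *
    vtoep (Uop l (tU B N.factorial) ((fr X w).map (lmA (cA B)))) *
    vtoep (X.map (lmA (cA B))).adjugate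
  rw [← vtoep_pos_mul (map_MGE hX), ← vtoep_pos_mul, Adp_eq, Adm_cpt hS1 1 hx1,
    sum_conj_Uop (self_mul_adjugate hX1) (adjugate_mul_self hX1) e1, map_adj]
  have := (map_MGE hX).mul (Uop_Wt (hT.map (cA B)) (tU B N.factorial)).MGE
  rwa [add_zero] at this

theorem adG_neg_conj (hHa : ∀ v, adG Γ (Hm ν g *ᵥ v) * Hm ν g = Hm ν g * adG Γ v)
    (hX1 : X.det = 1) (hY1 : Y.det = 1)
    (hHY : Hm ν g * Y = X * mono l) {w w' : Fin (dm Γ) → B[T;T⁻¹]} (hw : w = Hm ν g *ᵥ w') :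
    adG Γ w' = Y * mono (-l) * fr X w * (mono l * Y.adjugate) := by
  have h3 : adG Γ w * Hm ν g = Hm ν g * adG Γ w' := by rw [hw, hHa]
  have h4 := frame_conj (Γ := Γ) hX1 hY1 (mono_neg_mul l) hHY h3
  have h5 : mono (-l) * fr X w * mono l = Y.adjugate * (adG Γ w' * Y) := h4
  calc adG Γ w' = (Y * Y.adjugate) * adG Γ w' * (Y * Y.adjugate) := by
        rw [self_mul_adjugate hY1, Matrix.one_mul, Matrix.mul_one]
    _ = Y * (Y.adjugate * (adG Γ w' * Y)) * Y.adjugate := by simp only [Matrix.mul_assoc]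
    _ = _ := by rw [← h5]; simp only [Matrix.mul_assoc]

theorem Adn_cpt (hHa : ∀ v, adG Γ (Hm ν g *ᵥ v) * Hm ν g = Hm ν g * adG Γ v)
    (hX1 : X.det = 1) (hY1 : Y.det = 1)
    (hHY : Hm ν g * Y = X * mono l) {w w' : Fin (dm Γ) → B[T;T⁻¹]} (hw : w = Hm ν g *ᵥ w')
    {J : Finset ℤ} {x' : Fin (dm Γ) → Polynomial B}
    (hx1' : ∀ i, evP B (-1) (x' i) = w' i) (hS2 : Spl l J x') :
    Adn Γ B[T;T⁻¹] (cpt hS2) = Y.map (lmA (cA B)) *
      (mono (-l) * Uop l (tU B N.factorial) ((fr X w).map (lmA (cA B))) * mono l) *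
        (Y.map (lmA (cA B))).adjugate := by
  have c1 : Y * mono (-l) * (mono l * Y.adjugate) = 1 := by
    calc _ = Y * (mono (-l) * mono l) * Y.adjugate := by simp only [Matrix.mul_assoc]
      _ = 1 := by rw [mono_neg_mul, Matrix.mul_one, self_mul_adjugate hY1]
  have c2 : mono l * Y.adjugate * (Y * mono (-l)) = 1 := by
    calc _ = mono l * (Y.adjugate * Y) * mono (-l) := by simp only [Matrix.mul_assoc]
      _ = 1 := by rw [adjugate_mul_self hY1, Matrix.mul_one, mono_mul_neg]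
  rw [Adn_eq, Adm_cpt hS2 (-1) hx1', sum_conj_Uop c1 c2 (adG_neg_conj hHa hX1 hY1 hHY hw),
    Matrix.map_mul, Matrix.map_mul, map_mono, map_mono, map_adj]
  simp only [Matrix.mul_assoc]

theorem toepNeg_cpt (hHa : ∀ v, adG Γ (Hm ν g *ᵥ v) * Hm ν g = Hm ν g * adG Γ v)
    (hX1 : X.det = 1) (hY : MLE 0 Y) (hY1 : Y.det = 1)
    (hHY : Hm ν g * Y = X * mono l) {w w' : Fin (dm Γ) → B[T;T⁻¹]} (hw : w = Hm ν g *ᵥ w')
    (hT : IsGr l (fr X w)) {J : Finset ℤ} {x' : Fin (dm Γ) → Polynomial B}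
    (hx1' : ∀ i, evP B (-1) (x' i) = w' i) (hS2 : Spl l J x') :
    toepNeg Γ B[T;T⁻¹] (cpt hS2) =
      negV (Y.map (lmA (cA B))) (map_MLE hY) (map_det' (lmA (cA B)) hY1) *
        NU (hT.map (cA B)) (tU B N.factorial) *
        (negV (Y.map (lmA (cA B))) (map_MLE hY) (map_det' (lmA (cA B)) hY1))⁻¹ := by
  have c1 := Adn_cpt hHa hX1 hY1 hHY hw hx1' hS2
  have c2 := congrArg (fun M : Matrix (Fin (dm Γ)) (Fin (dm Γ)) (B[T;T⁻¹])[T;T⁻¹] => vtoep M) c1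
  have c3 := vtoep_mul_neg (Y.map (lmA (cA B)) *
      (mono (-l) * Uop l (tU B N.factorial) ((fr X w).map (lmA (cA B))) * mono l))
    (map_MLE hY).adjugate
  have c4 := vtoep_mul_neg (Y.map (lmA (cA B)))
    (Uop_Wt (hT.map (cA B)) (tU B N.factorial)).MLE
  apply Units.ext
  refine c2.trans (c3.trans ?_)
  rw [c4]
  rfl

theorem grp_aux {G : Type*} [Group G] (X P S Y Q : G) :
    X * P * X⁻¹ * S * (Y * Q * Y⁻¹)⁻¹ * S⁻¹ =
      X * (P * (X⁻¹ * S * Y) * Q⁻¹ * (X⁻¹ * S * Y)⁻¹) * X⁻¹ := by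
  group

/-- The split framing. -/
def spS (S : OprU Γ B) (hX : MGE 0 X) (hX1 : X.det = 1) (hY : MLE 0 Y) (hY1 : Y.det = 1) :
    (Module.End B (ℕ × Fin (dm Γ) →₀ B))ˣ := (posV X hX hX1)⁻¹ * S * negV Y hY hY1

theorem spS_finRank {S : OprU Γ B} (hS : IsFraming ν g S) (hX : MGE 0 X) (hX1 : X.det = 1)
    (hY : MLE 0 Y) (hY1 : Y.det = 1) (hHY : Hm ν g * Y = X * mono l) :
    FinRank ((spS S hX hX1 hY hY1 : Module.End B (ℕ × Fin (dm Γ) →₀ B)) - vtoep (mono l)) := by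
  have hS' : FinRank ((S : Module.End B (ℕ × Fin (dm Γ) →₀ B)) - vtoep (Hm ν g)) := by
    rw [← toep_Hm]
    exact hS
  have f1 := (FinRank.mul_left hS' (vtoep X.adjugate)).mul_right (vtoep Y)
  have f2 : vtoep X.adjugate * (vtoep (Hm ν g) * vtoep Y) =
      (vtoep (mono l) : Module.End B (ℕ × Fin (dm Γ) →₀ B)) := by
    rw [← vtoep_mul_neg _ hY, ← vtoep_pos_mul hX.adjugate, hHY, ← Matrix.mul_assoc,
      adjugate_mul_self hX1, Matrix.one_mul]
  rw [← f2]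
  have f3 : ∀ {E : Type} [Ring E] (p s h y : E), p * (s - h) * y = p * s * y - p * (h * y) := by
    intro E _ p s h y
    noncomm_ring
  have f4 := f3 (vtoep X.adjugate) (S : Module.End B (ℕ × Fin (dm Γ) →₀ B))
    (vtoep (Hm ν g)) (vtoep Y)
  have f5 : (spS S hX hX1 hY hY1 : Module.End B (ℕ × Fin (dm Γ) →₀ B)) = vtoep X.adjugate *
    (S : Module.End B (ℕ × Fin (dm Γ) →₀ B)) * vtoep Y := rfl
  rw [f5]
  exact f4 ▸ f1

theorem spS_bc (S : OprU Γ B) (hX : MGE 0 X) (hX1 : X.det = 1) (hY : MLE 0 Y) (hY1 : Y.det = 1) :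
    Units.map (bcHom (ℕ × Fin (dm Γ)) (cA B : B →+* B[T;T⁻¹])) (spS S hX hX1 hY hY1) =
      (posV (X.map (lmA (cA B))) (map_MGE hX) (map_det' (lmA (cA B)) hX1))⁻¹ *
        bcU Γ (cA B) S * negV (Y.map (lmA (cA B))) (map_MLE hY) (map_det' (lmA (cA B)) hY1) := by
  have hXU : Units.map (bcHom (ℕ × Fin (dm Γ)) (cA B : B →+* B[T;T⁻¹])) (posV X hX hX1) =
      posV (X.map (lmA (cA B))) (map_MGE hX) (map_det' (lmA (cA B)) hX1) :=
    Units.ext (bc_vtoep _ X)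
  have hYU : Units.map (bcHom (ℕ × Fin (dm Γ)) (cA B : B →+* B[T;T⁻¹])) (negV Y hY hY1) =
      negV (Y.map (lmA (cA B))) (map_MLE hY) (map_det' (lmA (cA B)) hY1) :=
    Units.ext (bc_vtoep _ Y)
  rw [spS, map_mul, map_mul, map_inv, hXU, hYU]
  rfl

/-- The action of the one-parameter group on the determinant line. -/
theorem weight_cpt {S : OprU Γ B} (hS : IsFraming ν g S) (hX : MGE 0 X) (hX1 : X.det = 1)
    (hY : MLE 0 Y) (hY1 : Y.det = 1) (hHY : Hm ν g * Y = X * mono l)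
    (hHa : ∀ v, adG Γ (Hm ν g *ᵥ v) * Hm ν g = Hm ν g * adG Γ v)
    {w w' : Fin (dm Γ) → B[T;T⁻¹]} (hw : w = Hm ν g *ᵥ w')
    (hT : IsGr l (fr X w)) {J : Finset ℤ} {x x' : Fin (dm Γ) → Polynomial B}
    (hx1 : ∀ i, evP B 1 (x i) = w i) (hx1' : ∀ i, evP B (-1) (x' i) = w' i)
    (hS1 : Spl l J x) (hS2 : Spl l J x') :
    fdet ((toepPos Γ B[T;T⁻¹] (cpt hS1) * bcU Γ (cA B) S *
      (toepNeg Γ B[T;T⁻¹] (cpt hS2))⁻¹ * (bcU Γ (cA B) S)⁻¹ : OprU Γ B[T;T⁻¹]) :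
        Opr Γ B[T;T⁻¹]) =
      fdet (fwU (isGr_dgl (R := B[T;T⁻¹]) l) (tU B N.factorial)
        (Units.map (bcHom (ℕ × Fin (dm Γ)) (cA B : B →+* B[T;T⁻¹])) (spS S hX hX1 hY hY1)) :
          Module.End B[T;T⁻¹] (ℕ × Fin (dm Γ) →₀ B[T;T⁻¹])) := by
  have hS₀3 : FinRank (((Units.map (bcHom (ℕ × Fin (dm Γ)) (cA B : B →+* B[T;T⁻¹]))
      (spS S hX hX1 hY hY1) : OprU Γ B[T;T⁻¹]) : Opr Γ B[T;T⁻¹]) - vtoep (mono l)) := by
    have h1 := (spS_finRank hS hX hX1 hY hY1 hHY).bc (cA B : B →+* B[T;T⁻¹])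
    rw [bc_sub, bc_vtoep, mp_mono] at h1
    exact h1
  have hfw : toepPos Γ B[T;T⁻¹] (cpt hS1) * bcU Γ (cA B) S *
      (toepNeg Γ B[T;T⁻¹] (cpt hS2))⁻¹ * (bcU Γ (cA B) S)⁻¹ =
      posV (X.map (lmA (cA B))) (map_MGE hX) (map_det' (lmA (cA B)) hX1) *
        fwU (hT.map (cA B)) (tU B N.factorial)
        (Units.map (bcHom (ℕ × Fin (dm Γ)) (cA B : B →+* B[T;T⁻¹])) (spS S hX hX1 hY hY1)) *
        (posV (X.map (lmA (cA B))) (map_MGE hX) (map_det' (lmA (cA B)) hX1))⁻¹ := by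
    rw [toepPos_cpt hX hX1 hT hx1 hS1, toepNeg_cpt hHa hX1 hY hY1 hHY hw hT hx1' hS2, spS_bc]
    exact grp_aux _ _ _ _ _
  rw [hfw, fdet_conj' _ _ (fwU_finRank (hT.map (cA B)) _ hS₀3), fw_eq_dgl (hT.map (cA B)) _ hS₀3]

/-- **The one-parameter group of automorphisms of a nontrivial bundle.** -/
theorem torus_split (hK : KilDet Γ) (hZ : Cen Γ Z) (hd : AdDet Γ) (X₀ : BunObj Γ Z ν)
    [IsDomain X₀.A.R] {X Y : Matrix (Fin (dm Γ)) (Fin (dm Γ)) (X₀.A.R)[T;T⁻¹]}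
    {l : Fin (dm Γ) → ℤ} (hX : MGE 0 X) (hX1 : X.det = 1) (hY : MLE 0 Y) (hY1 : Y.det = 1)
    (hHY : Hm ν X₀.g * Y = X * mono l) (hl : ∑ i, l i = 0) (hl0 : l ≠ 0) :
    ∃ (a b : Gr Γ (Polynomial (X₀.A.R)[T;T⁻¹])) (ht : GmGlue X₀ a b) (m : ℤ), m ≠ 0 ∧
      (((Bun Γ Z ν).dl (gmSigma X₀ a b ht) : ((X₀.A.R)[T;T⁻¹])ˣ) : (X₀.A.R)[T;T⁻¹]) = T m := by
  have htw : TwZ Z ν X₀.g := X₀.tw
  obtain ⟨w, w', J, x, x', hw, hT, hx1, hx1', hS1, hS2⟩ :=
    split_data hK hZ hd htw hX hX1 hY hY1 hHY hl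
  obtain ⟨m, hm0, hm⟩ := grading_weight l hl0 hl N.factorial N.factorial_ne_zero
  have ht : GmGlue X₀ (cpt hS1) (cpt hS2) := glue_cpt hZ htw hw hx1 hx1' hS1 hS2
  refine ⟨cpt hS1, cpt hS2, ht, m, hm0, ?_⟩
  have e1 := gmSigma_dl X₀ (cpt hS1) (cpt hS2) ht
  have e2 := weight_cpt X₀.framing hX hX1 hY hY1 hHY (Hm_adG hZ htw) hw hT hx1 hx1' hS1 hS2
  exact e1.trans (e2.trans (hm X₀.A.R _ (spS_finRank X₀.framing hX hX1 hY hY1 hHY)))

end Main

end

end Vale.Agent.P286.Gen
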